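import Crest.Agent.R244.Defs
import Crest.Agent.R205.Flow

/-! # R244: ordinary differential equations -/

open scoped ContDiff Topology Manifold
open Set Filter
open Crest.GeometryTopology.CoordMetric

noncomputable section

namespace Crest.Agent.R244

set_option linter.unusedSectionVars false
set_option linter.unusedVariables false

section
variable {B B' : Type} [NormedAddCommGroup B] [NormedSpace ℝ B] [NormedAddCommGroup B']
  [NormedSpace ℝ B']

theorem ODE_nem_hasFDerivAt {f : B → B'} (hf : Differentiable ℝ f) (hf' : Continuous (fderiv ℝ f))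
    (γ : C(unitInterval, B)) :
    HasFDerivAt (fun γ : C(unitInterval, B) => (⟨f, hf.continuous⟩ : C(B, B')).comp γ)
      (R205.liftBilin (ContinuousLinearMap.id ℝ (B →L[ℝ] B'))
        ((⟨fderiv ℝ f, hf'⟩ : C(B, B →L[ℝ] B')).comp γ)) γ := by
  rw [hasFDerivAt_iff_isLittleO_nhds_zero, Asymptotics.isLittleO_iff]
  intro ε hε
  have hK : IsCompact (range γ) := isCompact_range γ.continuous
  have hU := hK.uniformContinuousAt_of_continuousAt (fderiv ℝ f)
    (fun a _ => hf'.continuousAt) (Metric.dist_mem_uniformity hε)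
  obtain ⟨δ, hδ, hU⟩ := Metric.mem_uniformity_dist.1 hU
  filter_upwards [Metric.ball_mem_nhds (0 : C(unitInterval, B)) hδ] with η hη
  rw [mem_ball_zero_iff] at hη
  refine (ContinuousMap.norm_le _ (by positivity)).2 fun s => ?_
  have hb : ∀ x ∈ Metric.ball (γ s) δ, ‖fderiv ℝ f x - fderiv ℝ f (γ s)‖ ≤ ε := by
    intro x hx
    have h1 : dist (γ s) x < δ := by rw [dist_comm]; exact hx
    have h2 := hU h1 ⟨s, rfl⟩
    simp only [mem_ofPred_eq] at h2
    rw [dist_comm, dist_eq_norm] at h2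
    exact h2.le
  have hηs : ‖η s‖ ≤ ‖η‖ := η.norm_coe_le_norm s
  have hmem : γ s + η s ∈ Metric.ball (γ s) δ := by
    rw [Metric.mem_ball, dist_eq_norm, add_sub_cancel_left]
    exact hηs.trans_lt hη
  have h := (convex_ball (γ s) δ).norm_image_sub_le_of_norm_fderiv_le' (𝕜 := ℝ)
    (fun x _ => hf x) hb (Metric.mem_ball_self hδ) hmem
  rw [add_sub_cancel_left] at h
  calc _ = ‖f (γ s + η s) - f (γ s) - fderiv ℝ f (γ s) (η s)‖ := by simp
    _ ≤ ε * ‖η s‖ := h
    _ ≤ ε * ‖η‖ := by gcongr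

theorem ODE_nem_aux (n : ℕ) : ∀ (B' : Type) [NormedAddCommGroup B'] [NormedSpace ℝ B']
    (f : B → B') (hf : ContDiff ℝ n f),
    ContDiff ℝ n (fun γ : C(unitInterval, B) => (⟨f, hf.continuous⟩ : C(B, B')).comp γ) := by
  induction n with
  | zero =>
    intro B' _ _ f hf
    exact contDiff_zero.2 (ContinuousMap.continuous_postcomp _)
  | succ n ih =>
    intro B' _ _ f hf
    have hf1 : ContDiff ℝ ((n : WithTop ℕ∞) + 1) f := by exact_mod_cast hf
    obtain ⟨hd, -, hD⟩ := contDiff_succ_iff_fderiv.1 hf1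
    have h1 := ih (B →L[ℝ] B') (fderiv ℝ f) hD
    have h2 : ContDiff ℝ ((n : WithTop ℕ∞) + 1)
        (fun γ : C(unitInterval, B) => (⟨f, hf.continuous⟩ : C(B, B')).comp γ) := by
      refine contDiff_succ_iff_hasFDerivAt.2 ⟨fun γ =>
        R205.liftBilin (ContinuousLinearMap.id ℝ (B →L[ℝ] B'))
          ((⟨fderiv ℝ f, hD.continuous⟩ : C(B, B →L[ℝ] B')).comp γ), ?_, fun γ => ?_⟩
      · have h0 : ContDiff ℝ n (fun γ : C(unitInterval, B →L[ℝ] B') =>
            R205.liftBilin (ContinuousLinearMap.id ℝ (B →L[ℝ] B')) γ) := by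
          have := ContinuousLinearMap.contDiff (𝕜 := ℝ) (n := n)
            (E := C(unitInterval, B →L[ℝ] B'))
            (F := C(unitInterval, B) →L[ℝ] C(unitInterval, B'))
            (R205.liftBilin (ContinuousLinearMap.id ℝ (B →L[ℝ] B')))
          exact this
        exact h0.comp h1
      · exact ODE_nem_hasFDerivAt hd hD.continuous γ
    exact_mod_cast h2

/-- Composition operators are `C^n`.  Recipe: induction on `n` generalizing `B'` and `f`
(`contDiff_succ_iff_hasFDerivAt` / `contDiff_succ_iff_fderiv`): the derivative at `γ` is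
`η ↦ (s ↦ fderiv f (γ s) (η s))` = `R205.liftBilin (ContinuousLinearMap.id ..) (N_{fderiv f} γ)`;
differentiability from uniform continuity of `fderiv f` on the compact `cthickening 1 (range γ)` and
the mean value inequality; `n = 0`: `ContinuousMap.continuous_postcomp`. -/
theorem nem_contDiff [FiniteDimensional ℝ B] (n : ℕ) {f : B → B'} (hf : ContDiff ℝ n f) :
    ContDiff ℝ n (fun γ : C(unitInterval, B) =>
      (⟨f, hf.continuous⟩ : C(B, B')).comp γ) :=
  ODE_nem_aux n B' f hf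

open R205 Metric unitInterval in
/-- `C³` local flow near the origin of a globally `C³` field -/
theorem ODE_flow_zero [FiniteDimensional ℝ B] {V : B → B} (hV : ContDiff ℝ (3 : ℕ) V) :
    ∃ δ : ℝ, 0 < δ ∧ ∃ Φ : ℝ × B → B,
      (∀ p ∈ Ioo (-δ) δ ×ˢ ball (0 : B) δ, ContDiffAt ℝ 3 Φ p) ∧
      ∀ z ∈ ball (0 : B) δ, Φ (0, z) = z ∧
        ∀ t ∈ Ioo (-δ) δ, HasDerivAt (fun s => Φ (s, z)) (V (Φ (t, z))) t := by
  have : CompleteSpace B := FiniteDimensional.complete ℝ B
  have hVc : Continuous V := hV.continuous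
  obtain ⟨N, hN, hN'⟩ : ∃ N : C(I, B) → C(I, B), ContDiff ℝ 3 N ∧ ∀ γ s, N γ s = V (γ s) :=
    ⟨_, nem_contDiff 3 hV, fun _ _ => rfl⟩
  let f : (ℝ × B) × C(I, B) → C(I, B) := fun q =>
    q.2 - ContinuousLinearMap.const ℝ I q.1.2 - q.1.1 • prim (N q.2)
  have hf : ContDiff ℝ 3 f := by
    refine (contDiff_snd.sub ?_).sub ?_
    · exact (ContinuousLinearMap.contDiff (𝕜 := ℝ) (E := B) (F := C(I, B))
        (ContinuousLinearMap.const ℝ I)).comp (contDiff_snd.comp contDiff_fst)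
    · exact (contDiff_fst.comp contDiff_fst).smul (prim.contDiff.comp (hN.comp contDiff_snd))
  have hf0 : ContDiffAt ℝ 3 f (0 : (ℝ × B) × C(I, B)) := hf.contDiffAt
  have hinv : (fderiv ℝ f 0 ∘L .inr ℝ (ℝ × B) C(I, B)).IsInvertible := by
    have h1 : HasFDerivAt (f ∘ (ContinuousLinearMap.inr ℝ (ℝ × B) C(I, B)))
        (fderiv ℝ f 0 ∘L .inr ℝ (ℝ × B) C(I, B)) 0 := by
      refine HasFDerivAt.comp _ ?_ (ContinuousLinearMap.inr ℝ (ℝ × B) C(I, B)).hasFDerivAt
      rw [map_zero]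
      exact (hf.differentiable (by simp) 0).hasFDerivAt
    have h2 : (f ∘ (ContinuousLinearMap.inr ℝ (ℝ × B) C(I, B))) = id := by
      funext γ
      simp [f]
    rw [h2] at h1
    rw [h1.unique (hasFDerivAt_id _)]
    exact ⟨ContinuousLinearEquiv.refl _ _, rfl⟩
  set ψ := hf0.implicitFunction (by simp) hinv with hψ
  have hψc : ContDiffAt ℝ 3 ψ 0 := hf0.contDiffAt_implicitFunction (by simp) hinv
  have hψ0 : ψ 0 = 0 := hf0.implicitFunction_apply_self (by simp) hinv
  have hf00 : f 0 = 0 := by simp [f]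
  have huniq : ∀ᶠ v in 𝓝 (0 : (ℝ × B) × C(I, B)), f v = 0 ↔ ψ v.1 = v.2 := by
    simpa [hf00] using hf0.eventually_apply_eq_iff_implicitFunction (by simp) hinv
  obtain ⟨ε, hε, huniq⟩ := Metric.eventually_nhds_iff_ball.1 huniq
  have h1 : ∀ᶠ p in 𝓝 (0 : ℝ × B), ContDiffAt ℝ 3 ψ p := hψc.eventually (by simp)
  have h2 : ∀ᶠ p in 𝓝 (0 : ℝ × B), ψ p ∈ ball (0 : C(I, B)) ε := by
    apply hψc.continuousAt.eventually_mem
    rw [hψ0]; exact ball_mem_nhds _ hε
  have h3 : ∀ᶠ p in 𝓝 (0 : ℝ × B), p ∈ ball (0 : ℝ × B) ε := ball_mem_nhds _ hε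
  obtain ⟨δ, hδ, hall⟩ := Metric.eventually_nhds_iff_ball.1 (h1.and (h2.and h3))
  have hmem : ∀ t ∈ Ioo (-δ) δ, ∀ z ∈ ball (0 : B) δ, (t, z) ∈ ball (0 : ℝ × B) δ := by
    intro t ht z hz
    rw [mem_ball_zero_iff] at hz ⊢
    rw [Prod.norm_def]
    exact max_lt (by rw [Real.norm_eq_abs, abs_lt]; exact ht) hz
  have hmem2 : ∀ p ∈ ball (0 : ℝ × B) δ, ∀ γ ∈ ball (0 : C(I, B)) ε,
      (p, γ) ∈ ball (0 : (ℝ × B) × C(I, B)) ε := by
    intro p hp γ hγ
    have := (hall p hp).2.2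
    rw [mem_ball_zero_iff] at this hγ ⊢
    rw [Prod.norm_def]
    exact max_lt this hγ
  have heq : ∀ p ∈ ball (0 : ℝ × B) δ, ∀ s : I,
      ψ p s = p.2 + p.1 • (s : ℝ) • ∫ r in (0 : ℝ)..1, V (ψ p (s * pr r)) := by
    intro p hp s
    have h := (huniq _ (hmem2 p hp _ (hall p hp).2.1)).2 rfl
    have h' := congrArg (fun γ : C(I, B) => γ s) h
    simp only [f, ContinuousMap.sub_apply, ContinuousMap.smul_apply, prim_apply, hN',
      ContinuousMap.zero_apply] at h'
    rw [sub_sub, sub_eq_zero] at h'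
    simpa using h'
  -- scaling
  have hscale : ∀ t ∈ Ioo (-δ) δ, ∀ z ∈ ball (0 : B) δ, ∀ s : I,
      ψ (t * s, z) 1 = ψ (t, z) s := by
    intro t ht z hz s
    have hts : t * s ∈ Ioo (-δ) δ := by
      have : |t * s| < δ := by
        rw [abs_mul, abs_of_nonneg s.2.1]
        calc |t| * s ≤ |t| * 1 := by gcongr; exact s.2.2
          _ < δ := by rw [mul_one, abs_lt]; exact ht
      exact abs_lt.1 this
    let γ : C(I, B) := (ψ (t, z)).comp ⟨fun r => s * r, by fun_prop⟩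
    have hγ : γ ∈ ball (0 : C(I, B)) ε := by
      have := (hall _ (hmem t ht z hz)).2.1
      rw [mem_ball_zero_iff] at this ⊢
      refine lt_of_le_of_lt ?_ this
      exact (ContinuousMap.norm_le _ (norm_nonneg _)).2 fun r => (ψ (t, z)).norm_coe_le_norm _
    have h := (huniq _ (hmem2 _ (hmem _ hts z hz) γ hγ)).1 (by
      ext r
      simp only [f, ContinuousMap.sub_apply, ContinuousMap.smul_apply, prim_apply, hN',
        ContinuousMap.zero_apply, γ, ContinuousMap.comp_apply, ContinuousMap.coe_mk]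
      rw [heq _ (hmem t ht z hz) (s * r)]
      simp [smul_smul, mul_assoc])
    simp only at h
    rw [h]
    simp [γ]
  refine ⟨δ, hδ, fun p => ψ p 1, fun p hp => ?_, fun z hz => ⟨?_, fun t ht => ?_⟩⟩
  · exact (ContinuousMap.evalCLM ℝ (1 : I)).contDiff.contDiffAt.comp p
      (hall p (hmem _ hp.1 _ hp.2)).1
  · have := heq _ (hmem 0 ⟨by linarith, hδ⟩ z hz) 1
    simpa using this
  · have hcont : ContinuousOn (fun s : ℝ => V (ψ (s, z) 1)) (Ioo (-δ) δ) := by
      intro s hs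
      refine ContinuousAt.continuousWithinAt ?_
      refine hVc.continuousAt.comp ?_
      refine (ContinuousMap.evalCLM ℝ (1 : I)).continuous.continuousAt.comp
        (f := fun s : ℝ => ψ (s, z)) ?_
      exact (hall _ (hmem s hs z hz)).1.continuousAt.comp (f := fun s : ℝ => (s, z)) (by fun_prop)
    have hint : ∀ s ∈ Ioo (-δ) δ, ψ (s, z) 1 = z + ∫ r in (0 : ℝ)..s, V (ψ (r, z) 1) := by
      intro s hs
      rw [heq _ (hmem s hs z hz) 1]
      simp only [Set.Icc.coe_one, one_smul, one_mul, add_right_inj]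
      have : ∫ r in (0 : ℝ)..1, V (ψ (s, z) (pr r)) = ∫ r in (0 : ℝ)..1, V (ψ (s * r, z) 1) := by
        refine intervalIntegral.integral_congr fun r hr => ?_
        rw [uIcc_of_le zero_le_one] at hr
        rw [← hscale s hs z hz (pr r), pr_coe hr]
      rw [this, intervalIntegral.smul_integral_comp_mul_left (fun r => V (ψ (r, z) 1)) s]
      simp
    have h0 : (0 : ℝ) ∈ Ioo (-δ) δ := ⟨by linarith, hδ⟩
    have hd : HasDerivAt (fun s => z + ∫ r in (0 : ℝ)..s, V (ψ (r, z) 1)) (V (ψ (t, z) 1)) t := by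
      refine HasDerivAt.const_add z ?_
      refine intervalIntegral.integral_hasDerivAt_right ?_ ?_ ?_
      · refine (hcont.mono ?_).intervalIntegrable
        exact (ordConnected_Ioo.uIcc_subset h0 ht)
      · exact hcont.stronglyMeasurableAtFilter isOpen_Ioo t ht
      · exact hcont.continuousAt (isOpen_Ioo.mem_nhds ht)
    refine hd.congr_of_eventuallyEq ?_
    filter_upwards [isOpen_Ioo.mem_nhds ht] with s hs using hint s hs

/-- cut-off: a field smooth on an open set agrees near a point with a globally smooth field -/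
theorem ODE_cutoff [FiniteDimensional ℝ B] {F : B → B'} {U : Set B} (hU : IsOpen U)
    (hF : ContDiffOn ℝ ∞ F U) {z0 : B} (h0 : z0 ∈ U) :
    ∃ G : B → B', ContDiff ℝ ∞ G ∧ ∀ᶠ z in 𝓝 z0, G z = F z := by
  obtain ⟨r, hr, hrU⟩ := Metric.nhds_basis_closedBall.mem_iff.1 (hU.mem_nhds h0)
  let χ : ContDiffBump z0 := ⟨r / 2, r, by positivity, by linarith⟩
  refine ⟨fun z => χ z • F z, ?_, ?_⟩
  · rw [contDiff_iff_contDiffAt]
    intro z
    by_cases hz : z ∈ U
    · exact χ.contDiff.contDiffAt.smul (hF.contDiffAt (hU.mem_nhds hz))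
    · have hz' : z ∉ tsupport χ := by
        rw [χ.tsupport_eq]
        exact fun h => hz (hrU h)
      have h1 : (χ : B → ℝ) =ᶠ[𝓝 z] 0 := notMem_tsupport_iff_eventuallyEq.1 hz'
      refine (contDiffAt_const (c := (0 : B'))).congr_of_eventuallyEq ?_
      filter_upwards [h1] with w hw
      simp [hw]
  · filter_upwards [χ.eventuallyEq_one] with z hz
    simp [hz]

/-- `C³` local flow.  Recipe: cut `F` off with a `ContDiffBump` at `z0` to a global `C^∞` field,
translate `z0` to `0`, and copy the proof of `R205.exists_local_flow` (implicit function theorem on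
`C(I,B)`) with `nem_contDiff 3`; `ContDiffAt.eventually` works for `n = 3`; shrink `δ` so that the
flow stays where the cut-off equals `F`. -/
theorem local_flow [FiniteDimensional ℝ B] {F : B → B} {U : Set B} (hU : IsOpen U)
    (hF : ContDiffOn ℝ ∞ F U) {z0 : B} (h0 : z0 ∈ U) :
    ∃ δ : ℝ, 0 < δ ∧ ∃ Φ : ℝ × B → B,
      (∀ p ∈ Ioo (-δ) δ ×ˢ Metric.ball z0 δ, ContDiffAt ℝ 3 Φ p ∧ Φ p ∈ U) ∧
      ∀ z ∈ Metric.ball z0 δ, Φ (0, z) = z ∧
        ∀ t ∈ Ioo (-δ) δ, HasDerivAt (fun s => Φ (s, z)) (F (Φ (t, z))) t := by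
  obtain ⟨G, hG, hGF⟩ := ODE_cutoff hU hF h0
  have hV : ContDiff ℝ (3 : ℕ) (fun w => G (z0 + w)) :=
    (contDiff_infty.1 hG 3).comp (contDiff_const.add contDiff_id)
  obtain ⟨δ, hδ, Φ, hΦ, hΦ'⟩ := ODE_flow_zero hV
  have h00 : ((0 : ℝ), (0 : B)) ∈ Ioo (-δ) δ ×ˢ Metric.ball (0 : B) δ :=
    ⟨⟨by linarith, hδ⟩, Metric.mem_ball_self hδ⟩
  have hc : ContinuousAt (fun p : ℝ × B => z0 + Φ p) (0, 0) :=
    continuousAt_const.add (hΦ _ h00).continuousAt
  have hΦ0 : z0 + Φ (0, 0) = z0 := by rw [(hΦ' 0 (Metric.mem_ball_self hδ)).1, add_zero]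
  have hev : ∀ᶠ p : ℝ × B in 𝓝 (0, 0), z0 + Φ p ∈ U ∧ G (z0 + Φ p) = F (z0 + Φ p) := by
    have h1 : ∀ᶠ z in 𝓝 z0, z ∈ U ∧ G z = F z := (hU.eventually_mem h0).and hGF
    rw [← hΦ0] at h1
    exact hc.eventually h1
  obtain ⟨η, hη, hev⟩ := Metric.eventually_nhds_iff_ball.1 hev
  have hball : ∀ z ∈ Metric.ball z0 (min δ η), ‖z - z0‖ < min δ η := fun z hz => by
    rwa [Metric.mem_ball, dist_eq_norm] at hz
  have hI : ∀ t ∈ Ioo (-min δ η) (min δ η), |t| < min δ η := fun t ht => abs_lt.2 ht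
  have hA : ∀ t ∈ Ioo (-min δ η) (min δ η), t ∈ Ioo (-δ) δ := fun t ht =>
    abs_lt.1 ((hI t ht).trans_le (min_le_left _ _))
  have hB : ∀ z ∈ Metric.ball z0 (min δ η), z - z0 ∈ Metric.ball (0 : B) δ := fun z hz =>
    mem_ball_zero_iff.2 ((hball z hz).trans_le (min_le_left _ _))
  have hC : ∀ t ∈ Ioo (-min δ η) (min δ η), ∀ z ∈ Metric.ball z0 (min δ η),
      (t, z - z0) ∈ Metric.ball ((0, 0) : ℝ × B) η := fun t ht z hz => by
    rw [Metric.mem_ball, Prod.dist_eq, dist_zero_right, dist_zero_right]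
    exact max_lt ((hI t ht).trans_le (min_le_right _ _))
      ((hball z hz).trans_le (min_le_right _ _))
  refine ⟨min δ η, lt_min hδ hη, fun p => z0 + Φ (p.1, p.2 - z0), fun p hp => ⟨?_, ?_⟩,
    fun z hz => ⟨?_, fun t ht => ?_⟩⟩
  · refine contDiffAt_const.add ?_
    exact (hΦ (p.1, p.2 - z0) ⟨hA _ hp.1, hB _ hp.2⟩).comp p
      (contDiffAt_fst.prodMk (contDiffAt_snd.sub contDiffAt_const))
  · exact (hev _ (hC _ hp.1 _ hp.2)).1
  · simp only
    rw [(hΦ' _ (hB z hz)).1, add_sub_cancel]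
  · have h := ((hΦ' _ (hB z hz)).2 t (hA t ht)).const_add z0
    simp only at h ⊢
    rw [(hev _ (hC t ht z hz)).2] at h
    exact h

/-- local uniqueness (`ODE_solution_unique_of_eventually`, `ContDiffAt.exists_lipschitzOnWith`) -/
theorem ode_unique {F : B → B} {f g : ℝ → B} {t0 : ℝ} (hF : ContDiffAt ℝ 1 F (f t0))
    (hf : ∀ᶠ t in 𝓝 t0, HasDerivAt f (F (f t)) t) (hg : ∀ᶠ t in 𝓝 t0, HasDerivAt g (F (g t)) t)
    (h0 : f t0 = g t0) : f =ᶠ[𝓝 t0] g := by
  obtain ⟨K, s, hs, hK⟩ := hF.exists_lipschitzOnWith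
  have hfc : ContinuousAt f t0 := hf.self_of_nhds.continuousAt
  have hgc : ContinuousAt g t0 := hg.self_of_nhds.continuousAt
  refine ODE_solution_unique_of_eventually (v := fun _ => F) (s := fun _ => s) (K := K)
    (Eventually.of_forall fun _ => hK) (hf.and (hfc.eventually_mem hs))
    (hg.and (hgc.eventually_mem (h0 ▸ hs))) h0

/-- a solution of a linear equation vanishing at `t0` vanishes near `t0` -/
theorem lin_zero {A : ℝ → B →L[ℝ] B} {f : ℝ → B} {t0 : ℝ} (hA : ContinuousAt A t0)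
    (hf : ∀ᶠ t in 𝓝 t0, HasDerivAt f (A t (f t)) t) (h0 : f t0 = 0) : ∀ᶠ t in 𝓝 t0, f t = 0 := by
  have hb : ∀ᶠ t in 𝓝 t0, ‖A t‖₊ < ‖A t0‖₊ + 1 :=
    hA.nnnorm.eventually_lt continuousAt_const (lt_add_one _)
  have h := ODE_solution_unique_of_eventually (v := fun t x => A t x) (s := fun _ => univ)
    (K := ‖A t0‖₊ + 1) (f := f) (g := fun _ => 0) (t₀ := t0)
    (hb.mono fun t ht => ((A t).lipschitz.weaken ht.le).lipschitzOnWith)
    (hf.mono fun t ht => ⟨ht, mem_univ _⟩)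
    (Eventually.of_forall fun t => ⟨by simpa using hasDerivAt_const t (0 : B), mem_univ _⟩) h0
  exact h

/-- If `dT(S) = S'` near `z t`, then `dT` maps solutions of the linearised equation of `S` to
functions with derivative `dS'`.  Recipe: the derivative is `D²T(S z, ζ) + DT(DS ζ)`; differentiate
`hrel` at `z t` in the direction `ζ t` and use `ContDiffAt.isSymmSndFDerivAt`. -/
theorem lin_of_related {T : B → B'} {S : B → B} {S' : B → B'} {z ζ : ℝ → B} {t : ℝ}
    (hT : ContDiffAt ℝ 2 T (z t)) (hS : DifferentiableAt ℝ S (z t))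
    (hrel : ∀ᶠ w in 𝓝 (z t), fderiv ℝ T w (S w) = S' w)
    (hz : HasDerivAt z (S (z t)) t) (hζ : HasDerivAt ζ (fderiv ℝ S (z t) (ζ t)) t) :
    HasDerivAt (fun s => fderiv ℝ T (z s) (ζ s)) (fderiv ℝ S' (z t) (ζ t)) t := by
  have hD : DifferentiableAt ℝ (fderiv ℝ T) (z t) :=
    (hT.fderiv_right (m := 1) (by norm_num)).differentiableAt one_ne_zero
  have h1 : HasDerivAt (fun s => fderiv ℝ T (z s)) (fderiv ℝ (fderiv ℝ T) (z t) (S (z t))) t :=
    hD.hasFDerivAt.comp_hasDerivAt t hz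
  have h2 := h1.clm_apply hζ
  have h3 : fderiv ℝ S' (z t) = fderiv ℝ (fun w => fderiv ℝ T w (S w)) (z t) :=
    (EventuallyEq.fderiv_eq hrel).symm
  have h4 := (hD.hasFDerivAt.clm_apply hS.hasFDerivAt).fderiv
  have hsym := (hT.isSymmSndFDerivAt (by simp)).eq (S (z t)) (ζ t)
  rw [h3, h4]
  convert h2 using 1
  simp only [add_apply, ContinuousLinearMap.comp_apply,
    ContinuousLinearMap.flip_apply]
  rw [hsym, add_comm]

end

end Crest.Agent.R244
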