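import Crest.Agent.R244.Geo1

/-! # R244: the Cartan–Hadamard covering theorem -/

open scoped ContDiff Topology Manifold
open Set Filter
open Crest.GeometryTopology.CoordMetric

noncomputable section

namespace Crest.Agent.R244

set_option linter.unusedSectionVars false
set_option linter.unusedVariables false

/-- A local homeomorphism lifting all radial paths of a contraction is evenly covered there.
Recipe: for `a` over `q`, `s_a u` = end point of the lift of `t ↦ h (1-t) u` from `a` (continuous by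
`IsLocalHomeomorph.continuous_lift`); the sheets `s_a(U)` are open, disjoint and cover `p⁻¹ U`
(uniqueness of lifts: `IsSeparatedMap.eq_of_comp_eq`/`T2Space.isSeparatedMap`);
`IsOpen.trivializationDiscrete`, `IsEvenlyCovered.of_trivialization`; empty fibre:
`IsEvenlyCovered.of_preimage_eq_empty`. -/
theorem evenlyCovered_of_lifts {X M : Type} [TopologicalSpace X] [T2Space X] [TopologicalSpace M]
    {p : X → M} (hp : IsLocalHomeomorph p) {U : Set M} (hU : IsOpen U) {q : M} (hq : q ∈ U)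
    (h : unitInterval × U → M) (hh : Continuous h) (h0 : ∀ u, h (0, u) = u)
    (h1 : ∀ u, h (1, u) = q)
    (lift0 : ∀ (u : U) (a : X), p a = u → ∃ f : unitInterval → X, Continuous f ∧ f 0 = a ∧
      ∀ t, p (f t) = h (t, u))
    (lift1 : ∀ (u : U) (a : X), p a = q → ∃ f : unitInterval → X, Continuous f ∧ f 1 = a ∧
      ∀ t, p (f t) = h (t, u)) :
    IsEvenlyCovered p q (p ⁻¹' {q}) := by
  have sep : IsSeparatedMap p := T2Space.isSeparatedMap p
  choose F hF hF0 hFl using lift0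
  choose G hG hG1 hGl using lift1
  have uniq : ∀ (u u' : U) (a a' : X) (ha : p a = u) (ha' : p a' = q), u = u' → ∀ t,
      F u a ha t = G u' a' ha' t → F u a ha = G u' a' ha' := by
    rintro u _ a a' ha ha' rfl t ht
    exact sep.eq_of_comp_eq hp.isLocallyInjective (hF ..) (hG ..)
      (funext fun s => (hFl ..).trans (hGl ..).symm) t ht
  have c1 : Continuous fun z : unitInterval × ↥(p ⁻¹' U) => F ⟨p z.2, z.2.2⟩ z.2 rfl z.1 := by
    refine hp.continuous_lift sep (A := ↥(p ⁻¹' U))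
      ⟨fun z => h (z.1, ⟨p z.2, z.2.2⟩), hh.comp (continuous_fst.prodMk
      ((hp.continuous.comp (continuous_subtype_val.comp continuous_snd)).subtype_mk _))⟩
      (funext fun z => hFl ..) ?_ fun a => hF ⟨p a, a.2⟩ a rfl
    simp only [hF0]
    exact continuous_subtype_val
  have c2 : Continuous fun z : unitInterval × (↥U × ↥(p ⁻¹' {q})) =>
      G z.2.1 z.2.2 z.2.2.2 (unitInterval.symm z.1) := by
    refine hp.continuous_lift sep (A := ↥U × ↥(p ⁻¹' {q}))
      ⟨fun z => h (unitInterval.symm z.1, z.2.1), by fun_prop⟩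
      (funext fun z => hGl ..) ?_ fun a => (hG a.1 a.2 a.2.2).comp unitInterval.continuous_symm
    simp only [unitInterval.symm_zero, hG1]
    fun_prop
  have hst : ∀ (u : U) (a : p ⁻¹' {q}), p (G u a a.2 0) = u := fun u a => (hGl ..).trans (h0 u)
  refine ⟨(IsDiscrete.of_openPartialHomeomorph p subset_rfl fun e _ => ?_).1, U, hq, hU,
    hU.preimage hp.continuous,
    { toFun := fun a => (⟨p a, a.2⟩, ⟨F ⟨p a, a.2⟩ a rfl 1, (hFl ..).trans (h1 _)⟩)
      invFun := fun z => ⟨G z.1 z.2 z.2.2 0, by rw [mem_preimage, hst]; exact z.1.2⟩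
      left_inv := fun a => ?_
      right_inv := fun z => ?_
      continuous_toFun := ?_
      continuous_invFun := ?_ }, fun _ => rfl⟩
  · obtain ⟨φ, h1, h2⟩ := hp e
    exact ⟨φ, h1, h2.symm⟩
  · refine Subtype.ext ?_
    have := uniq ⟨p a, a.2⟩ ⟨p a, a.2⟩ a (F ⟨p a, a.2⟩ a rfl 1) rfl ((hFl ..).trans (h1 _)) rfl 1
      (hG1 ..).symm
    exact (congrFun this 0).symm.trans (hF0 ..)
  · refine Prod.ext (Subtype.ext (hst _ _)) (Subtype.ext ?_)
    have := uniq ⟨p (G z.1 z.2 z.2.2 0), by rw [hst]; exact z.1.2⟩ z.1 (G z.1 z.2 z.2.2 0) z.2 rfl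
      z.2.2 (Subtype.ext (hst _ _)) 0 (hF0 ..)
    exact (congrFun this 1).trans (hG1 ..)
  · exact ((hp.continuous.comp continuous_subtype_val).subtype_mk _).prodMk
      ((c1.comp (Continuous.prodMk_right 1)).subtype_mk _)
  · refine Continuous.subtype_mk ?_ _
    simpa only [Function.comp_def, unitInterval.symm_one] using c2.comp (Continuous.prodMk_right 1)

theorem cover_coercive (B : Bil) (h : ∀ u, u ≠ 0 → 0 < B u u) :
    ∃ lam : ℝ, 0 < lam ∧ ∀ u, lam * ‖u‖ ^ 2 ≤ B u u := by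
  have hc : Continuous fun u : E => B u u := by fun_prop
  obtain ⟨u0, hu0, hmin⟩ := (isCompact_sphere (0 : E) 1).exists_isMinOn
    (NormedSpace.sphere_nonempty.2 zero_le_one) hc.continuousOn
  have h0 : u0 ≠ 0 := by rintro rfl; simp at hu0
  refine ⟨B u0 u0, h u0 h0, fun u => ?_⟩
  by_cases hu : u = 0
  · simp [hu]
  have hn : 0 < ‖u‖ := norm_pos_iff.2 hu
  have h1 : B u0 u0 ≤ B (‖u‖⁻¹ • u) (‖u‖⁻¹ • u) :=
    hmin (by simp [norm_smul, hn.ne'] : ‖u‖⁻¹ • u ∈ Metric.sphere (0 : E) 1)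
  simp only [map_smul, smul_apply, smul_eq_mul] at h1
  rw [← mul_assoc, ← mul_inv, ← div_eq_inv_mul, le_div_iff₀ (by positivity)] at h1
  rwa [sq]

/-- continuation of a lift with a local inverse -/
theorem cover_extend {X M : Type} [TopologicalSpace X] [TopologicalSpace M] {e : X → M}
    {σ : ℝ → M} {f : ℝ → X} {t t' : ℝ} (ht0 : 0 ≤ t) (ht : t ≤ t')
    (hσ : ContinuousOn σ (Icc t t')) (hf : ContinuousOn f (Icc 0 t))
    (hl : ∀ s ∈ Icc 0 t, e (f s) = σ s) (ψ : OpenPartialHomeomorph X M) (hψ : e = ψ)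
    (hs : f t ∈ ψ.source) (hT : ∀ s ∈ Icc t t', σ s ∈ ψ.target) :
    ∃ g : ℝ → X, ContinuousOn g (Icc 0 t') ∧ g 0 = f 0 ∧ ∀ s ∈ Icc 0 t', e (g s) = σ s := by
  have h1 : ψ.symm (σ t) = f t := by
    rw [← hl t ⟨ht0, le_rfl⟩, hψ, ψ.left_inv hs]
  refine ⟨fun s => if s ≤ t then f s else ψ.symm (σ s), ?_, by simp [ht0], fun s hs' => ?_⟩
  · rw [← Icc_union_Icc_eq_Icc ht0 ht]
    refine ContinuousOn.union_of_isClosed ?_ ?_ isClosed_Icc isClosed_Icc
    · exact hf.congr fun s hs' => if_pos hs'.2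
    · refine (ψ.continuousOn_symm.comp hσ hT).congr fun s hs' => ?_
      by_cases h : s ≤ t
      · rw [le_antisymm h hs'.1]; simp [h1]
      · simp [h]
  · by_cases h : s ≤ t
    · simp only [if_pos h]; exact hl s ⟨hs'.1, h⟩
    · simp only [if_neg h]
      rw [hψ, ψ.right_inv (hT s ⟨(not_le.1 h).le, hs'.2⟩)]

/-- paths all of whose partial lifts are uniformly bounded can be lifted -/
theorem cover_lift {M : Type} [TopologicalSpace M] [T2Space M] {e : E → M}
    (he : IsLocalHomeomorph e) {σ : ℝ → M} (hσ : ContinuousOn σ (Icc 0 1)) {a : E}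
    (ha : e a = σ 0) {R : ℝ} (hR : ∀ t ∈ Icc (0 : ℝ) 1, ∀ f : ℝ → E, ContinuousOn f (Icc 0 t) →
      f 0 = a → (∀ s ∈ Icc 0 t, e (f s) = σ s) → ‖f t‖ ≤ R) :
    ∃ f : ℝ → E, ContinuousOn f (Icc 0 1) ∧ f 0 = a ∧ ∀ s ∈ Icc (0 : ℝ) 1, e (f s) = σ s := by
  set S : Set ℝ := {t | ∃ f : ℝ → E, ContinuousOn f (Icc 0 t) ∧ f 0 = a ∧
    ∀ s ∈ Icc 0 t, e (f s) = σ s} with hS
  have hnear : ∀ T ∈ Icc (0 : ℝ) 1, ∀ V : Set M, IsOpen V → σ T ∈ V →
      ∃ η > 0, ∀ s ∈ Icc (0 : ℝ) 1, |s - T| < η → σ s ∈ V := by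
    intro T hT V hV hTV
    have := (hσ T hT).eventually (hV.mem_nhds hTV)
    rw [eventually_nhdsWithin_iff, Metric.eventually_nhds_iff] at this
    obtain ⟨η, hη, h⟩ := this
    exact ⟨η, hη, fun s hs hd => h hd hs⟩
  refine IsClosed.Icc_subset_of_forall_exists_gt (s := S) ?_ ?_ ?_ ⟨zero_le_one, le_rfl⟩
  · refine isClosed_of_closure_subset fun T hT => ?_
    have hT1 : T ∈ Icc (0 : ℝ) 1 := closure_minimal inter_subset_right isClosed_Icc hT
    refine ⟨?_, hT1⟩
    obtain ⟨t, ht, hlim⟩ := mem_closure_iff_seq_limit.1 hT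
    choose f hf hf0 hfl using fun n => (ht n).1
    obtain ⟨b, -, φ, hφ, hb⟩ := tendsto_subseq_of_bounded (Metric.isBounded_closedBall (x := (0 : E))
      (r := R)) (x := fun n => f n (t n))
      fun n => by simpa using hR _ (ht n).2 _ (hf n) (hf0 n) (hfl n)
    have hlim' : Tendsto (fun n => t (φ n)) atTop (𝓝 T) := hlim.comp hφ.tendsto_atTop
    have hbT : e b = σ T := by
      refine tendsto_nhds_unique ((he.continuous.tendsto b).comp hb) ?_
      refine ((hσ T hT1).tendsto.comp (tendsto_nhdsWithin_iff.2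
        ⟨hlim', Eventually.of_forall fun n => (ht _).2⟩)).congr fun n => ?_
      exact (hfl _ _ ⟨(ht _).2.1, le_rfl⟩).symm
    obtain ⟨ψ, hψb, hψ⟩ := he b
    obtain ⟨η, hη, hV⟩ := hnear T hT1 ψ.target ψ.open_target
      (by rw [← hbT, hψ]; exact ψ.map_source hψb)
    obtain ⟨n, h1, h2⟩ := ((hb.eventually (ψ.open_source.mem_nhds hψb)).and
      (Metric.tendsto_nhds.1 hlim' η hη)).exists
    rw [Real.dist_eq, abs_lt] at h2
    rcases le_total (t (φ n)) T with h3 | h3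
    · have hsub : Icc (t (φ n)) T ⊆ Icc 0 1 := Icc_subset_Icc (ht _).2.1 hT1.2
      obtain ⟨g, g1, g2, g3⟩ := cover_extend (ht _).2.1 h3 (hσ.mono hsub) (hf _) (hfl _) ψ hψ h1
        fun s hs => hV s (hsub hs) (by rw [abs_lt]; constructor <;> linarith [hs.1, hs.2])
      exact ⟨g, g1, g2.trans (hf0 _), g3⟩
    · exact ⟨f (φ n), (hf _).mono (Icc_subset_Icc_right h3), hf0 _,
        fun s hs => hfl _ s (Icc_subset_Icc_right h3 hs)⟩
  · refine ⟨fun _ => a, continuousOn_const, rfl, fun s hs => ?_⟩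
    rw [le_antisymm hs.2 hs.1, ha]
  · rintro t ⟨⟨f, hf, hf0, hfl⟩, ht⟩ y hy
    obtain ⟨ψ, hψb, hψ⟩ := he (f t)
    obtain ⟨η, hη, hV⟩ := hnear t ⟨ht.1, ht.2.le⟩ ψ.target ψ.open_target
      (by rw [← hfl t ⟨ht.1, le_rfl⟩, hψ]; exact ψ.map_source hψb)
    have h1 : t < min y (min 1 (t + η / 2)) := lt_min hy (lt_min ht.2 (by linarith))
    have h2 : min y (min 1 (t + η / 2)) ≤ 1 := (min_le_right _ _).trans (min_le_left _ _)
    have h3 : min y (min 1 (t + η / 2)) ≤ t + η / 2 := (min_le_right _ _).trans (min_le_right _ _)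
    have hsub : Icc t (min y (min 1 (t + η / 2))) ⊆ Icc 0 1 := Icc_subset_Icc ht.1 h2
    obtain ⟨g, g1, g2, g3⟩ := cover_extend ht.1 h1.le (hσ.mono hsub) hf hfl ψ hψ hψb
      fun s hs => hV s (hsub hs) (by rw [abs_lt]; constructor <;> linarith [hs.1, hs.2])
    exact ⟨_, ⟨g, g1, g2.trans hf0, g3⟩, h1, min_le_left _ _⟩

namespace MA

variable {M : Type} [TopologicalSpace M] {𝒜 : MA M}

theorem ExpOK.isLocalHomeomorph {x : M} {e : E → M} (h : 𝒜.ExpOK x e) : IsLocalHomeomorph e := by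
  refine IsLocalHomeomorph.mk e fun v => ?_
  obtain ⟨A, hA, -⟩ := h.2 v (e v) (𝒜.mem _)
  refine ⟨((hA.toOpenPartialHomeomorph _).restrOpen (e ⁻¹' (𝒜.φ (e v)).source)
    ((𝒜.φ (e v)).open_source.preimage h.1)).trans (𝒜.φ (e v)).symm, ?_, fun w hw => ?_⟩
  · exact ⟨⟨hA.mem_toOpenPartialHomeomorph_source, 𝒜.mem _⟩, (𝒜.φ (e v)).map_source (𝒜.mem _)⟩
  · exact ((𝒜.φ (e v)).left_inv hw.1.2).symm

/-- Lifting a coordinate segment.  Recipe: `T = sup` of the `t` such that a continuous lift exists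
on `[0,t]`; lifts are unique and differentiable with `A f' = y1 - y0` (local inverse), so
`|d/dt ip(f,f)| ≤ 2 √(ip(f,f)) √C` with `C` a bound of `b x' y (y1-y0) (y1-y0)` on the segment;
hence `f` is bounded on `[0,T)`; take a cluster point `a*` as `t → T`, `e a* = σ T`, and continue
with the local inverse of `e` at `a*`. -/
theorem ExpOK.lift_segment [T2Space M] {x : M} {e : E → M} (h : 𝒜.ExpOK x e) {x' : M} {y0 y1 : E}
    (hs : segment ℝ y0 y1 ⊆ (𝒜.φ x').target) {a : E} (ha : e a = (𝒜.φ x').symm y0) :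
    ∃ f : unitInterval → E, Continuous f ∧ f 0 = a ∧
      ∀ t : unitInterval, e (f t) = (𝒜.φ x').symm (y0 + (t : ℝ) • (y1 - y0)) := by
  have hy : ∀ t ∈ Icc (0 : ℝ) 1, y0 + t • (y1 - y0) ∈ (𝒜.φ x').target := fun t ht =>
    hs (by rw [segment_eq_image']; exact ⟨t, ht, rfl⟩)
  have hyc : Continuous fun t : ℝ => y0 + t • (y1 - y0) := by fun_prop
  have hσ : ContinuousOn (fun t : ℝ => (𝒜.φ x').symm (y0 + t • (y1 - y0))) (Icc 0 1) :=
    (𝒜.φ x').continuousOn_symm.comp hyc.continuousOn hy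
  obtain ⟨C, hC⟩ : ∃ C, ∀ t ∈ Icc (0 : ℝ) 1,
      ‖𝒜.b x' (y0 + t • (y1 - y0)) (y1 - y0) (y1 - y0)‖ ≤ C :=
    isCompact_Icc.exists_bound_of_continuousOn
      ((((𝒜.lm x').b_smooth.continuousOn.comp hyc.continuousOn hy).clm_apply
        continuousOn_const).clm_apply continuousOn_const)
  have hC0 : 0 ≤ C := (norm_nonneg _).trans (hC 0 ⟨le_rfl, zero_le_one⟩)
  obtain ⟨lam, hlam, hco⟩ := cover_coercive (𝒜.b x (𝒜.φ x x)) fun u hu => 𝒜.ip_pos x hu
  obtain ⟨f, hf, hf0, hfl⟩ := cover_lift h.isLocalHomeomorph hσ (a := a) (by simpa using ha)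
    (R := √((‖𝒜.ip x a a‖ + C) * Real.exp 1 / lam)) fun t ht f hf hf0 hfl => by
      have hd : ∀ s ∈ Ico 0 t, ∃ g', HasDerivWithinAt (fun s => 𝒜.ip x (f s) (f s)) g' (Ici s) s ∧
          ‖g'‖ ≤ 1 * ‖𝒜.ip x (f s) (f s)‖ + C := by
        intro s hs'
        have hs1 : s ∈ Icc (0 : ℝ) 1 := ⟨hs'.1, hs'.2.le.trans ht.2⟩
        have hst : s ∈ Icc 0 t := ⟨hs'.1, hs'.2.le⟩
        have hco : ∀ r ∈ Icc 0 t, (𝒜.φ x' ∘ e) (f r) = y0 + r • (y1 - y0) := fun r hr => by
          rw [Function.comp_apply, hfl r hr, (𝒜.φ x').right_inv (hy r ⟨hr.1, hr.2.trans ht.2⟩)]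
        obtain ⟨A, hA, hG⟩ := h.2 (f s) x' (by rw [hfl s hst]; exact (𝒜.φ x').map_target (hy s hs1))
        have h1 : HasDerivAt (fun r : ℝ => hA.localInverse _ _ _ (y0 + r • (y1 - y0)))
            (A.symm (y1 - y0)) s := by
          have h2 := hA.to_localInverse.hasFDerivAt
          rw [hco s hst] at h2
          have h3 : HasDerivAt (fun r : ℝ => y0 + r • (y1 - y0)) (y1 - y0) s := by
            simpa using ((hasDerivAt_id s).smul_const (y1 - y0)).const_add y0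
          exact h2.comp_hasDerivAt s h3
        have hmem : Icc 0 t ∈ 𝓝[≥] s := Icc_mem_nhdsGE_of_mem hs'
        have h4 : HasDerivWithinAt f (A.symm (y1 - y0)) (Ici s) s := by
          refine h1.hasDerivWithinAt.congr_of_eventuallyEq_of_mem ?_ self_mem_Ici
          have h5 := ((hf s hst).mono_of_mem_nhdsWithin hmem).eventually hA.eventually_left_inverse
          filter_upwards [h5, hmem] with r h6 h7
          rw [← hco r h7, h6]
        have h5 := ((𝒜.b x (𝒜.φ x x)).hasFDerivAt.comp_hasDerivWithinAt s h4).clm_apply h4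
        refine ⟨_, h5, ?_⟩
        have h6 := hG (A.symm (y1 - y0))
        rw [A.apply_symm_apply, show 𝒜.φ x' (e (f s)) = _ from hco s hst] at h6
        have h7 := (le_abs_self _).trans (hC s hs1)
        have h8 := 𝒜.ip_nonneg x (f s)
        have h9 := 𝒜.ip_symm x (A.symm (y1 - y0)) (f s)
        change ‖𝒜.ip x (A.symm (y1 - y0)) (f s) + 𝒜.ip x (f s) (A.symm (y1 - y0))‖ ≤ _
        rw [h9, Real.norm_eq_abs, Real.norm_eq_abs, abs_of_nonneg h8]
        refine abs_le_of_sq_le_sq ?_ (by positivity)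
        nlinarith [mul_le_mul_of_nonneg_left h7 h8, sq_nonneg (𝒜.ip x (f s) (f s) - C)]
      choose! g' hg' hb using hd
      have hc : ContinuousOn (fun s => 𝒜.ip x (f s) (f s)) (Icc 0 t) :=
        (((𝒜.b x (𝒜.φ x x)).continuous.comp_continuousOn hf).clm_apply hf)
      have h1 := norm_le_gronwallBound_of_norm_deriv_right_le hc hg' le_rfl hb t ⟨ht.1, le_rfl⟩
      simp only [gronwallBound_of_K_ne_0 one_ne_zero, hf0, one_mul, sub_zero, div_one] at h1
      have h2 : Real.exp t ≤ Real.exp 1 := Real.exp_le_exp.2 ht.2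
      have h3 := (hco (f t)).trans ((le_abs_self _).trans h1)
      refine Real.le_sqrt_of_sq_le ?_
      rw [le_div_iff₀ hlam]
      nlinarith [mul_le_mul_of_nonneg_left h2 (add_nonneg (norm_nonneg (𝒜.ip x a a)) hC0)]
  exact ⟨fun t => f t, hf.comp_continuous continuous_subtype_val fun t => t.2, hf0,
    fun t => hfl t t.2⟩

/-- Recipe: `evenlyCovered_of_lifts` with `U = (φ q).symm '' ball`; the range of a covering map is
clopen and nonempty. -/
theorem ExpOK.isCoveringMap [T2Space M] [ConnectedSpace M] {x : M} {e : E → M}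
    (h : 𝒜.ExpOK x e) : IsCoveringMap e ∧ Function.Surjective e := by
  have hcov : IsCoveringMap e := by
    intro q
    obtain ⟨r, hr, hb⟩ := Metric.isOpen_iff.1 (𝒜.φ q).open_target _ ((𝒜.φ q).map_source (𝒜.mem q))
    have hU : IsOpen ((𝒜.φ q).source ∩ 𝒜.φ q ⁻¹' Metric.ball (𝒜.φ q q) r) :=
      (𝒜.φ q).isOpen_inter_preimage Metric.isOpen_ball
    have hseg : ∀ u : ↥((𝒜.φ q).source ∩ 𝒜.φ q ⁻¹' Metric.ball (𝒜.φ q q) r),
        segment ℝ (𝒜.φ q u) (𝒜.φ q q) ⊆ (𝒜.φ q).target := fun u =>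
      ((convex_ball _ _).segment_subset u.2.2 (Metric.mem_ball_self hr)).trans hb
    refine evenlyCovered_of_lifts h.isLocalHomeomorph hU ⟨𝒜.mem q, Metric.mem_ball_self hr⟩
      (fun z => (𝒜.φ q).symm (𝒜.φ q z.2 + (z.1 : ℝ) • (𝒜.φ q q - 𝒜.φ q z.2))) ?_ (fun u => ?_)
      (fun u => ?_) (fun u a ha => ?_) fun u a ha => ?_
    · have hc : Continuous fun u : ↥((𝒜.φ q).source ∩ 𝒜.φ q ⁻¹' Metric.ball (𝒜.φ q q) r) =>
          𝒜.φ q u := (𝒜.φ q).continuousOn.comp_continuous continuous_subtype_val fun u => u.2.1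
      refine (𝒜.φ q).continuousOn_symm.comp_continuous ((hc.comp continuous_snd).add
        ((continuous_subtype_val.comp continuous_fst).smul
          (continuous_const.sub (hc.comp continuous_snd)))) fun z => hseg z.2 ?_
      rw [segment_eq_image']
      exact ⟨z.1, z.1.2, rfl⟩
    · simpa using (𝒜.φ q).left_inv u.2.1
    · simpa using (𝒜.φ q).left_inv (𝒜.mem q)
    · exact h.lift_segment (hseg u) (ha.trans ((𝒜.φ q).left_inv u.2.1).symm)
    · obtain ⟨f, h1, h2, h3⟩ := h.lift_segment (y1 := 𝒜.φ q u) ((segment_symm ℝ _ _).subset.trans (hseg u))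
        (ha.trans ((𝒜.φ q).left_inv (𝒜.mem q)).symm)
      refine ⟨fun t => f (unitInterval.symm t), h1.comp unitInterval.continuous_symm,
        by simpa using h2, fun t => ?_⟩
      rw [h3, unitInterval.coe_symm_eq]
      congr 1
      module
  refine ⟨hcov, range_eq_univ.1 (IsClopen.eq_univ ⟨⟨isOpen_iff_mem_nhds.2 fun q hq => ?_⟩,
    hcov.isOpenMap.isOpen_range⟩ (range_nonempty e))⟩
  obtain ⟨-, U, hqU, hU, -, H, -⟩ := hcov q
  refine mem_of_superset (hU.mem_nhds hqU) ?_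
  rintro _ hu ⟨a, rfl⟩
  exact hq ⟨_, (H ⟨a, hu⟩).2.2⟩

end MA

end Crest.Agent.R244
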