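import Crest.Agent.R244.Geo1

/-! # R244: Jacobi fields of a metric atlas -/

open scoped ContDiff Topology Manifold
open Set Filter
open Crest.GeometryTopology.CoordMetric

noncomputable section

namespace Crest.Agent.R244

set_option linter.unusedSectionVars false
set_option linter.unusedVariables false

theorem Jac_rauch_real {f Q Q' : ℝ → ℝ} {D : ℝ} (hf : ∀ t, HasDerivAt f (2 * Q t) t)
    (hQ : ∀ t, HasDerivAt Q (Q' t) t) (hf0 : ∀ t, 0 ≤ f t) (hQ0 : ∀ t, 0 ≤ Q' t)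
    (hcs : ∀ t, Q t ^ 2 ≤ f t * Q' t) (f0 : f 0 = 0) (Q0 : Q 0 = 0) (hD : D = Q' 0) : D ≤ f 1 := by
  have step : ∀ η : ℝ, 0 < η → ∀ s ∈ Icc (0 : ℝ) 1, √(f s) ≤ η + s * (√(f 1) + η) := by
    intro η hη s hs
    have hp : ∀ t, 0 < f t + η ^ 2 := fun t => by have := hf0 t; positivity
    have hh : ∀ t, HasDerivAt (fun u => √(f u + η ^ 2)) (Q t / √(f t + η ^ 2)) t := by
      intro t
      have := ((hf t).add_const (η ^ 2)).sqrt (hp t).ne'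
      convert this using 1
      field_simp
    have hd : deriv (fun u => √(f u + η ^ 2)) = fun t => Q t / √(f t + η ^ 2) :=
      funext fun t => (hh t).deriv
    have hh2 : ∀ t, HasDerivAt (fun t => Q t / √(f t + η ^ 2))
        ((Q' t * √(f t + η ^ 2) - Q t * (Q t / √(f t + η ^ 2))) / √(f t + η ^ 2) ^ 2) t :=
      fun t => (hQ t).div (hh t) (Real.sqrt_pos.2 (hp t)).ne'
    have hcv : ConvexOn ℝ univ (fun u => √(f u + η ^ 2)) := by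
      refine convexOn_univ_of_deriv2_nonneg (fun t => (hh t).differentiableAt) ?_ fun t => ?_
      · rw [hd]; exact fun t => (hh2 t).differentiableAt
      · change 0 ≤ deriv (deriv fun u => √(f u + η ^ 2)) t
        rw [hd, (hh2 t).deriv]
        have hs := Real.sqrt_pos.2 (hp t)
        refine div_nonneg ?_ (by positivity)
        have h1 : Q' t * √(f t + η ^ 2) - Q t * (Q t / √(f t + η ^ 2))
            = (Q' t * √(f t + η ^ 2) ^ 2 - Q t ^ 2) / √(f t + η ^ 2) := by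
          field_simp
        rw [h1, Real.sq_sqrt (hp t).le]
        refine div_nonneg ?_ hs.le
        nlinarith [hcs t, mul_nonneg (hQ0 t) (sq_nonneg η)]
    have h1 := hcv.2 (mem_univ 0) (mem_univ 1) (sub_nonneg.2 hs.2) hs.1 (by ring)
    simp only [smul_eq_mul, mul_zero, mul_one, zero_add, f0, Real.sqrt_sq hη.le] at h1
    have h2 : √(f s) ≤ √(f s + η ^ 2) := Real.sqrt_le_sqrt (by nlinarith [sq_nonneg η])
    have h3 : √(f 1 + η ^ 2) ≤ √(f 1) + η := by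
      rw [Real.sqrt_le_left (by positivity)]
      nlinarith [Real.sq_sqrt (hf0 1), Real.sqrt_nonneg (f 1)]
    nlinarith [mul_le_mul_of_nonneg_left h3 hs.1, mul_nonneg hs.1 hη.le]
  have hle : ∀ s ∈ Icc (0 : ℝ) 1, f s ≤ s ^ 2 * f 1 := by
    intro s hs
    have h1 : √(f s) ≤ s * √(f 1) := by
      refine le_of_forall_pos_le_add fun ε hε => ?_
      have := step (ε / 2) (by positivity) s hs
      nlinarith [hs.2, hs.1]
    have h2 := mul_self_le_mul_self (Real.sqrt_nonneg _) h1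
    rw [Real.mul_self_sqrt (hf0 s)] at h2
    nlinarith [Real.mul_self_sqrt (hf0 1)]
  by_contra hlt
  push Not at hlt
  have hg : HasDerivAt (fun s => Q s - s * f 1) (D - f 1) 0 := by
    have := (hQ 0).sub ((hasDerivAt_id 0).mul_const (f 1))
    rw [one_mul, ← hD] at this
    exact this
  have hev : ∀ᶠ s in 𝓝[>] (0 : ℝ), 0 < Q s - s * f 1 := by
    have h1 := hg.tendsto_slope_zero_right.eventually (lt_mem_nhds (sub_pos.2 hlt))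
    filter_upwards [h1, self_mem_nhdsWithin] with s hs hs0
    simp only [zero_add, Q0, zero_mul, sub_zero, smul_eq_mul] at hs
    exact (mul_pos_iff_of_pos_left (inv_pos.2 hs0)).1 hs
  obtain ⟨δ, hδ, hδ'⟩ := (mem_nhdsGT_iff_exists_Ioo_subset).1 hev
  have hδ0 : (0 : ℝ) < min δ 1 := lt_min hδ one_pos
  have hG : ∀ t, HasDerivAt (fun s => f s - s ^ 2 * f 1) (2 * (Q t - t * f 1)) t := by
    intro t
    refine ((hf t).sub ((hasDerivAt_pow 2 t).mul_const (f 1))).congr_deriv ?_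
    simp only [Nat.cast_ofNat, Nat.add_one_sub_one, pow_one]; ring
  obtain ⟨ξ, hξ, hξ'⟩ := exists_hasDerivAt_eq_slope (fun s => f s - s ^ 2 * f 1)
    (fun t => 2 * (Q t - t * f 1)) hδ0
    (fun t _ => (hG t).continuousAt.continuousWithinAt) (fun t _ => hG t)
  have h1 : 0 < Q ξ - ξ * f 1 := hδ' ⟨hξ.1, hξ.2.trans_le (min_le_left _ _)⟩
  have h2 := hle (min δ 1) ⟨hδ0.le, min_le_right _ _⟩
  rw [f0, sub_zero, eq_div_iff hδ0.ne'] at hξ'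
  nlinarith [mul_pos h1 hδ0]

namespace MA

variable {M : Type} [TopologicalSpace M] {𝒜 : MA M}

variable {c : ℝ → M} {J : ℝ → E}

theorem Jac_cov_congr {Γ : E → Con} {y y' Z Z' : ℝ → E} {t : ℝ} (hy : y =ᶠ[𝓝 t] y')
    (hZ : Z =ᶠ[𝓝 t] Z') : cov Γ y Z t = cov Γ y' Z' t := by
  unfold cov
  rw [hy.deriv_eq, hZ.deriv_eq, hy.eq_of_nhds, hZ.eq_of_nhds]

theorem Jac_cont (hc : 𝒜.IsGeo c) (t : ℝ) : ContinuousAt c t :=
  (continuousOn_univ.1 hc.1).continuousAt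

theorem Jac_ev (hc : 𝒜.IsGeo c) {x : M} {t : ℝ} (h : c t ∈ (𝒜.φ x).source) :
    ∀ᶠ s in 𝓝 t, c s ∈ (𝒜.φ x).source :=
  (Jac_cont hc t).eventually ((𝒜.φ x).open_source.mem_nhds h)

theorem Jac_geo (hc : 𝒜.IsGeo c) {x : M} {t : ℝ} (h : c t ∈ (𝒜.φ x).source) :
    GeoAt (𝒜.Γ x) (𝒜.φ x ∘ c) t := hc.2 x t (mem_univ _) h

theorem Jac_tgt {x : M} {t : ℝ} (h : c t ∈ (𝒜.φ x).source) :
    (𝒜.φ x ∘ c) t ∈ (𝒜.φ x).target := (𝒜.φ x).map_source h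

theorem Jac_tgt' {x x' : M} {t : ℝ} (h : c t ∈ (𝒜.φ x).source) (h' : c t ∈ (𝒜.φ x').source) :
    (𝒜.φ x' ∘ (𝒜.φ x).symm) ((𝒜.φ x ∘ c) t) ∈ (𝒜.φ x').target := by
  simp only [Function.comp_apply, (𝒜.φ x).left_inv h]
  exact (𝒜.φ x').map_source h'

theorem Jac_ydiff (hc : 𝒜.IsGeo c) {x : M} {t : ℝ} (h : c t ∈ (𝒜.φ x).source) :
    DifferentiableAt ℝ (𝒜.φ x ∘ c) t :=
  (Jac_geo hc h).1.differentiableAt (by norm_num)

theorem Jac_Zdiff (hJ : 𝒜.IsJac c J) {x : M} {t : ℝ} (h : c t ∈ (𝒜.φ x).source) :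
    DifferentiableAt ℝ (𝒜.rep c J x) t :=
  (hJ x t h).1.differentiableAt (by norm_num)

theorem Jac_rep_zero (K : ℝ → E) {x : M} {t : ℝ} (h : c t ∈ (𝒜.φ x).source) :
    𝒜.rep c K x t = 0 ↔ K t = 0 := by
  constructor
  · intro h0
    have h1 := dtr_dtr (𝒜 := 𝒜) (𝒜.mem (c t)) h (𝒜.mem (c t)) (K t)
    rw [dtr_self (𝒜.mem (c t))] at h1
    have h2 : 𝒜.dtr (c t) x (c t) (K t) = 0 := h0
    rw [h2, map_zero] at h1
    exact h1.symm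
  · intro h0
    unfold rep
    rw [h0, map_zero]

theorem Jac_cs (x : M) (u v : E) : 𝒜.ip x u v ^ 2 ≤ 𝒜.ip x u u * 𝒜.ip x v v := by
  have h : ∀ r : ℝ, 0 ≤ 𝒜.ip x v v * (r * r) + 2 * 𝒜.ip x u v * r + 𝒜.ip x u u := by
    intro r
    have h1 := ip_nonneg (𝒜 := 𝒜) x (u + r • v)
    have h2 := ip_symm (𝒜 := 𝒜) x v u
    unfold ip at *
    simp only [map_add, map_smul, add_apply, smul_apply,
      smul_eq_mul] at h1
    rw [h2] at h1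
    nlinarith [h1]
  have := discrim_le_zero h
  unfold discrim at this
  nlinarith [this]

theorem isJac_of (hc : 𝒜.IsGeo c)
    (h : ∀ t, ∃ x, c t ∈ (𝒜.φ x).source ∧ JacAt (𝒜.Γ x) (𝒜.φ x ∘ c) (𝒜.rep c J x) t) :
    𝒜.IsJac c J := by
  intro x' t h'
  obtain ⟨x, hx, hJ⟩ := h t
  have h1 := JacAt.transf (𝒜.lm x) (𝒜.lm x') (Jac_tgt hx) (Jac_tgt' hx h')
    (𝒜.isom x x' (c t) hx h') (Jac_geo hc hx) hJ
  exact h1.congr (chart_eventuallyEq (Jac_cont hc t) hx) (rep_eventuallyEq J (Jac_cont hc t) hx h')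
    (EventuallyEq.refl _ _)

theorem rep_DJ (hc : 𝒜.IsGeo c) (hJ : 𝒜.IsJac c J) {x : M} {t : ℝ} (h : c t ∈ (𝒜.φ x).source) :
    𝒜.rep c (𝒜.DJ c J) x t = cov (𝒜.Γ x) (𝒜.φ x ∘ c) (𝒜.rep c J x) t := by
  have hx := 𝒜.mem (c t)
  have h1 := cov_transf (𝒜.lm (c t)) (𝒜.lm x) (Jac_tgt hx) (Jac_tgt' hx h)
    (𝒜.isom (c t) x (c t) hx h) (Jac_ydiff hc hx) (Jac_Zdiff hJ hx)
  rw [Jac_cov_congr (chart_eventuallyEq (Jac_cont hc t) hx)
    (rep_eventuallyEq J (Jac_cont hc t) hx h), h1]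
  rfl

/-- Recipe: the set of `t` with `J t = 0 ∧ DJ t = 0` is closed (continuity in a chart) and open
(`lin_zero` for `(Z, Z')` in a chart, `JacAt.hasDerivAt`). -/
theorem IsJac.eq_zero (hc : 𝒜.IsGeo c) (hJ : 𝒜.IsJac c J) {t0 : ℝ} (h0 : J t0 = 0)
    (h1 : 𝒜.DJ c J t0 = 0) (t : ℝ) : J t = 0 := by
  have key : ∀ x s, c s ∈ (𝒜.φ x).source → ((J s = 0 ∧ 𝒜.DJ c J s = 0) ↔
      ((𝒜.rep c J x s, deriv (𝒜.rep c J x) s) : E × E) = 0) := by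
    intro x s hs
    rw [← Jac_rep_zero J hs, ← Jac_rep_zero (𝒜.DJ c J) hs, rep_DJ hc hJ hs, Prod.mk_eq_zero]
    unfold cov
    constructor
    · rintro ⟨h1, h2⟩
      rw [h1, map_zero, add_zero] at h2
      exact ⟨h1, h2⟩
    · rintro ⟨h1, h2⟩
      rw [h1, map_zero, add_zero]
      exact ⟨rfl, h2⟩
  have hcl : IsClopen {s | J s = 0 ∧ 𝒜.DJ c J s = 0} := by
    constructor
    · rw [← isOpen_compl_iff, isOpen_iff_mem_nhds]
      intro s hs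
      have hx := 𝒜.mem (c s)
      have hd := (JacAt.hasDerivAt (𝒜.lm (c s)) (Jac_tgt hx) (hJ _ s hx)).continuousAt
      have hne : ((𝒜.rep c J (c s) s, deriv (𝒜.rep c J (c s)) s) : E × E) ≠ 0 :=
        fun h => hs ((key _ s hx).2 h)
      filter_upwards [hd.eventually_ne hne, Jac_ev hc hx] with u hu hu'
      exact fun h => hu ((key _ u hu').1 h)
    · rw [isOpen_iff_mem_nhds]
      intro s hs
      have hx := 𝒜.mem (c s)
      have hsm : ContDiffAt ℝ ∞ (spray (𝒜.Γ (c s)))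
          ((𝒜.φ (c s) ∘ c) s, deriv (𝒜.φ (c s) ∘ c) s) :=
        (𝒜.lm (c s)).spray_smooth.contDiffAt
          (((𝒜.lm (c s)).isOpen.prod isOpen_univ).mem_nhds ⟨Jac_tgt hx, mem_univ _⟩)
      have hA : ContinuousAt (fun u => fderiv ℝ (spray (𝒜.Γ (c s)))
          ((𝒜.φ (c s) ∘ c) u, deriv (𝒜.φ (c s) ∘ c) u)) s :=
        ContinuousAt.comp (f := fun u => ((𝒜.φ (c s) ∘ c) u, deriv (𝒜.φ (c s) ∘ c) u))
          (hsm.continuousAt_fderiv (by simp)) (Jac_geo hc hx).hasDerivAt.continuousAt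
      have hz := lin_zero hA (f := fun u => (𝒜.rep c J (c s) u, deriv (𝒜.rep c J (c s)) u))
        ((Jac_ev hc hx).mono fun u hu => JacAt.hasDerivAt (𝒜.lm (c s)) (Jac_tgt hu) (hJ _ u hu))
        ((key _ s hx).1 hs)
      filter_upwards [hz, Jac_ev hc hx] with u hu hu'
      exact (key _ u hu').2 hu
  have := hcl.eq_univ ⟨t0, h0, h1⟩
  have ht : t ∈ {s | J s = 0 ∧ 𝒜.DJ c J s = 0} := by rw [this]; exact mem_univ _
  exact ht.1

theorem IsJac.hasDerivAt_sq (hc : 𝒜.IsGeo c) (hJ : 𝒜.IsJac c J) (t : ℝ) :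
    HasDerivAt (fun s => 𝒜.ip (c s) (J s) (J s)) (2 * 𝒜.ip (c t) (J t) (𝒜.DJ c J t)) t := by
  have hx := 𝒜.mem (c t)
  have h1 := (𝒜.lm (c t)).hasDerivAt_b (Jac_tgt hx) (Jac_ydiff hc hx) (Jac_Zdiff hJ hx)
    (Jac_Zdiff hJ hx)
  have h2 := h1.congr_of_eventuallyEq (f₁ := fun s => 𝒜.ip (c s) (J s) (J s))
    ((Jac_ev hc hx).mono fun s hs => ip_eq J J hs)
  refine h2.congr_deriv ?_
  rw [rep_self]
  have h3 := ip_symm (𝒜 := 𝒜) (c t) (𝒜.DJ c J t) (J t)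
  change 𝒜.ip (c t) (𝒜.DJ c J t) (J t) + 𝒜.ip (c t) (J t) (𝒜.DJ c J t) = _
  rw [h3]; ring

theorem IsJac.hasDerivAt_Q (hc : 𝒜.IsGeo c) (hJ : 𝒜.IsJac c J) (t : ℝ) :
    HasDerivAt (fun s => 𝒜.ip (c s) (J s) (𝒜.DJ c J s))
      (𝒜.ip (c t) (𝒜.DJ c J t) (𝒜.DJ c J t)
        - 𝒜.ip (c t) (Rm (𝒜.Γ (c t)) (𝒜.φ (c t) (c t)) (J t) (𝒜.vel c t) (𝒜.vel c t)) (J t)) t := by
  have hx := 𝒜.mem (c t)
  obtain ⟨hd, hcc⟩ := JacAt.cov_cov (𝒜.lm (c t)) (Jac_tgt hx) (Jac_geo hc hx) (hJ _ t hx)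
  have h1 := (𝒜.lm (c t)).hasDerivAt_b (Jac_tgt hx) (Jac_ydiff hc hx) (Jac_Zdiff hJ hx) hd
  have h2 := h1.congr_of_eventuallyEq (f₁ := fun s => 𝒜.ip (c s) (J s) (𝒜.DJ c J s))
    ((Jac_ev hc hx).mono fun s hs => by
      have := ip_eq J (𝒜.DJ c J) hs
      rw [rep_DJ hc hJ hs] at this
      exact this)
  refine h2.congr_deriv ?_
  rw [hcc, rep_self, map_neg, ip_symm (c t) (Rm _ _ _ _ _) (J t)]
  rfl

theorem IsJac.hasDerivAt_m (hc : 𝒜.IsGeo c) (hJ : 𝒜.IsJac c J) (t : ℝ) :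
    HasDerivAt (fun s => 𝒜.ip (c s) (J s) (𝒜.vel c s)) (𝒜.ip (c t) (𝒜.DJ c J t) (𝒜.vel c t)) t := by
  have hx := 𝒜.mem (c t)
  have hd : DifferentiableAt ℝ (deriv (𝒜.φ (c t) ∘ c)) t :=
    (Jac_geo hc hx).hasDerivAt.differentiableAt.snd
  have h1 := (𝒜.lm (c t)).hasDerivAt_b (Jac_tgt hx) (Jac_ydiff hc hx) (Jac_Zdiff hJ hx) hd
  have h2 := h1.congr_of_eventuallyEq (f₁ := fun s => 𝒜.ip (c s) (J s) (𝒜.vel c s))
    ((Jac_ev hc hx).mono fun s hs => by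
      have := ip_eq J (𝒜.vel c) hs
      rw [rep_vel (Jac_cont hc s) hs (Jac_ydiff hc hs)] at this
      exact this)
  refine h2.congr_deriv ?_
  rw [(Jac_geo hc hx).cov_eq_zero, map_zero, add_zero]
  rfl

/-- `⟨J, ċ⟩` is an affine function -/
theorem IsJac.m_affine (hc : 𝒜.IsGeo c) (hJ : 𝒜.IsJac c J) (t : ℝ) :
    𝒜.ip (c t) (𝒜.DJ c J t) (𝒜.vel c t) = 𝒜.ip (c 0) (𝒜.DJ c J 0) (𝒜.vel c 0) ∧
    𝒜.ip (c t) (J t) (𝒜.vel c t)
      = 𝒜.ip (c 0) (J 0) (𝒜.vel c 0) + t * 𝒜.ip (c 0) (𝒜.DJ c J 0) (𝒜.vel c 0) := by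
  have he : ∀ u, HasDerivAt (fun s => 𝒜.ip (c s) (𝒜.DJ c J s) (𝒜.vel c s)) 0 u := by
    intro u
    have hx := 𝒜.mem (c u)
    have h1 := JacAt.hasDerivAt_energy (𝒜.lm (c u)) (Jac_tgt hx) (Jac_geo hc hx) (hJ _ u hx)
    refine h1.congr_of_eventuallyEq ((Jac_ev hc hx).mono fun s hs => ?_)
    have := ip_eq (𝒜.DJ c J) (𝒜.vel c) hs
    rw [rep_vel (Jac_cont hc s) hs (Jac_ydiff hc hs), rep_DJ hc hJ hs] at this
    exact this
  have hconst : ∀ u, 𝒜.ip (c u) (𝒜.DJ c J u) (𝒜.vel c u)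
      = 𝒜.ip (c 0) (𝒜.DJ c J 0) (𝒜.vel c 0) := fun u =>
    is_const_of_deriv_eq_zero (fun s => (he s).differentiableAt) (fun s => (he s).deriv) u 0
  refine ⟨hconst t, ?_⟩
  have hm : ∀ u, HasDerivAt (fun s => 𝒜.ip (c s) (J s) (𝒜.vel c s)
      - s * 𝒜.ip (c 0) (𝒜.DJ c J 0) (𝒜.vel c 0)) 0 u := by
    intro u
    have h1 := (hJ.hasDerivAt_m hc u).sub
      ((hasDerivAt_id u).mul_const (𝒜.ip (c 0) (𝒜.DJ c J 0) (𝒜.vel c 0)))
    rw [hconst u, one_mul, sub_self] at h1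
    exact h1
  have h2 := is_const_of_deriv_eq_zero (fun s => (hm s).differentiableAt)
    (fun s => (hm s).deriv) t 0
  simp only [zero_mul, sub_zero] at h2
  linarith

/-- Rauch.  Recipe: `f = |J|²`, `f'' = 2|DJ|² - 2 sec ≥ 2|DJ|²`; for `η > 0`, `h = √(f+η²)` has
`h'' ≥ 0` (Cauchy–Schwarz for `ip`), so `h s ≤ (1-s) η + s h 1`; let `η → 0`: `f s ≤ s² f 1`; in the
chart at `c 0`, `rep J s / s → DJ 0` as `s → 0⁺` (since `J 0 = 0`), and `b` is continuous. -/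
theorem IsJac.rauch (hK : 𝒜.NPC) (hc : 𝒜.IsGeo c) (hJ : 𝒜.IsJac c J) (h0 : J 0 = 0) :
    𝒜.ip (c 0) (𝒜.DJ c J 0) (𝒜.DJ c J 0) ≤ 𝒜.ip (c 1) (J 1) (J 1) := by
  have hip0 : ∀ u, 𝒜.ip (c 0) (J 0) u = 0 := fun u => by
    unfold ip; rw [h0, map_zero]; rfl
  refine Jac_rauch_real (f := fun s => 𝒜.ip (c s) (J s) (J s))
    (Q := fun s => 𝒜.ip (c s) (J s) (𝒜.DJ c J s))
    (hJ.hasDerivAt_sq hc) (hJ.hasDerivAt_Q hc) (fun s => ip_nonneg _ _) (fun s => ?_) (fun s => ?_)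
    (hip0 _) (hip0 _) ?_
  · have := hK (c s) (J s) (𝒜.vel c s)
    have := ip_nonneg (𝒜 := 𝒜) (c s) (𝒜.DJ c J s)
    linarith
  · have h1 := hK (c s) (J s) (𝒜.vel c s)
    have h2 := Jac_cs (𝒜 := 𝒜) (c s) (J s) (𝒜.DJ c J s)
    have h3 := ip_nonneg (𝒜 := 𝒜) (c s) (J s)
    nlinarith [mul_nonneg h3 (neg_nonneg.2 h1)]
  · rw [ip_symm (c 0) (Rm _ _ _ _ _) (J 0), hip0, sub_zero]

end MA

end Crest.Agent.R244
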