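import Crest.Agent.R244.Coord
import Crest.Agent.R244.Jac

/-! # R244: from Mathlib manifolds to metric atlases -/

open scoped ContDiff Topology Manifold
open Set Filter
open Crest.GeometryTopology.CoordMetric

noncomputable section

namespace Crest.Agent.R244

set_option linter.unusedSectionVars false
set_option linter.unusedVariables false

open Bundle Crest.GeometryTopology.Geodesic

variable {M : Type} [TopologicalSpace M] [ChartedSpace E M] [IsManifold 𝓘(ℝ, E) ∞ M]
  (g : ContMDiffRiemannianMetric 𝓘(ℝ, E) ∞ E (fun x : M => TangentSpace 𝓘(ℝ, E) x))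

lemma bridge_push (x : M) (u : E) :
    ContMDiffOn 𝓘(ℝ, E) 𝓘(ℝ, E).tangent ∞ (fun y => (TotalSpace.mk' E ((chartAt E x).symm y)
      (mfderiv 𝓘(ℝ, E) 𝓘(ℝ, E) (chartAt E x).symm y u) : TangentBundle 𝓘(ℝ, E) M))
      (chartAt E x).target := by
  have h1 := (contMDiffOn_chart_symm (I := 𝓘(ℝ, E)) (n := ∞) (x := x)).contMDiffOn_tangentMapWithin
    (m := ∞) le_rfl (chartAt E x).open_target.uniqueMDiffOn
  have h2 : ContMDiff 𝓘(ℝ, E) 𝓘(ℝ, E).tangent ∞
      (fun y : E => (TotalSpace.mk' E y u : TangentBundle 𝓘(ℝ, E) E)) :=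
    (contMDiff_vectorSpace_iff_contDiff (V := fun _ => u)).2 contDiff_const
  refine (h1.comp h2.contMDiffOn fun y hy => hy).congr fun y hy => ?_
  simp only [Function.comp, tangentMapWithin]
  rw [mfderivWithin_of_isOpen (chartAt E x).open_target hy]

lemma bridge_smooth (x : M) (u v : E) :
    ContDiffOn ℝ ∞ (fun y => g.inner ((chartAt E x).symm y)
      (mfderiv 𝓘(ℝ, E) 𝓘(ℝ, E) (chartAt E x).symm y u)
      (mfderiv 𝓘(ℝ, E) 𝓘(ℝ, E) (chartAt E x).symm y v)) (chartAt E x).target := by
  have : ContMDiffOn 𝓘(ℝ, E) (𝓘(ℝ, E).prod 𝓘(ℝ)) ∞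
      (fun y => TotalSpace.mk' ℝ (E := Bundle.Trivial M ℝ) ((chartAt E x).symm y)
        (g.inner ((chartAt E x).symm y) (mfderiv 𝓘(ℝ, E) 𝓘(ℝ, E) (chartAt E x).symm y u)
          (mfderiv 𝓘(ℝ, E) 𝓘(ℝ, E) (chartAt E x).symm y v))) (chartAt E x).target :=
    ContMDiffOn.clm_bundle_apply₂ (F₁ := E) (F₂ := E)
      (g.contMDiff.comp_contMDiffOn contMDiffOn_chart_symm) (bridge_push x u) (bridge_push x v)
  rw [← contMDiffOn_iff_contDiffOn]
  intro y hy
  have h := this y hy
  rw [contMDiffWithinAt_totalSpace] at h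
  exact h.2

lemma bridge_bil (x : M) (y u v : E) : bil (metricInChart g x) y u v =
    g.inner ((chartAt E x).symm y) (mfderiv 𝓘(ℝ, E) 𝓘(ℝ, E) (chartAt E x).symm y u)
      (mfderiv 𝓘(ℝ, E) 𝓘(ℝ, E) (chartAt E x).symm y v) := by
  have key : ∀ (B : E →L[ℝ] E →L[ℝ] ℝ) (A : E →L[ℝ] E), B (A u) (A v) = ∑ i, ∑ j,
      B (A (EuclideanSpace.single i 1)) (A (EuclideanSpace.single j 1)) * u i * v j := by
    intro B A
    have e : ∀ w : E, w = ∑ i, w i • EuclideanSpace.single i (1 : ℝ) := fun w => by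
      simpa using ((EuclideanSpace.basisFun (Fin 3) ℝ).sum_repr w).symm
    conv_lhs => rw [e u, e v]
    simp only [map_sum, map_smul, sum_apply, smul_apply,
      smul_eq_mul, Finset.mul_sum]
    rw [Finset.sum_comm]
    exact Finset.sum_congr rfl fun i _ => Finset.sum_congr rfl fun j _ => by ring
  rw [bil_apply]
  exact (key (g.inner ((chartAt E x).symm y)) (mfderiv 𝓘(ℝ, E) 𝓘(ℝ, E) (chartAt E x).symm y)).symm

/-- Recipe: smoothness of the entries at `y0 ∈ target`: `y ↦ ((chartAt x).symm y, mfderiv .. y e_i)`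
is a smooth map into the tangent bundle (`ContMDiffOn.contMDiffOn_tangentMapWithin` /
`contMDiffOn_chart_symm`, or directly: in the trivialisation at `q0 = (chartAt x).symm y0` it is
`fderiv (chartAt q0 ∘ (chartAt x).symm) y e_i`), then `ContMDiffAt.clm_bundle_apply₂` with
`g.contMDiff` (or `ContMDiffAt.inner_bundle` with `letI : RiemannianBundle := ⟨g.toRiemannianMetric⟩`).
Positive definite: `mfderiv (chartAt x).symm y` is injective (`mdifferentiable_chart`,
`OpenPartialHomeomorph.MDifferentiable.symm_mfderiv`/`mfderiv_injective`). -/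
theorem riem_metricInChart (x : M) : IsRiemannianOn (metricInChart g x) (chartAt E x).target := by
  refine ⟨(chartAt E x).open_target, fun i j => bridge_smooth g x _ _, fun y hy => ?_⟩
  rw [Matrix.posDef_iff_dotProduct_mulVec]
  refine ⟨?_, fun w hw => ?_⟩
  · ext i j
    exact g.symm _ _ _
  · have hw' : (WithLp.toLp 2 w : E) ≠ 0 := fun e => hw (by simpa using congrArg WithLp.ofLp e)
    have hinj := (mdifferentiable_chart (I := 𝓘(ℝ, E)) x).symm.mfderiv_injective (x := y) hy
    have h1 := g.pos ((chartAt E x).symm y)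
      (mfderiv 𝓘(ℝ, E) 𝓘(ℝ, E) (chartAt E x).symm y (WithLp.toLp 2 w))
      fun e => hw' (hinj (e.trans (map_zero _).symm))
    rw [← bridge_bil, bil_apply] at h1
    refine h1.trans_eq ?_
    simp only [dotProduct, Matrix.mulVec, star_trivial, Finset.mul_sum]
    exact Finset.sum_congr rfl fun i _ => Finset.sum_congr rfl fun j _ => by ring

omit [IsManifold 𝓘(ℝ, E) ∞ M] in
lemma bridge_ev {x x' q : M} (hq : q ∈ (chartAt E x).source) (hq' : q ∈ (chartAt E x').source) :
    ∀ᶠ z in 𝓝 (chartAt E x q), z ∈ (chartAt E x).target ∧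
      (chartAt E x).symm z ∈ (chartAt E x').source := by
  have h1 := (chartAt E x).map_source hq
  refine ((chartAt E x).open_target.eventually_mem h1).and ?_
  refine ((chartAt E x).continuousAt_symm h1).eventually_mem ?_
  rw [(chartAt E x).left_inv hq]
  exact (chartAt E x').open_source.mem_nhds hq'

lemma bridge_tr {x x' : M} {z : E} (hz : z ∈ (chartAt E x).target)
    (hz' : (chartAt E x).symm z ∈ (chartAt E x').source) :
    ContDiffAt ℝ ∞ (chartAt E x' ∘ (chartAt E x).symm) z := by
  rw [← contMDiffAt_iff_contDiffAt]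
  exact ContMDiffAt.comp z
    (contMDiffOn_chart.contMDiffAt ((chartAt E x').open_source.mem_nhds hz'))
    (contMDiffOn_chart_symm.contMDiffAt ((chartAt E x).open_target.mem_nhds hz))

/-- `bil (metricInChart g x) y u v = g.inner _ (mfderiv .. y u) (mfderiv .. y v)` (expand `u`, `v` in
the basis), and the chain rule for `(chartAt x).symm = (chartAt x').symm ∘ (chartAt x' ∘ (chartAt x).symm)`
near each point. -/
theorem isom_metricInChart (x x' q : M) (hq : q ∈ (chartAt E x).source)
    (hq' : q ∈ (chartAt E x').source) :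
    IsomAt (bil (metricInChart g x)) (bil (metricInChart g x'))
      (chartAt E x' ∘ (chartAt E x).symm) (chartAt E x q) := by
  filter_upwards [bridge_ev hq hq'] with z hz
  have hτ := bridge_tr hz.1 hz.2
  refine ⟨hτ, fun u v => ?_⟩
  have hev : (chartAt E x).symm =ᶠ[𝓝 z]
      (chartAt E x').symm ∘ (chartAt E x' ∘ (chartAt E x).symm) := by
    have := bridge_ev ((chartAt E x).map_target hz.1) hz.2
    rw [(chartAt E x).right_inv hz.1] at this
    filter_upwards [this] with w hw
    exact ((chartAt E x').left_inv hw.2).symm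
  have h1 : HasMFDerivAt 𝓘(ℝ, E) 𝓘(ℝ, E) (chartAt E x' ∘ (chartAt E x).symm) z
      (fderiv ℝ (chartAt E x' ∘ (chartAt E x).symm) z) :=
    (local_hasF hτ).hasMFDerivAt
  have h2 := ((mdifferentiable_chart (I := 𝓘(ℝ, E)) x').mdifferentiableAt_symm
    ((chartAt E x').map_source hz.2)).hasMFDerivAt
  have h3 := ((HasMFDerivAt.comp z h2 h1).congr_of_eventuallyEq hev).mfderiv
  have h4 : ∀ (p p' : M) (_ : p = p') (a b : E), g.inner p a b = g.inner p' a b := by
    rintro p _ rfl a b
    rfl
  rw [bridge_bil, bridge_bil, h3]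
  exact h4 _ _ hev.eq_of_nhds _ _

/-- the metric atlas of a Riemannian manifold -/
def toMA : MA M where
  φ x := chartAt E x
  b x := bil (metricInChart g x)
  Γ x := chr (metricInChart g x)
  mem x := mem_chart_source E x
  lm x := lm_of_riem (riem_metricInChart g x)
  isom := isom_metricInChart g

/-- `secNumer_eq` -/
theorem toMA_NPC (h : HasNonposSectionalCurvature g) : (toMA g).NPC := by
  intro x u v
  have h1 := h x u v
  rwa [secNumer_eq (riem_metricInChart g x) (mem_chart_target E x)] at h1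

/-- Recipe: `isGeoOn_of` with the chart at `γ t` (`geodesicEqAt_iff`; `ContDiffAt` from
`contMDiffAt_iff_target`/`contMDiffAt_extChartAt`, `contMDiffAt_iff_contDiffAt`); `isJac_of` with the
chart at `γ t0`: for `γ s` in the source, `mfderiv (chartAt x) (γ s) = dtr (γ s) x (γ s)`
(`mfderiv_chartAt_eq_tangentCoordChange`, `tangentCoordChange_def`); this function of `s` is the fibre
coordinate in `trivializationAt` (`contMDiffAt_totalSpace`, `TangentBundle.trivializationAt_apply`);
`jacAt_of_jacobiEqAt`, `JacAt.congr`. -/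
theorem toMA_NCP (h : (toMA g).NCP) : NoConjugatePoints g := by
  intro γ J hγ hJ
  have hc : ∀ t, ContDiffAt ℝ 2 (chartAt E (γ t) ∘ γ) t := fun t => by
    refine ContDiffAt.of_le ?_ local_two_le
    rw [← contMDiffAt_iff_contDiffAt]
    exact ContMDiffAt.comp t (contMDiffOn_chart.contMDiffAt
      ((chartAt E (γ t)).open_source.mem_nhds (mem_chart_source E _))) (hγ.1 t)
  have hg : ∀ t, GeoAt (chr (metricInChart g (γ t))) (chartAt E (γ t) ∘ γ) t := fun t =>
    ⟨hc t, (geodesicEqAt_iff _ _ _).1 (hγ.2 t)⟩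
  have hgeo : (toMA g).IsGeo γ :=
    MA.isGeoOn_of isOpen_univ hγ.1.continuous.continuousOn fun t _ =>
      ⟨γ t, mem_chart_source E _, hg t⟩
  refine h γ J hgeo (MA.isJac_of hgeo fun t => ⟨γ t, mem_chart_source E _, ?_⟩)
  have hrep : ∀ s, (toMA g).rep γ J (γ t) s =
      tangentCoordChange 𝓘(ℝ, E) (γ s) (γ t) (γ s) (J s) := fun s => by
    rw [tangentCoordChange_def]
    simp only [modelWithCornersSelf_coe, range_id, fderivWithin_univ]
    rfl
  have hZ : ContDiffAt ℝ 2 ((toMA g).rep γ J (γ t)) t := by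
    refine ContDiffAt.of_le ?_ local_two_le
    rw [← contMDiffAt_iff_contDiffAt, funext hrep]
    exact (contMDiffAt_totalSpace.1 (hJ.1 t)).2
  have hev : (toMA g).rep γ J (γ t) =ᶠ[𝓝 t] fun s =>
      mfderiv 𝓘(ℝ, E) 𝓘(ℝ, E) (chartAt E (γ t)) (γ s) (J s) := by
    filter_upwards [hγ.1.continuous.continuousAt.eventually_mem
      ((chartAt E (γ t)).open_source.mem_nhds (mem_chart_source E _))] with s hs
    rw [hrep, mfderiv_chartAt_eq_tangentCoordChange hs]
    rfl
  exact (jacAt_of_jacobiEqAt (riem_metricInChart g (γ t)) (mem_chart_target E _) (hg t)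
    (hZ.congr_of_eventuallyEq hev.symm) (hJ.2 t)).congr EventuallyEq.rfl hev EventuallyEq.rfl

end Crest.Agent.R244
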