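import Crest.Agent.R244.Geo3
import Crest.Agent.R244.Jac

/-! # R244: the exponential map -/

open scoped ContDiff Topology Manifold
open Set Filter
open Crest.GeometryTopology.CoordMetric

noncomputable section

namespace Crest.Agent.R244

set_option linter.unusedSectionVars false
set_option linter.unusedVariables false

namespace MA

variable {M : Type} [TopologicalSpace M] {𝒜 : MA M}

theorem geo4_cont [T2Space M] {x : M} {γ : E → ℝ → M} (h : 𝒜.Fam x γ) (t : ℝ) :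
    Continuous (fun v => γ v t) := continuous_iff_continuousAt.2 fun v =>
  ContinuousAt.comp (f := fun v : E => (t, v)) (g := fun p : ℝ × E => γ p.2 p.1)
    (h.smooth t v).1 (by fun_prop)

theorem geo4_contDiffAt [T2Space M] {x : M} {γ : E → ℝ → M} (h : 𝒜.Fam x γ) {t : ℝ} {v0 : E}
    {x' : M} (hx : γ v0 t ∈ (𝒜.φ x').source) :
    ContDiffAt ℝ 3 (fun v => 𝒜.φ x' (γ v t)) v0 :=
  (ContDiffAt.comp (f := fun v : E => (t, v)) v0 ((h.smooth t v0).2 x' hx) (by fun_prop)).fst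

theorem geo4_rep [T2Space M] {x : M} {γ : E → ℝ → M} (h : 𝒜.Fam x γ) (v0 w : E) (t : ℝ) (x' : M)
    (hx : γ v0 t ∈ (𝒜.φ x').source) :
    𝒜.rep (γ v0) (fun t => fderiv ℝ (fun v => 𝒜.φ (γ v0 t) (γ v t)) v0 w) x' t =
      fderiv ℝ (fun v => 𝒜.φ x' (γ v t)) v0 w := by
  have h1 : (fun v => 𝒜.φ x' (γ v t)) =ᶠ[𝓝 v0]
      (𝒜.φ x' ∘ (𝒜.φ (γ v0 t)).symm) ∘ (fun v => 𝒜.φ (γ v0 t) (γ v t)) := by
    filter_upwards [(geo4_cont h t).continuousAt.eventually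
      ((𝒜.φ (γ v0 t)).open_source.mem_nhds (𝒜.mem _))] with v hv
    simp only [Function.comp_apply, (𝒜.φ (γ v0 t)).left_inv hv]
  have h2 : DifferentiableAt ℝ (𝒜.φ x' ∘ (𝒜.φ (γ v0 t)).symm) (𝒜.φ (γ v0 t) (γ v0 t)) :=
    (𝒜.isom _ x' _ (𝒜.mem _) hx).self_of_nhds.1.differentiableAt (by simp)
  rw [h1.fderiv_eq, fderiv_comp v0 h2
    ((geo4_contDiffAt h (𝒜.mem _)).differentiableAt (by norm_num))]
  rfl

theorem geo4_var [T2Space M] {x : M} {γ : E → ℝ → M} (h : 𝒜.Fam x γ) (v0 w : E) {t0 : ℝ} {x' : M}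
    (hx : γ v0 t0 ∈ (𝒜.φ x').source) :
    JacAt (𝒜.Γ x') (𝒜.φ x' ∘ γ v0) (fun s => fderiv ℝ (fun v => 𝒜.φ x' (γ v s)) v0 w) t0 ∧
      deriv (fun s => fderiv ℝ (fun v => 𝒜.φ x' (γ v s)) v0 w) t0 =
        fderiv ℝ (fun v => deriv (𝒜.φ x' ∘ γ v) t0) v0 w := by
  set W : ℝ × E → E × E := fun p => (𝒜.φ x' (γ p.2 p.1), deriv (𝒜.φ x' ∘ γ p.2) p.1) with hWdef
  have hW : ContDiffAt ℝ 3 W (t0, v0) := (h.smooth t0 v0).2 x' hx
  have hW' : ∀ᶠ p in 𝓝 (t0, v0), ContDiffAt ℝ 3 W p := hW.eventually (by simp)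
  have hsrc : ∀ᶠ p : ℝ × E in 𝓝 (t0, v0), γ p.2 p.1 ∈ (𝒜.φ x').source :=
    (h.smooth t0 v0).1.eventually ((𝒜.φ x').open_source.mem_nhds hx)
  have hrel : ∀ᶠ p in 𝓝 (t0, v0), fderiv ℝ W p (1, 0) = spray (𝒜.Γ x') (W p) := by
    filter_upwards [hW', hsrc] with p hp hs
    have h1 : HasDerivAt (fun s => W (s, p.2)) (spray (𝒜.Γ x') (W p)) p.1 :=
      ((h.geo p.2).2 x' p.1 (mem_univ _) hs).hasDerivAt
    have h2 : HasDerivAt (fun s => W (s, p.2)) (fderiv ℝ W p (1, 0)) p.1 :=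
      HasFDerivAt.comp_hasDerivAt (f := fun s : ℝ => (s, p.2)) p.1
        (hp.differentiableAt (by norm_num)).hasFDerivAt
        ((hasDerivAt_id p.1).prodMk (hasDerivAt_const p.1 p.2))
    exact h2.unique h1
  set ζ : ℝ → E × E := fun s => fderiv ℝ W (s, v0) (0, w) with hζdef
  have hι : Tendsto (fun s : ℝ => (s, v0)) (𝓝 t0) (𝓝 (t0, v0)) :=
    (by fun_prop : Continuous fun s : ℝ => (s, v0)).tendsto t0
  have hv : ∀ s, ContDiffAt ℝ 3 W (s, v0) → ζ s = (fderiv ℝ (fun v => 𝒜.φ x' (γ v s)) v0 w,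
      fderiv ℝ (fun v => deriv (𝒜.φ x' ∘ γ v) s) v0 w) := fun s hs => by
    have h1 : HasFDerivAt (fun v => W (s, v))
        ((fderiv ℝ W (s, v0)).comp (ContinuousLinearMap.inr ℝ ℝ E)) v0 :=
      HasFDerivAt.comp (f := fun v : E => (s, v)) v0
        (hs.differentiableAt (by norm_num)).hasFDerivAt (hasFDerivAt_prodMk_right s v0)
    have h2 : fderiv ℝ (fun v => 𝒜.φ x' (γ v s)) v0 = _ := h1.fst.fderiv
    have h3 : fderiv ℝ (fun v => deriv (𝒜.φ x' ∘ γ v) s) v0 = _ := h1.snd.fderiv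
    rw [h2, h3]
    rfl
  have hd : ∀ᶠ s in 𝓝 t0, HasDerivAt ζ ((ζ s).2,
      -fderiv ℝ (𝒜.Γ x') (W (s, v0)).1 (ζ s).1 (W (s, v0)).2 (W (s, v0)).2 -
        (2 : ℝ) • 𝒜.Γ x' (W (s, v0)).1 (W (s, v0)).2 (ζ s).2) s := by
    filter_upwards [hι.eventually hW', hι.eventually hsrc,
      hι.eventually hrel.eventually_nhds] with s h1 h2 h3
    have hy : (W (s, v0)).1 ∈ (𝒜.φ x').target := (𝒜.φ x').map_source h2
    have h4 := lin_of_related (T := W) (S := fun _ => ((1 : ℝ), (0 : E)))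
      (S' := fun p => spray (𝒜.Γ x') (W p)) (z := fun s : ℝ => (s, v0))
      (ζ := fun _ => ((0 : ℝ), w)) (t := s) (h1.of_le (by norm_num)) (differentiableAt_const _) h3
      ((hasDerivAt_id s).prodMk (hasDerivAt_const s v0))
      (by simpa using hasDerivAt_const s ((0 : ℝ), w))
    have h5 : DifferentiableAt ℝ (spray (𝒜.Γ x')) (W (s, v0)) :=
      ((𝒜.lm x').spray_smooth.contDiffAt (((𝒜.lm x').isOpen.prod isOpen_univ).mem_nhds
        ⟨hy, mem_univ _⟩)).differentiableAt (by simp)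
    rw [fderiv_fun_comp (s, v0) h5 (h1.differentiableAt (by norm_num)),
      ContinuousLinearMap.comp_apply] at h4
    have h6 := fderiv_spray (u := (W (s, v0)).2) (𝒜.lm x') hy (ζ s).1 (ζ s).2
    rw [← h6]
    exact h4
  have hZ : (fun s => fderiv ℝ (fun v => 𝒜.φ x' (γ v s)) v0 w) =ᶠ[𝓝 t0] fun s => (ζ s).1 := by
    filter_upwards [hι.eventually hW'] with s hs
    rw [hv s hs]
  have hZ' : deriv (fun s => (ζ s).1) =ᶠ[𝓝 t0] fun s => (ζ s).2 := by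
    filter_upwards [hd] with s hs
    exact ((ContinuousLinearMap.fst ℝ E E).hasFDerivAt.comp_hasDerivAt s hs).deriv
  have hc : ContDiffAt ℝ 2 ζ t0 := by
    have h1 : ContDiffAt ℝ 2 (fderiv ℝ W) (t0, v0) := hW.fderiv_right (by norm_num)
    exact (ContDiffAt.comp (f := fun s : ℝ => (s, v0)) t0 h1 (by fun_prop)).clm_apply contDiffAt_const
  refine ⟨JacAt.congr (y := 𝒜.φ x' ∘ γ v0) (Γ := 𝒜.Γ x') ⟨hc.fst, ?_⟩ EventuallyEq.rfl hZ
    EventuallyEq.rfl, ?_⟩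
  · rw [hZ'.deriv_eq, hZ'.self_of_nhds]
    exact ((ContinuousLinearMap.snd ℝ E E).hasFDerivAt.comp_hasDerivAt t0 hd.self_of_nhds).deriv
  · rw [hZ.deriv_eq, hZ'.self_of_nhds]
    exact congrArg Prod.snd (hv t0 hW)

theorem geo4_cs (x : M) (u v : E) : 𝒜.ip x u v ^ 2 ≤ 𝒜.ip x u u * 𝒜.ip x v v := by
  have h := discrim_le_zero (a := 𝒜.ip x v v) (b := 2 * 𝒜.ip x u v) (c := 𝒜.ip x u u) fun t => by
    have h1 := ip_nonneg (𝒜 := 𝒜) x (u + t • v)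
    have h2 := ip_symm (𝒜 := 𝒜) x v u
    simp only [ip, map_add, map_smul, add_apply, smul_apply,
      smul_eq_mul] at h1 h2 ⊢
    rw [h2] at h1
    linarith
  rw [discrim] at h
  linarith

theorem geo4_eq_zero {x : M} {u : E} (h : 𝒜.ip x u u ≤ 0) : u = 0 := by
  by_contra h0
  exact absurd (ip_pos (𝒜 := 𝒜) x h0) (not_lt.2 h)

/-- Variation fields are Jacobi fields.  Recipe: `J t = fderiv (fun v => φ (γ v0 t) (γ v t)) v0 w`;
`rep J x' t = fderiv (fun v => φ x' (γ v t)) v0 w` by the chain rule; with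
`Y (t,v) = φ x' (γ v t)` (`C³`, `Fam.smooth`) differentiate `∂ₜ (Y, ∂ₜY) = spray (Y, ∂ₜY)` in `v` and
exchange the derivatives (`ContDiffAt.isSymmSndFDerivAt` on `ℝ × E`). -/
theorem Fam.exists_jac [T2Space M] {x : M} {γ : E → ℝ → M} (h : 𝒜.Fam x γ) (v0 w : E) :
    ∃ J, 𝒜.IsJac (γ v0) J ∧ J 0 = 0 ∧ 𝒜.DJ (γ v0) J 0 = w ∧
      ∀ t x', γ v0 t ∈ (𝒜.φ x').source →
        𝒜.rep (γ v0) J x' t = fderiv ℝ (fun v => 𝒜.φ x' (γ v t)) v0 w := by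
  have hrep := geo4_rep h v0 w
  set J : ℝ → E := fun t => fderiv ℝ (fun v => 𝒜.φ (γ v0 t) (γ v t)) v0 w with hJ
  have hc : Continuous (γ v0) := continuousOn_univ.1 (h.geo v0).1
  have hev : ∀ t x', γ v0 t ∈ (𝒜.φ x').source → 𝒜.rep (γ v0) J x' =ᶠ[𝓝 t]
      fun s => fderiv ℝ (fun v => 𝒜.φ x' (γ v s)) v0 w := fun t x' hx => by
    filter_upwards [hc.continuousAt.eventually ((𝒜.φ x').open_source.mem_nhds hx)] with s hs
    exact hrep s x' hs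
  have h0 : J 0 = 0 := by simp [hJ, h.zero]
  refine ⟨J, fun x' t hx => (geo4_var h v0 w hx).1.congr EventuallyEq.rfl (hev t x' hx)
    EventuallyEq.rfl, h0, ?_, hrep⟩
  have h1 : (fun v => deriv (𝒜.φ (γ v0 0) ∘ γ v) 0) = fun v => v := by
    funext v
    have := h.vel v
    rw [MA.vel, h.zero] at this
    rw [h.zero, this]
  rw [DJ, cov, rep_self, h0, map_zero, add_zero, (hev 0 _ (𝒜.mem _)).deriv_eq,
    (geo4_var h v0 w (𝒜.mem _)).2, h1]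
  simp

/-- Gauss lemma + inverse: `⟨J 1, ċ 1⟩ = ⟨w, v⟩` (`m_affine`), Cauchy–Schwarz, constant speed;
an injective endomorphism of `E` is a `≃L` (`LinearEquiv.ofInjectiveEndo`);
`ContDiffAt.hasStrictFDerivAt`. -/
theorem Fam.expOK_of_inj [T2Space M] {x : M} {γ : E → ℝ → M} (h : 𝒜.Fam x γ)
    (hinj : ∀ v J, 𝒜.IsJac (γ v) J → J 0 = 0 → J 1 = 0 → 𝒜.DJ (γ v) J 0 = 0) :
    𝒜.ExpOK x (fun v => γ v 1) := by
  refine ⟨geo4_cont h 1, fun v x' hx => ?_⟩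
  have hf : ContDiffAt ℝ 3 (𝒜.φ x' ∘ fun v => γ v 1) v := geo4_contDiffAt h hx
  set A := fderiv ℝ (𝒜.φ x' ∘ fun v => γ v 1) v with hA
  have hJ : ∀ w, ∃ J, 𝒜.IsJac (γ v) J ∧ J 0 = 0 ∧ 𝒜.DJ (γ v) J 0 = w ∧
      𝒜.ip (γ v 1) (J 1) (J 1) = 𝒜.b x' (𝒜.φ x' (γ v 1)) (A w) (A w) := fun w => by
    obtain ⟨J, h1, h2, h3, h4⟩ := h.exists_jac v w
    exact ⟨J, h1, h2, h3, by rw [ip_eq J J hx, h4 1 x' hx]; rfl⟩
  have hi : Function.Injective (A : E →ₗ[ℝ] E) := by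
    refine (injective_iff_map_eq_zero _).2 fun w hw => ?_
    obtain ⟨J, h1, h2, h3, h4⟩ := hJ w
    have hw' : A w = 0 := hw
    rw [hw', map_zero] at h4
    rw [← h3]
    exact hinj v J h1 h2 (geo4_eq_zero h4.le)
  refine ⟨(LinearEquiv.ofInjectiveEndo (A : E →ₗ[ℝ] E) hi).toContinuousLinearEquiv,
    hf.hasStrictFDerivAt (by norm_num), fun w => ?_⟩
  obtain ⟨J, h1, h2, h3, h4⟩ := hJ w
  have h5 := (h1.m_affine (h.geo v) 1).2
  have h6 := IsGeoOn.speed isOpen_univ isPreconnected_univ (h.geo v) (mem_univ 1) (mem_univ 0)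
  rw [h2, h3, h.vel, h.zero, one_mul] at h5
  rw [h.vel, h.zero] at h6
  have h7 : 𝒜.ip x 0 v = 0 := by simp [ip]
  have h8 := geo4_cs (𝒜 := 𝒜) (γ v 1) (J 1) (𝒜.vel (γ v) 1)
  rw [h5, h6, h4, h7, zero_add, ip_symm, mul_comm] at h8
  exact h8

theorem Fam.expOK_of_NCP [T2Space M] {x : M} {γ : E → ℝ → M} (h : 𝒜.Fam x γ) (hN : 𝒜.NCP) :
    𝒜.ExpOK x (fun v => γ v 1) := by
  refine h.expOK_of_inj fun v J hJ h0 h1 => ?_
  have h2 : J = fun _ => 0 := funext (hN _ J (h.geo v) hJ 0 1 zero_ne_one h0 h1)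
  have h3 : 𝒜.rep (γ v) J (γ v 0) = fun _ => 0 := by
    funext t; simp [rep, h2]
  simp [DJ, cov, h3]

theorem Fam.expOK_of_NPC [T2Space M] {x : M} {γ : E → ℝ → M} (h : 𝒜.Fam x γ) (hN : 𝒜.NPC) :
    𝒜.ExpOK x (fun v => γ v 1) ∧ 𝒜.Expanding x (fun v => γ v 1) := by
  refine ⟨h.expOK_of_inj fun v J hJ h0 h1 => ?_, fun v x' hx w => ?_⟩
  · have h2 := hJ.rauch hN (h.geo v) h0
    rw [h1] at h2
    exact geo4_eq_zero (h2.trans (by simp [ip]))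
  · obtain ⟨J, h1, h2, h3, h4⟩ := h.exists_jac v w
    have h5 := h1.rauch hN (h.geo v) h2
    rw [h3, h.zero, ip_eq J J hx, h4 1 x' hx] at h5
    exact h5

end MA

end Crest.Agent.R244
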