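import Crest.Agent.R244.Geo2
import Crest.Agent.R244.Geo4
import Crest.Agent.R244.Cover

/-! # R244: the universal cover of a compact atlas with `K ≤ 0` satisfies CN -/

open scoped ContDiff Topology Manifold
open Set Filter
open Crest.GeometryTopology.CoordMetric

noncomputable section

namespace Crest.Agent.R244

set_option linter.unusedSectionVars false
set_option linter.unusedVariables false

namespace MA

variable {M : Type} [TopologicalSpace M] {𝒜 : MA M}

lemma cat_ip_sq_le (x : M) (u v : E) : 𝒜.ip x u v ^ 2 ≤ 𝒜.ip x u u * 𝒜.ip x v v := by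
  have h : ∀ t : ℝ, 0 ≤ 𝒜.ip x v v * (t * t) + 2 * 𝒜.ip x u v * t + 𝒜.ip x u u := fun t => by
    have h1 := ip_nonneg (𝒜 := 𝒜) x (u + t • v)
    have h2 := ip_symm (𝒜 := 𝒜) x v u
    simp only [ip, map_add, map_smul, add_apply,
      smul_apply, smul_eq_mul] at h1 h2 ⊢
    rw [h2] at h1
    linarith
  have := discrim_le_zero h
  rw [discrim] at this
  linarith

/-- the norm of a tangent vector -/
def catN (𝒜 : MA M) (x : M) (u : E) : ℝ := Real.sqrt (𝒜.ip x u u)

lemma catN_nonneg (x : M) (u : E) : 0 ≤ 𝒜.catN x u := Real.sqrt_nonneg _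

lemma catN_sq (x : M) (u : E) : 𝒜.catN x u ^ 2 = 𝒜.ip x u u := Real.sq_sqrt (ip_nonneg x u)

lemma cat_ip_le (x : M) (u v : E) : 𝒜.ip x u v ≤ 𝒜.catN x u * 𝒜.catN x v := by
  refine (abs_le_of_sq_le_sq' ?_ (mul_nonneg (catN_nonneg x u) (catN_nonneg x v))).2
  rw [mul_pow, catN_sq, catN_sq]
  exact cat_ip_sq_le x u v

lemma catN_zero (x : M) : 𝒜.catN x 0 = 0 := by simp [catN, ip]

lemma catN_neg (x : M) (u : E) : 𝒜.catN x (-u) = 𝒜.catN x u := by simp [catN, ip]

lemma catN_add_le (x : M) (u v : E) : 𝒜.catN x (u + v) ≤ 𝒜.catN x u + 𝒜.catN x v := by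
  refine (abs_le_of_sq_le_sq' ?_ (add_nonneg (catN_nonneg x u) (catN_nonneg x v))).2
  have h1 := cat_ip_le (𝒜 := 𝒜) x u v
  have h2 := ip_symm (𝒜 := 𝒜) x v u
  have h3 : 𝒜.ip x (u + v) (u + v) = 𝒜.ip x u u + 𝒜.ip x u v + 𝒜.ip x v u + 𝒜.ip x v v := by
    simp only [ip, map_add, add_apply]
    ring
  rw [add_sq, catN_sq, catN_sq, catN_sq, h3, h2]
  linarith

lemma catN_parallelogram (x : M) (u v : E) :
    𝒜.catN x (-u - v) ^ 2 + 𝒜.catN x (u - v) ^ 2 = 2 * 𝒜.catN x v ^ 2 + 2 * 𝒜.catN x u ^ 2 := by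
  simp only [catN_sq, ip, map_sub, map_neg, sub_apply,
    neg_apply]
  ring

lemma catN_half (x : M) (u : E) : 𝒜.catN x ((1 / 2 : ℝ) • u) = 𝒜.catN x u / 2 := by
  refine (sq_eq_sq₀ (catN_nonneg _ _) (div_nonneg (catN_nonneg _ _) zero_le_two)).1 ?_
  rw [div_pow, catN_sq, catN_sq]
  simp only [ip, map_smul, smul_apply, smul_eq_mul]
  ring

/-- a continuous lift of a geodesic through an expanding local diffeomorphism is differentiable,
with speed at most that of the geodesic -/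
lemma cat_lift_deriv {x : M} {e : E → M} (h1 : 𝒜.ExpOK x e) (h2 : 𝒜.Expanding x e) {c : ℝ → M}
    (hc : 𝒜.IsGeo c) {κ : ℝ → E} (hκ : Continuous κ) (he : ∀ t, e (κ t) = c t) (t : ℝ) :
    ∃ w, HasDerivAt κ w t ∧ 𝒜.catN x w ≤ 𝒜.catN (c 0) (𝒜.vel c 0) := by
  have hm : e (κ t) ∈ (𝒜.φ (c t)).source := by rw [he]; exact 𝒜.mem _
  obtain ⟨A, hA, -⟩ := h1.2 (κ t) (c t) hm
  have hg : HasDerivAt (𝒜.φ (c t) ∘ c) (𝒜.vel c t) t :=
    ((hc.2 (c t) t (mem_univ _) (𝒜.mem _)).1.differentiableAt (by norm_num)).hasDerivAt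
  have hgt : (𝒜.φ (c t) ∘ c) t = (𝒜.φ (c t) ∘ e) (κ t) := by simp [he]
  have hinv := hA.to_localInverse.hasFDerivAt
  rw [← hgt] at hinv
  have hd := hinv.comp_hasDerivAt t hg
  have hev : κ =ᶠ[𝓝 t] (hA.localInverse _ _ _ ∘ (𝒜.φ (c t) ∘ c)) := by
    filter_upwards [hκ.continuousAt.tendsto.eventually hA.eventually_left_inverse] with s hs
    simp only [Function.comp_apply, he] at hs ⊢
    exact hs.symm
  refine ⟨_, hd.congr_of_eventuallyEq hev, Real.sqrt_le_sqrt ?_⟩
  have h3 := h2 (κ t) (c t) hm ((A.symm : E →L[ℝ] E) (𝒜.vel c t))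
  rw [hA.hasFDerivAt.fderiv, he] at h3
  simp only [ContinuousLinearEquiv.coe_coe, ContinuousLinearEquiv.apply_symm_apply] at h3 ⊢
  refine h3.trans (le_of_eq ?_)
  exact IsGeoOn.speed isOpen_univ isPreconnected_univ hc (mem_univ t) (mem_univ 0)

lemma cat_lift_le {x : M} {e : E → M} (h1 : 𝒜.ExpOK x e) (h2 : 𝒜.Expanding x e) {c : ℝ → M}
    (hc : 𝒜.IsGeo c) {κ : ℝ → E} (hκ : Continuous κ) (he : ∀ t, e (κ t) = c t) :
    𝒜.catN x (κ 1 - κ 0) ≤ 𝒜.catN (c 0) (𝒜.vel c 0) := by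
  choose w hw hw' using cat_lift_deriv h1 h2 hc hκ he
  set n := κ 1 - κ 0 with hn
  set ℓ : E →L[ℝ] ℝ := 𝒜.b x (𝒜.φ x x) n with hℓ
  have hd : ∀ t, HasDerivAt (fun s => ℓ (κ s)) (ℓ (w t)) t := fun t =>
    ℓ.hasFDerivAt.comp_hasDerivAt t (hw t)
  obtain ⟨s, -, hs⟩ := exists_hasDerivAt_eq_slope (fun s => ℓ (κ s)) (fun s => ℓ (w s)) zero_lt_one
    (ℓ.continuous.comp hκ).continuousOn (fun t _ => hd t)
  have h3 : 𝒜.catN x n ^ 2 = 𝒜.ip x n (w s) := by
    rw [catN_sq]
    change ℓ n = ℓ (w s)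
    rw [hs, hn, map_sub]
    simp
  have h4 := cat_ip_le (𝒜 := 𝒜) x n (w s)
  have h5 := hw' s
  have h6 := catN_nonneg (𝒜 := 𝒜) x n
  rcases h6.eq_or_lt with h7 | h7
  · rw [← h7]; exact catN_nonneg _ _
  · refine le_trans (le_of_mul_le_mul_left ?_ h7) h5
    rw [← sq, h3]
    exact h4

/-- Recipe: `γ q` a family at every `q` (`exists_fam`), `ex q v = γ q v 1` (coverings), `e = ex p`.
For `a : E` let `L a : E → E` be the lift of `ex (e a)` through `e` with `L a 0 = a`, `K a` the lift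
of `e` through `ex (e a)` with `K a a = 0` (`IsCoveringMap.existsUnique_continuousMap_lifts`; `E` is
contractible); they are mutually inverse (`IsCoveringMap.eq_of_comp_eq`).
`d a b = √(ip (e a) (K a b) (K a b))`.
Key inequality `√ip (e z) (K z a - K z b) ≤ d a b`: with `u = K a b`, `κ t = K z (L a (t • u))` is
continuous, `ex (e z) (κ t) = γ (e a) u t` (`Fam.scale`), so `κ` is differentiable (local inverse,
`HasStrictFDerivAt.to_localInverse` or `HasFDerivAt.of_local_left_inverse`) with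
`ip (κ',κ') ≤ speed² = ip (u,u)` (`Expanding`, `rep_vel`, `ip_eq`, `speed`); mean value inequality
for `t ↦ ip (κ t) n`.  It gives symmetry (`z = b`), the triangle inequality and CN: for `w = K b c`,
`m = L b (w/2)`, `u = (1/2) • vel (γ (e b) w) (1/2)`: `L m (s • u) = L b ((1/2 + s/2) • w)`
(`IsGeoOn.affine`, `unique`, uniqueness of lifts), so `K m b = -u`, `K m c = u`; parallelogram law.
Deck invariance: `D ∘ L a = L (D a)` (note `e (D a) = e a`; state `L` as a function of `(q, a)` with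
`e a = q`).  Displacement: `disp` for `γ (e a) (K a b)`. -/
theorem cat [T2Space M] [CompactSpace M] [ConnectedSpace M] (hK : 𝒜.NPC) :
    ∃ (e : E → M) (d : E → E → ℝ), IsCoveringMap e ∧ Function.Surjective e ∧ CN d ∧
      (∀ D : Equiv.Perm E, Deck e D → ∀ a b, d (D a) (D b) = d a b) ∧
      ∃ r : ℝ, 0 < r ∧ ∀ a b, e a = e b → a ≠ b → r ≤ d a b := by
  obtain ⟨p⟩ : Nonempty M := inferInstance
  choose γ hγ using 𝒜.exists_fam
  have hex : ∀ q, 𝒜.ExpOK q (fun v => γ q v 1) ∧ 𝒜.Expanding q (fun v => γ q v 1) :=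
    fun q => (hγ q).expOK_of_NPC hK
  have hcov : ∀ q, IsCoveringMap (fun v => γ q v 1) ∧ Function.Surjective (fun v => γ q v 1) :=
    fun q => (hex q).1.isCoveringMap
  have hsc : ∀ q v t, γ q (t • v) 1 = γ q v t := fun q v t => by
    rw [(hγ q).scale, mul_one]
  have h0 : ∀ q, γ q 0 1 = q := fun q => by
    have := hsc q 0 0
    rwa [smul_zero, (hγ q).zero] at this
  obtain ⟨e, he⟩ : ∃ e : E → M, e = fun v => γ p v 1 := ⟨_, rfl⟩
  have hce : IsCoveringMap e := he ▸ (hcov p).1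
  have hse : Function.Surjective e := he ▸ (hcov p).2
  have hL : ∀ a, ∃ L : E → E, Continuous L ∧ L 0 = a ∧ ∀ v, e (L v) = γ (e a) v 1 := fun a => by
    obtain ⟨F, ⟨h1, h2⟩, -⟩ := hce.existsUnique_continuousMap_lifts
      (⟨fun v => γ (e a) v 1, (hcov _).1.continuous⟩ : C(E, M)) 0 a (h0 _).symm
    exact ⟨F, F.continuous, h1, fun v => congrFun h2 v⟩
  have hK' : ∀ a, ∃ K : E → E, Continuous K ∧ K a = 0 ∧ ∀ b, γ (e a) (K b) 1 = e b := fun a => by
    obtain ⟨F, ⟨h1, h2⟩, -⟩ := (hcov (e a)).1.existsUnique_continuousMap_lifts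
      (⟨e, hce.continuous⟩ : C(E, M)) a 0 (h0 _)
    exact ⟨F, F.continuous, h1, fun v => congrFun h2 v⟩
  choose L hLc hL0 hLe using hL
  choose K hKc hK0 hKe using hK'
  have hKL : ∀ a v, K a (L a v) = v := fun a => by
    have := (hcov (e a)).1.eq_of_comp_eq ((hKc a).comp (hLc a)) continuous_id
      (funext fun v => by simp only [Function.comp_apply, id, hKe, hLe]) 0
      (by simp only [Function.comp_apply, id, hL0, hK0])
    exact fun v => congrFun this v
  have hLK : ∀ a b, L a (K a b) = b := fun a => by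
    have := hce.eq_of_comp_eq ((hLc a).comp (hKc a)) continuous_id
      (funext fun v => by simp only [Function.comp_apply, id, hKe, hLe]) a
      (by simp only [Function.comp_apply, id, hL0, hK0])
    exact fun v => congrFun this v
  have hspeed : ∀ q u, 𝒜.catN (γ q u 0) (𝒜.vel (γ q u) 0) = 𝒜.catN q u := fun q u => by
    rw [(hγ q).zero, (hγ q).vel]
  have key : ∀ z a b, 𝒜.catN (e z) (K z b - K z a) ≤ 𝒜.catN (e a) (K a b) := fun z a b => by
    have := cat_lift_le (hex (e z)).1 (hex (e z)).2 ((hγ (e a)).geo (K a b))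
      (κ := fun t : ℝ => K z (L a (t • K a b)))
      ((hKc z).comp ((hLc a).comp (continuous_id.smul continuous_const)))
      (fun t => by simp only [hKe, hLe, hsc])
    simpa only [one_smul, zero_smul, hL0, hLK, hspeed] using this
  have hsymm' : ∀ a b, 𝒜.catN (e b) (K b a) ≤ 𝒜.catN (e a) (K a b) := fun a b => by
    have := key b a b
    rwa [hK0, zero_sub, catN_neg] at this
  have hsymm : ∀ a b, 𝒜.catN (e a) (K a b) = 𝒜.catN (e b) (K b a) := fun a b =>
    le_antisymm (hsymm' b a) (hsymm' a b)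
  refine ⟨e, fun a b => 𝒜.catN (e a) (K a b), hce, hse,
    ⟨fun a b => catN_nonneg _ _, fun a => by simp only [hK0, catN_zero], hsymm, fun a b c => ?_,
      fun b c => ?_⟩, fun D hD a b => ?_, ?_⟩
  · have h1 := catN_add_le (𝒜 := 𝒜) (e a) (K a b) (K a c - K a b)
    rw [add_sub_cancel] at h1
    exact h1.trans (add_le_add le_rfl (key a b c))
  · obtain ⟨w, hw⟩ : ∃ w, w = K b c := ⟨_, rfl⟩
    obtain ⟨m, hm⟩ : ∃ m, m = L b ((1 / 2 : ℝ) • w) := ⟨_, rfl⟩
    obtain ⟨u, hu⟩ : ∃ u, u = (1 / 2 : ℝ) • 𝒜.vel (γ (e b) w) (1 / 2) := ⟨_, rfl⟩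
    have hem : e m = γ (e b) w (1 / 2) := by rw [hm, hLe, hsc]
    have haff := IsGeoOn.affine isOpen_univ ((hγ (e b)).geo w) (1 / 2) (1 / 2)
    have hgeo : ∀ s, γ (e m) u s = γ (e b) w (1 / 2 * s + 1 / 2) := fun s => by
      refine IsGeoOn.unique isOpen_univ isPreconnected_univ ((hγ (e m)).geo u)
        (c₂ := fun t => γ (e b) w (1 / 2 * t + 1 / 2)) (by simpa using haff.1) (mem_univ 0) ?_ ?_
        (mem_univ s)
      · rw [(hγ _).zero, hem]; simp
      · rw [(hγ _).vel, haff.2 0 (mem_univ _), hu]; simp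
    have hlift : ∀ s : ℝ, L m (s • u) = L b ((1 / 2 * s + 1 / 2) • w) := by
      have := hce.eq_of_comp_eq (g₁ := fun s : ℝ => L m (s • u))
        (g₂ := fun s : ℝ => L b ((1 / 2 * s + 1 / 2) • w))
        ((hLc m).comp (continuous_id.smul continuous_const))
        ((hLc b).comp (by fun_prop))
        (funext fun s => by simp only [Function.comp_apply, hLe, hsc, hgeo]) 0
        (by simp only [zero_smul, hL0, mul_zero, zero_add, hm])
      exact fun s => congrFun this s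
    have hc : K m c = u := by
      have := hlift 1
      rw [one_smul, show (1 / 2 * 1 + 1 / 2 : ℝ) = 1 by norm_num, one_smul, hw, hLK] at this
      rw [← this, hKL]
    have hb : K m b = -u := by
      have := hlift (-1)
      rw [neg_one_smul, show (1 / 2 * -1 + 1 / 2 : ℝ) = 0 by norm_num, zero_smul, hL0] at this
      rw [← this, hKL]
    have hN : 𝒜.catN (e m) u = 𝒜.catN (e b) (K b c) / 2 := by
      rw [hu, catN_half, hem, ← hw, ← hspeed (e b) w]
      rw [catN, catN, IsGeoOn.speed isOpen_univ isPreconnected_univ ((hγ (e b)).geo w)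
        (mem_univ (1 / 2)) (mem_univ 0)]
    refine ⟨m, ?_, ?_, fun z => ?_⟩
    · rw [hsymm, hb, catN_neg, hN]
    · rw [hc, hN]
    · have h1 := key m z b
      have h2 := key m z c
      rw [hb] at h1
      rw [hc] at h2
      have h3 := catN_parallelogram (𝒜 := 𝒜) (e m) u (K m z)
      have h4 := pow_le_pow_left₀ (catN_nonneg _ _) h1 2
      have h5 := pow_le_pow_left₀ (catN_nonneg _ _) h2 2
      rw [hN] at h3
      rw [hsymm z m]
      linarith
  · have h1 : ∀ v, D (L a v) = L (D a) v := by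
      have := hce.eq_of_comp_eq (hD.1.comp (hLc a)) (hLc (D a))
        (funext fun v => by simp only [Function.comp_apply, hD.2, hLe]) 0
        (by simp only [Function.comp_apply, hL0])
      exact fun v => congrFun this v
    have h2 : K (D a) (D b) = K a b := by
      conv_lhs => rw [← hLK a b, h1, hKL]
    simp only [h2, hD.2]
  · obtain ⟨r, hr, h⟩ := 𝒜.disp
    refine ⟨r, hr, fun a b hab hne => ?_⟩
    have h1 := h _ ((hγ (e a)).geo (K a b)) (by rw [hKe, (hγ _).zero, hab]) (by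
      rw [(hγ _).vel]
      intro h2
      apply hne
      rw [← hLK a b, h2, hL0])
    rw [(hγ _).zero, (hγ _).vel] at h1
    exact Real.le_sqrt_of_sq_le h1

end MA

end Crest.Agent.R244
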