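import Crest.Agent.R244.Defs

/-! # R244: from coordinate formulas to `LM`, `GeoAt`, `JacAt`, `Rm` -/

open scoped ContDiff Topology Manifold
open Set Filter
open Crest.GeometryTopology.CoordMetric

noncomputable section

namespace Crest.Agent.R244

set_option linter.unusedSectionVars false
set_option linter.unusedVariables false

open Crest.GeometryTopology.ChartCurvature Crest.GeometryTopology.Geodesic

theorem bil_apply (g : MetricField 3) (y u v : E) :
    bil g y u v = ∑ i, ∑ j, g y i j * u i * v j := by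
  simp [bil, mul_assoc]

theorem chr_apply (g : MetricField 3) (y u v : E) (k : Fin 3) :
    chr g y u v k = ∑ i, ∑ j, christoffel g y k i j * u i * v j := by
  simp [chr, mul_assoc, Pi.single_apply]

lemma coord_fderiv_eq_sum (f : E → ℝ) (y u : E) :
    fderiv ℝ f y u = ∑ l, u l * pderiv l f y := by
  have hu : u = ∑ l, u l • (EuclideanSpace.single l (1 : ℝ) : E) := by
    ext k; simp [Pi.single_apply]
  conv_lhs => rw [hu]
  simp [pderiv]

lemma coord_fderiv_apply2 {V : Type} [NormedAddCommGroup V] [NormedSpace ℝ V]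
    {F : E → E →L[ℝ] E →L[ℝ] V} {y : E} (hF : DifferentiableAt ℝ F y) (a u v : E) :
    fderiv ℝ F y a u v = fderiv ℝ (fun z => F z u v) y a := by
  rw [((hF.hasFDerivAt.clm_apply (hasFDerivAt_const u y)).clm_apply (hasFDerivAt_const v y)).fderiv]
  simp

lemma coord_fderiv_quad {f : Fin 3 → Fin 3 → E → ℝ} {y : E}
    (hf : ∀ i j, DifferentiableAt ℝ (f i j) y) (a u v : E) :
    fderiv ℝ (fun z => ∑ i, ∑ j, f i j z * u i * v j) y a =
      ∑ i, ∑ j, (∑ l, a l * pderiv l (f i j) y) * u i * v j := by
  rw [(HasFDerivAt.fun_sum fun i _ => HasFDerivAt.fun_sum fun j _ =>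
    ((hf i j).hasFDerivAt.mul_const (u i)).mul_const (v j)).fderiv]
  simp only [← coord_fderiv_eq_sum]
  simp only [sum_apply, smul_apply, smul_eq_mul]
  refine Finset.sum_congr rfl fun i _ => Finset.sum_congr rfl fun j _ => by ring

lemma coord_smul_const {V : Type} [NormedAddCommGroup V] [NormedSpace ℝ V] {f : E → ℝ} {U : Set E}
    (hf : ContDiffOn ℝ ∞ f U) (A : V) : ContDiffOn ℝ ∞ (fun x => f x • A) U :=
  hf.smul contDiffOn_const

lemma coord_det_smooth {A : E → Matrix (Fin 3) (Fin 3) ℝ} {U : Set E}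
    (h : ∀ i j, ContDiffOn ℝ ∞ (fun x => A x i j) U) : ContDiffOn ℝ ∞ (fun x => (A x).det) U := by
  simp only [Matrix.det_apply']
  exact ContDiffOn.sum fun σ _ => contDiffOn_const.mul (contDiffOn_prod fun i _ => h _ _)

section
variable {g : MetricField 3} {U : Set E} (h : IsRiemannianOn g U)
include h

lemma coord_symm {y : E} (hy : y ∈ U) (i j : Fin 3) : g y i j = g y j i := by
  simpa using ((h.posDef y hy).1.apply i j).symm

lemma coord_inv_smooth (k l : Fin 3) : ContDiffOn ℝ ∞ (fun x => inverseField g x k l) U := by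
  simp only [inverseField, Matrix.inv_def, Ring.inverse_eq_inv', Matrix.smul_apply, smul_eq_mul,
    Matrix.adjugate_apply]
  refine ((coord_det_smooth h.contDiffOn).inv fun x hx => (h.posDef x hx).det_pos.ne').mul
    (coord_det_smooth fun i j => ?_)
  simp only [Matrix.updateRow_apply]
  split_ifs
  · exact contDiffOn_const
  · exact h.contDiffOn _ _

lemma coord_pderiv_smooth (l i j : Fin 3) :
    ContDiffOn ℝ ∞ (fun x => pderiv l (fun y => g y i j) x) U :=
  ((h.contDiffOn i j).fderiv_of_isOpen h.isOpen (by simp)).clm_apply contDiffOn_const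

lemma coord_christoffel_smooth (k i j : Fin 3) :
    ContDiffOn ℝ ∞ (fun x => christoffel g x k i j) U :=
  contDiffOn_const.mul (ContDiffOn.sum fun l _ => (coord_inv_smooth h k l).mul
    (((coord_pderiv_smooth h i j l).add (coord_pderiv_smooth h j i l)).sub
      (coord_pderiv_smooth h l i j)))

lemma coord_bil_smooth : ContDiffOn ℝ ∞ (bil g) U :=
  ContDiffOn.sum fun i _ => ContDiffOn.sum fun j _ => coord_smul_const (h.contDiffOn i j) _

lemma coord_chr_smooth : ContDiffOn ℝ ∞ (chr g) U :=
  ContDiffOn.sum fun k _ => ContDiffOn.sum fun i _ => ContDiffOn.sum fun j _ =>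
    coord_smul_const (coord_christoffel_smooth h k i j) _

lemma coord_diffAt {V : Type} [NormedAddCommGroup V] [NormedSpace ℝ V] {F : E → V}
    (hF : ContDiffOn ℝ ∞ F U) {y : E} (hy : y ∈ U) : DifferentiableAt ℝ F y :=
  (hF.contDiffAt (h.isOpen.mem_nhds hy)).differentiableAt (by simp)

lemma coord_christoffel_symm {y : E} (hy : y ∈ U) (k i j : Fin 3) :
    christoffel g y k i j = christoffel g y k j i := by
  have h1 : fderiv ℝ (fun z => g z i j) y = fderiv ℝ (fun z => g z j i) y :=
    Filter.EventuallyEq.fderiv_eq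
      (Filter.eventually_of_mem (h.isOpen.mem_nhds hy) fun z hz => coord_symm h hz i j)
  simp only [christoffel, pderiv, h1]
  congr 1
  exact Finset.sum_congr rfl fun l _ => by ring

lemma coord_lower {y : E} (hy : y ∈ U) (m i j : Fin 3) :
    ∑ k, g y k m * christoffel g y k i j = (1 / 2) * (pderiv i (fun z => g z j m) y +
      pderiv j (fun z => g z i m) y - pderiv m (fun z => g z i j) y) := by
  have h1 : g y * (g y)⁻¹ = 1 := Matrix.mul_nonsing_inv _ (h.posDef y hy).det_pos.ne'.isUnit
  have h2 : ∀ l, ∑ k, g y k m * inverseField g y k l = if m = l then 1 else 0 := fun l => by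
    have := congrFun (congrFun h1 m) l
    rw [Matrix.mul_apply, Matrix.one_apply] at this
    rw [← this]
    exact Finset.sum_congr rfl fun k _ => by rw [coord_symm h hy k m]; rfl
  have h3 : ∀ T : Fin 3 → ℝ, ∑ k, g y k m * ((1 / 2) * ∑ l, inverseField g y k l * T l) =
      (1 / 2) * T m := fun T => by
    have h4 : ∑ l, (∑ k, g y k m * inverseField g y k l) * T l = T m := by simp [h2]
    rw [← h4]
    simp only [Fin.sum_univ_three]
    ring
  exact h3 _

lemma coord_fderiv_bil {y : E} (hy : y ∈ U) (a u v : E) :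
    fderiv ℝ (bil g) y a u v =
      ∑ i, ∑ j, (∑ l, a l * pderiv l (fun z => g z i j) y) * u i * v j := by
  rw [coord_fderiv_apply2 (coord_diffAt h (coord_bil_smooth h) hy)]
  simp only [bil_apply]
  exact coord_fderiv_quad (fun i j => coord_diffAt h (h.contDiffOn i j) hy) a u v

lemma coord_fderiv_chr {y : E} (hy : y ∈ U) (a u v : E) (k : Fin 3) :
    fderiv ℝ (chr g) y a u v k =
      ∑ i, ∑ j, (∑ l, a l * pderiv l (fun z => christoffel g z k i j) y) * u i * v j := by
  have hd := coord_diffAt h (coord_chr_smooth h) hy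
  have h1 : DifferentiableAt ℝ (fun z => chr g z u v) y :=
    (hd.clm_apply (differentiableAt_const u)).clm_apply (differentiableAt_const v)
  have h2 := ((EuclideanSpace.proj k : E →L[ℝ] ℝ).hasFDerivAt.comp y h1.hasFDerivAt).fderiv
  rw [coord_fderiv_apply2 hd,
    ← coord_fderiv_quad (fun i j => coord_diffAt h (coord_christoffel_smooth h k i j) hy) a u v]
  simp only [← chr_apply]
  exact (DFunLike.congr_fun h2 a).symm

end

/-- Recipe: entries of the inverse matrix are smooth (`Matrix.inv_def`, adjugate and determinant are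
polynomial in the entries, `det ≠ 0`); `fderiv (bil g) y u v w = ∑ i j, fderiv (g · i j) y u * v i * w j`
and `fderiv f y u = ∑ l, u l * pderiv l f y`; `g * g⁻¹ = 1` gives `compat`. -/
theorem lm_of_riem {g : MetricField 3} {U : Set E} (h : IsRiemannianOn g U) :
    LM U (bil g) (chr g) := by
  refine ⟨h.isOpen, coord_bil_smooth h, coord_chr_smooth h, fun y hy u v => ?_,
    fun y hy u hu => ?_, fun y hy u v => ?_, fun y hy u v w => ?_⟩
  · rw [bil_apply, bil_apply, Finset.sum_comm]
    exact Finset.sum_congr rfl fun i _ => Finset.sum_congr rfl fun j _ => by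
      rw [coord_symm h hy j i]; ring
  · have h1 := (h.posDef y hy).dotProduct_mulVec_pos (x := u.ofLp) (by simpa using hu)
    rw [bil_apply]
    refine h1.trans_eq ?_
    simp only [dotProduct, Matrix.mulVec, star_trivial, Fin.sum_univ_three]
    ring
  · ext k
    rw [chr_apply, chr_apply, Finset.sum_comm]
    exact Finset.sum_congr rfl fun i _ => Finset.sum_congr rfl fun j _ => by
      rw [coord_christoffel_symm h hy k j i]; ring
  · have h1 : ∑ m, ∑ i, ∑ j, (∑ k, g y k m * christoffel g y k i j) * (u i * v j * w m) =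
        ∑ m, ∑ i, ∑ j, (1 / 2) * (pderiv i (fun z => g z j m) y + pderiv j (fun z => g z i m) y -
          pderiv m (fun z => g z i j) y) * (u i * v j * w m) := by
      simp only [coord_lower h hy]
    simp only [coord_fderiv_bil h hy, bil_apply, chr_apply, Fin.sum_univ_three] at h1 ⊢
    linear_combination 2 * h1

theorem geodesicEqAt_iff (g : MetricField 3) (c : ℝ → E) (t : ℝ) :
    GeodesicEqAt g c t ↔ deriv (deriv c) t = -chr g (c t) (deriv c t) (deriv c t) := by
  simp only [GeodesicEqAt, ← chr_apply, add_eq_zero_iff_eq_neg]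
  exact ⟨fun h => by ext k; exact h k, fun h k => by rw [h]; rfl⟩

theorem Rm_apply {g : MetricField 3} {U : Set E} (h : IsRiemannianOn g U) {y : E} (hy : y ∈ U)
    (u v w : E) (l : Fin 3) :
    Rm (chr g) y u v w l = ∑ k, ∑ i, ∑ j, riemann g y l k i j * w k * u i * v j := by
  simp only [Rm, PiLp.add_apply, PiLp.sub_apply, coord_fderiv_chr h hy, chr_apply, riemann,
    Fin.sum_univ_three]
  ring

theorem secNumer_eq {g : MetricField 3} {U : Set E} (h : IsRiemannianOn g U) {y : E} (hy : y ∈ U)
    (u v : E) : secNumer g y u v = bil g y (Rm (chr g) y u v v) u := by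
  simp only [secNumer, bil_apply, Rm_apply h hy]

theorem covDeriv_eq (g : MetricField 3) (c V : ℝ → E) : covDeriv g c V = cov (chr g) c V := by
  funext t
  ext k
  simp only [covDeriv, cov, PiLp.add_apply, chr_apply]

lemma coord_hasDerivAt_deriv {c : ℝ → E} {t : ℝ} (h : ContDiffAt ℝ 2 c t) :
    HasDerivAt (deriv c) (deriv (deriv c) t) t :=
  (((h.fderiv_right (m := 1) (by norm_num)).clm_apply
    (contDiffAt_const (c := (1 : ℝ)))).differentiableAt one_ne_zero).hasDerivAt

/-- Recipe: `deriv (cov c J) = J'' + DΓ(c')(c',J) + Γ(c'',J) + Γ(c',J')`; insert the geodesic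
equation; use the symmetry of `Γ` and of `fderiv Γ y a` (differentiate `Γ_symm` on the open `U`). -/
theorem jacAt_of_jacobiEqAt {g : MetricField 3} {U : Set E} (h : IsRiemannianOn g U)
    {c J : ℝ → E} {t : ℝ} (hc : c t ∈ U) (hg : GeoAt (chr g) c t) (hJ : ContDiffAt ℝ 2 J t)
    (hj : JacobiEqAt g c J t) : JacAt (chr g) c J t := by
  refine ⟨hJ, ?_⟩
  have hlm := lm_of_riem h
  have hd := coord_diffAt h (coord_chr_smooth h) hc
  have hc1 : HasDerivAt c (deriv c t) t := (hg.1.differentiableAt two_ne_zero).hasDerivAt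
  have hJ1 : HasDerivAt J (deriv J t) t := (hJ.differentiableAt two_ne_zero).hasDerivAt
  have h1 : HasDerivAt (fun s => chr g (c s)) (fderiv ℝ (chr g) (c t) (deriv c t)) t :=
    hd.hasFDerivAt.comp_hasDerivAt t hc1
  have h2 : deriv (cov (chr g) c J) t = deriv (deriv J) t +
      ((fderiv ℝ (chr g) (c t) (deriv c t) (deriv c t) + chr g (c t) (deriv (deriv c) t)) (J t) +
        chr g (c t) (deriv c t) (deriv J t)) :=
    ((coord_hasDerivAt_deriv hJ).add
      ((h1.clm_apply (coord_hasDerivAt_deriv hg.1)).clm_apply hJ1)).deriv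
  have h3 : cov (chr g) c (cov (chr g) c J) t +
      Rm (chr g) (c t) (J t) (deriv c t) (deriv c t) = 0 := by
    ext l
    have := hj l
    rw [covDeriv_eq, covDeriv_eq, ← Rm_apply h hc] at this
    exact this
  have h4 : ∀ a u v, fderiv ℝ (chr g) (c t) a u v = fderiv ℝ (chr g) (c t) a v u := fun a u v => by
    rw [coord_fderiv_apply2 hd, coord_fderiv_apply2 hd, Filter.EventuallyEq.fderiv_eq
      (Filter.eventually_of_mem (h.isOpen.mem_nhds hc) fun z hz => hlm.Γ_symm z hz u v)]
  rw [cov, h2, cov, Rm, hg.2, add_apply, map_neg, neg_apply,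
    map_add, h4 (deriv c t) (J t), hlm.Γ_symm _ hc (J t) (deriv c t),
    hlm.Γ_symm _ hc (J t) (chr g (c t) (deriv c t) (deriv c t))] at h3
  rw [two_smul, ← sub_eq_zero, ← h3]
  abel

end Crest.Agent.R244
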