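import Crest.Agent.R244.Defs

/-! # R244: lattices, holes and the relation of the model -/

open scoped ContDiff Topology Manifold
open Set Filter
open Crest.GeometryTopology.CoordMetric

noncomputable section

namespace Crest.Agent.R244

set_option linter.unusedSectionVars false
set_option linter.unusedVariables false

section
variable {Λ T s : ℝ} {z z' l : E}

theorem Data0_cd (i : Fin 3) : ContDiff ℝ ∞ (fun z : E => z i) :=
  (EuclideanSpace.proj i : E →L[ℝ] ℝ).contDiff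

theorem Data0_cont (i : Fin 3) : Continuous (fun z : E => z i) := (Data0_cd i).continuous

theorem Data0_small (i : Fin 3) {a : ℝ} (ha : 0 < a) : ∀ᶠ z in 𝓝 (0 : E), |z i| < a := by
  have h : ContinuousAt (fun z : E => |z i|) 0 := (Data0_cont i).abs.continuousAt
  exact h.eventually (gt_mem_nhds (by simpa using ha))

theorem Data0_ext {z : E} (h0 : z 0 = 0) (h1 : z 1 = 0) (h2 : z 2 = 0) : z = 0 := by
  ext i
  fin_cases i
  · exact h0
  · exact h1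
  · exact h2

theorem Data0_cases (i : Fin 3) : i = 0 ∨ i = 1 ∨ i = 2 := by
  revert i; decide

theorem Lat.of_eq (h : Lat Λ T z) (e : z' = z) : Lat Λ T z' := e ▸ h

theorem Lat.zero : Lat Λ T 0 := by
  exact ⟨0, 0, 0, by simp, by simp, by simp⟩

theorem Lat.add (h : Lat Λ T z) (h' : Lat Λ T z') : Lat Λ T (z + z') := by
  obtain ⟨n, m, k, h0, h1, h2⟩ := h
  obtain ⟨n', m', k', h0', h1', h2'⟩ := h'
  refine ⟨n + n', m + m', k + k', ?_, ?_, ?_⟩ <;>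
    simp only [PiLp.add_apply, h0, h1, h2, h0', h1', h2', Int.cast_add] <;> ring

theorem Lat.neg (h : Lat Λ T z) : Lat Λ T (-z) := by
  obtain ⟨n, m, k, h0, h1, h2⟩ := h
  refine ⟨-n, -m, -k, ?_, ?_, ?_⟩ <;>
    simp only [PiLp.neg_apply, h0, h1, h2, Int.cast_neg] <;> ring

theorem Lat.sub (h : Lat Λ T z) (h' : Lat Λ T z') : Lat Λ T (z - z') := by
  rw [sub_eq_add_neg]; exact h.add h'.neg

/-- `{t | ∃ n : ℤ, t = a * n}` is closed and discrete (`Int.isClosedEmbedding_coe_real`) -/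
theorem isClosed_multiples {a : ℝ} (ha : 0 < a) : IsClosed {t : ℝ | ∃ n : ℤ, t = a * n} := by
  have : {t : ℝ | ∃ n : ℤ, t = a * n} = (fun t => t / a) ⁻¹' range ((↑) : ℤ → ℝ) := by
    ext t
    simp only [mem_ofPred_eq, mem_preimage, mem_range]
    refine exists_congr fun n => ?_
    rw [eq_div_iff ha.ne', mul_comm, eq_comm]
  rw [this]
  exact Int.isClosedEmbedding_coe_real.isClosed_range.preimage (continuous_id.div_const a)

theorem eq_zero_of_multiple {a t : ℝ} (ha : 0 < a) {n : ℤ} (h : t = a * n) (ht : |t| < a) :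
    t = 0 := by
  rw [h, abs_mul, abs_of_pos ha, mul_lt_iff_lt_one_right ha] at ht
  have h1 : |n| < 1 := by exact_mod_cast ht
  rw [h, Int.abs_lt_one_iff.1 h1]; simp

theorem isClosed_lat (hΛ : 0 < Λ) (hT : 0 < T) : IsClosed {z : E | Lat Λ T z} := by
  have : {z : E | Lat Λ T z} = (fun z : E => z 0) ⁻¹' {t : ℝ | ∃ n : ℤ, t = Λ * n} ∩
      ((fun z : E => z 1) ⁻¹' {t : ℝ | ∃ n : ℤ, t = Λ * n} ∩
        (fun z : E => z 2) ⁻¹' {t : ℝ | ∃ n : ℤ, t = T * n}) := by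
    ext z
    constructor
    · rintro ⟨n, m, k, h0, h1, h2⟩
      exact ⟨⟨n, h0⟩, ⟨m, h1⟩, ⟨k, h2⟩⟩
    · rintro ⟨⟨n, h0⟩, ⟨m, h1⟩, ⟨k, h2⟩⟩
      exact ⟨n, m, k, h0, h1, h2⟩
  rw [this]
  exact ((isClosed_multiples hΛ).preimage (Data0_cont 0)).inter
    (((isClosed_multiples hΛ).preimage (Data0_cont 1)).inter
      ((isClosed_multiples hT).preimage (Data0_cont 2)))

theorem Lat.eventually_eq_zero (hΛ : 0 < Λ) (hT : 0 < T) :
    ∀ᶠ z in 𝓝 (0 : E), Lat Λ T z → z = 0 := by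
  filter_upwards [Data0_small 0 hΛ, Data0_small 1 hΛ, Data0_small 2 hT] with z a0 a1 a2
  rintro ⟨n, m, k, h0, h1, h2⟩
  exact Data0_ext (eq_zero_of_multiple hΛ h0 a0) (eq_zero_of_multiple hΛ h1 a1)
    (eq_zero_of_multiple hT h2 a2)

theorem Data0_finite (hΛ : 0 < Λ) (x c : ℝ) : {n : ℤ | |x - Λ * n| ≤ c}.Finite := by
  refine (finite_Icc ⌊(x - c) / Λ⌋ ⌈(x + c) / Λ⌉).subset fun n hn => ?_
  obtain ⟨h1, h2⟩ := abs_le.1 (show |x - Λ * n| ≤ c from hn)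
  constructor
  · have : (x - c) / Λ ≤ n := by rw [div_le_iff₀ hΛ]; linarith
    exact_mod_cast (Int.floor_le _).trans this
  · have : (n : ℝ) ≤ (x + c) / Λ := by rw [le_div_iff₀ hΛ]; linarith
    exact_mod_cast this.trans (Int.le_ceil _)

theorem Data0_far {x w a s : ℝ} (h : ¬ |x - a| ≤ |s| + 1) (hw : |w - x| < 1) :
    s ^ 2 < (w - a) ^ 2 := by
  rw [sq_lt_sq]
  have := abs_sub_le x w a
  rw [abs_sub_comm x w] at this
  linarith

/-- near `z` only finitely many `(n,m)` matter (those with `|z 0 - Λ n| ≤ |s| + 1`, same for `m`) -/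
theorem isOpen_holes (hΛ : 0 < Λ) (s : ℝ) : IsOpen (Holes Λ s) := by
  rw [isOpen_iff_mem_nhds]
  intro z hz
  have hfin := (Data0_finite hΛ (z 0) (|s| + 1)).prod (Data0_finite hΛ (z 1) (|s| + 1))
  have h1 := (eventually_all_finite (l := 𝓝 z) hfin
    (p := fun (p : ℤ × ℤ) (w : E) => s ^ 2 < (w 0 - Λ * p.1) ^ 2 + (w 1 - Λ * p.2) ^ 2)).2
    fun p _ => by
      have hc : Continuous fun w : E => (w 0 - Λ * p.1) ^ 2 + (w 1 - Λ * p.2) ^ 2 :=
        (((Data0_cont 0).sub continuous_const).pow 2).add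
          (((Data0_cont 1).sub continuous_const).pow 2)
      exact hc.continuousAt.eventually (lt_mem_nhds (hz p.1 p.2))
  have h2 : ∀ i, ∀ᶠ w in 𝓝 z, |w i - z i| < 1 := fun i => by
    have hc : ContinuousAt (fun w : E => |w i - z i|) z :=
      ((Data0_cont i).sub continuous_const).abs.continuousAt
    exact hc.eventually (gt_mem_nhds (by simp))
  filter_upwards [h1, h2 0, h2 1] with w a b c n m
  by_cases hn : |z 0 - Λ * n| ≤ |s| + 1
  · by_cases hm : |z 1 - Λ * m| ≤ |s| + 1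
    · exact a (n, m) ⟨hn, hm⟩
    · have := Data0_far hm c
      nlinarith [sq_nonneg (w 0 - Λ * n)]
  · have := Data0_far hn b
    nlinarith [sq_nonneg (w 1 - Λ * m)]

theorem Holes.add_lat (hz : z ∈ Holes Λ s) (hl : Lat Λ T l) : z + l ∈ Holes Λ s := by
  obtain ⟨n', m', k', h0, h1, -⟩ := hl
  intro n m
  have := hz (n - n') (m - m')
  simp only [PiLp.add_apply, h0, h1]
  push_cast at this
  convert this using 2 <;> ring

theorem Data0_sq_le {x : ℝ} (h : |x| ≤ Λ / 2) (n : ℤ) : x ^ 2 ≤ (x - Λ * n) ^ 2 := by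
  obtain ⟨h1, h2⟩ := abs_le.1 h
  have hΛ : 0 ≤ Λ := by linarith
  rcases lt_trichotomy n 0 with hn | rfl | hn
  · have : (n : ℝ) ≤ -1 := by exact_mod_cast Int.le_sub_one_of_lt hn
    have h3 : Λ * n ≤ -Λ := by nlinarith
    nlinarith
  · simp
  · have : (1 : ℝ) ≤ n := by exact_mod_cast hn
    have h3 : Λ ≤ Λ * n := by nlinarith
    nlinarith

theorem mem_holes (hs : 0 ≤ s) (hΛ : 2 * s < Λ) (h0 : |z 0| ≤ Λ / 2) (h1 : |z 1| ≤ Λ / 2)
    (h : s ^ 2 < z 0 ^ 2 + z 1 ^ 2) : z ∈ Holes Λ s := by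
  intro n m
  have := Data0_sq_le h0 n
  have := Data0_sq_le h1 m
  linarith

theorem Data0_round (hΛ : 0 < Λ) (x : ℝ) : |x + Λ * ((-round (x / Λ) : ℤ) : ℝ)| ≤ Λ / 2 := by
  have h := abs_sub_round (x / Λ)
  have : x + Λ * ((-round (x / Λ) : ℤ) : ℝ) = Λ * (x / Λ - round (x / Λ)) := by
    push_cast; field_simp; ring
  rw [this, abs_mul, abs_of_pos hΛ]
  nlinarith

/-- `round` / `Int.floor` -/
theorem exists_lat_box (hΛ : 0 < Λ) (hT : 0 < T) (z : E) : ∃ l, Lat Λ T l ∧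
    |(z + l) 0| ≤ Λ / 2 ∧ |(z + l) 1| ≤ Λ / 2 ∧ (z + l) 2 ∈ Icc 0 T := by
  refine ⟨!₂[Λ * ((-round (z 0 / Λ) : ℤ) : ℝ), Λ * ((-round (z 1 / Λ) : ℤ) : ℝ),
    T * ((-⌊z 2 / T⌋ : ℤ) : ℝ)], ⟨_, _, _, rfl, rfl, rfl⟩, Data0_round hΛ _, Data0_round hΛ _, ?_⟩
  change z 2 + T * ((-⌊z 2 / T⌋ : ℤ) : ℝ) ∈ Icc 0 T
  have h1 := Int.floor_le (z 2 / T)
  have h2 := Int.lt_floor_add_one (z 2 / T)
  rw [le_div_iff₀ hT] at h1
  rw [div_lt_iff₀ hT] at h2
  push_cast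
  constructor <;> nlinarith

/-- `Complex.arg` -/
theorem exists_polar (a b : ℝ) : ∃ θ ∈ Icc (-Real.pi) Real.pi,
    a = Real.sqrt (a ^ 2 + b ^ 2) * Real.cos θ ∧ b = Real.sqrt (a ^ 2 + b ^ 2) * Real.sin θ := by
  have hn : ‖(⟨a, b⟩ : ℂ)‖ = Real.sqrt (a ^ 2 + b ^ 2) := Complex.norm_eq_sqrt_sq_add_sq _
  refine ⟨Complex.arg ⟨a, b⟩, Ioc_subset_Icc_self (Complex.arg_mem_Ioc _), ?_, ?_⟩
  · rw [← hn, Complex.norm_mul_cos_arg]
  · rw [← hn, Complex.norm_mul_sin_arg]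

end

namespace Prof

variable (P : Prof)

theorem Λ_pos : 0 < P.Λ := by
  have := P.Λρ; have := P.ρ_pos (-3); linarith

theorem O_zero : P.O 0 = Holes P.Λ (P.ρ (-2)) := rfl
theorem O_one : P.O 1 = {z : E | |z 0| < 3} := rfl
theorem O_two : P.O 2 = Holes P.Λ (P.H 2) := rfl

theorem R00 (z z' : E) : P.R (0, z) (0, z') ↔
    z ∈ P.O 0 ∧ z' ∈ P.O 0 ∧ Lat P.Λ (2 * Real.pi) (z' - z) := Iff.rfl
theorem R01 (z z' : E) : P.R (0, z) (1, z') ↔
    z ∈ P.O 0 ∧ z' ∈ P.O 1 ∧ Lat P.Λ (2 * Real.pi) (z - P.PV z') := Iff.rfl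
theorem R02 (z z' : E) : ¬ P.R (0, z) (2, z') := fun h => h.2.2
theorem R10 (z z' : E) : P.R (1, z) (0, z') ↔
    z ∈ P.O 1 ∧ z' ∈ P.O 0 ∧ Lat P.Λ (2 * Real.pi) (z' - P.PV z) := Iff.rfl
theorem R11 (z z' : E) : P.R (1, z) (1, z') ↔
    z ∈ P.O 1 ∧ z' ∈ P.O 1 ∧ P.LatN (z' - z) := Iff.rfl
theorem R12 (z z' : E) : P.R (1, z) (2, z') ↔
    z ∈ P.O 1 ∧ z' ∈ P.O 2 ∧ Lat P.Λ (2 * Real.pi * P.ε) (z' - P.PW z) := Iff.rfl
theorem R20 (z z' : E) : ¬ P.R (2, z) (0, z') := fun h => h.2.2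
theorem R21 (z z' : E) : P.R (2, z) (1, z') ↔
    z ∈ P.O 2 ∧ z' ∈ P.O 1 ∧ Lat P.Λ (2 * Real.pi * P.ε) (z - P.PW z') := Iff.rfl
theorem R22 (z z' : E) : P.R (2, z) (2, z') ↔
    z ∈ P.O 2 ∧ z' ∈ P.O 2 ∧ Lat P.Λ (2 * Real.pi * P.ε) (z' - z) := Iff.rfl

theorem Data0_T0 : 0 < 2 * Real.pi := by positivity

theorem Data0_T2 : 0 < 2 * Real.pi * P.ε := mul_pos Data0_T0 P.hε

theorem Data0_PV0 (z : E) : P.PV z 0 = P.ρ (z 0) * Real.cos (z 2 / P.ε) := rfl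
theorem Data0_PV1 (z : E) : P.PV z 1 = P.ρ (z 0) * Real.sin (z 2 / P.ε) := rfl
theorem Data0_PV2 (z : E) : P.PV z 2 = z 1 := rfl
theorem Data0_PW0 (z : E) : P.PW z 0 = P.H (z 0) * Real.cos (z 1) := rfl
theorem Data0_PW1 (z : E) : P.PW z 1 = P.H (z 0) * Real.sin (z 1) := rfl
theorem Data0_PW2 (z : E) : P.PW z 2 = z 2 + P.ε * z 1 := rfl

theorem Data0_latN_zero : P.LatN 0 := ⟨rfl, 0, 0, by simp, by simp⟩

theorem Data0_latN_add {z z' w : E} (h : P.LatN z) (h' : P.LatN z') (e : w = z + z') :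
    P.LatN w := by
  subst e
  obtain ⟨h0, m, k, h1, h2⟩ := h
  obtain ⟨h0', m', k', h1', h2'⟩ := h'
  refine ⟨?_, m + m', k + k', ?_, ?_⟩ <;>
    simp only [PiLp.add_apply, h0, h1, h2, h0', h1', h2', Int.cast_add] <;> ring

theorem Data0_latN_neg {z w : E} (h : P.LatN z) (e : w = -z) : P.LatN w := by
  subst e
  obtain ⟨h0, m, k, h1, h2⟩ := h
  refine ⟨?_, -m, -k, ?_, ?_⟩ <;>
    simp only [PiLp.neg_apply, h0, h1, h2, Int.cast_neg] <;> ring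

theorem Data0_polar_sq (r θ : ℝ) : (r * Real.cos θ) ^ 2 + (r * Real.sin θ) ^ 2 = r ^ 2 := by
  nlinarith [Real.cos_sq_add_sin_sq θ]

theorem Data0_abs_cos {r c : ℝ} (hr : 0 < r) (hc : r ≤ c) (θ : ℝ) : |r * Real.cos θ| ≤ c := by
  rw [abs_mul, abs_of_pos hr]
  nlinarith [Real.abs_cos_le_one θ]

theorem Data0_abs_sin {r c : ℝ} (hr : 0 < r) (hc : r ≤ c) (θ : ℝ) : |r * Real.sin θ| ≤ c := by
  rw [abs_mul, abs_of_pos hr]
  nlinarith [Real.abs_sin_le_one θ]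

theorem Data0_rigid {Λ r r' c θ θ' : ℝ} (hr : 0 < r) (hr' : 0 < r') (hc : r ≤ c) (hc' : r' ≤ c)
    (hΛ : 2 * c < Λ) {n m : ℤ} (h0 : r' * Real.cos θ' - r * Real.cos θ = Λ * n)
    (h1 : r' * Real.sin θ' - r * Real.sin θ = Λ * m) :
    r' = r ∧ ∃ k : ℤ, θ' - θ = 2 * Real.pi * k := by
  have hΛ0 : 0 < Λ := by linarith
  have e0 := eq_zero_of_multiple hΛ0 h0 (by
    have := abs_sub (r' * Real.cos θ') (r * Real.cos θ)
    have := Data0_abs_cos hr hc θ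
    have := Data0_abs_cos hr' hc' θ'
    linarith)
  have e1 := eq_zero_of_multiple hΛ0 h1 (by
    have := abs_sub (r' * Real.sin θ') (r * Real.sin θ)
    have := Data0_abs_sin hr hc θ
    have := Data0_abs_sin hr' hc' θ'
    linarith)
  rw [sub_eq_zero] at e0 e1
  have e2 : r' = r := by
    have h2 := Data0_polar_sq r' θ'
    rw [e0, e1, Data0_polar_sq] at h2
    exact ((pow_left_inj₀ hr.le hr'.le two_ne_zero).1 h2).symm
  subst e2
  exact ⟨rfl, Real.Angle.angle_eq_iff_two_pi_dvd_sub.1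
    (Real.Angle.cos_sin_inj (mul_left_cancel₀ hr.ne' e0) (mul_left_cancel₀ hr.ne' e1))⟩

theorem isOpen_O (i : Fin 3) : IsOpen (P.O i) := by
  rcases Data0_cases i with rfl | rfl | rfl
  · exact isOpen_holes P.Λ_pos _
  · exact isOpen_lt (Data0_cont 0).abs continuous_const
  · exact isOpen_holes P.Λ_pos _

theorem PV_smooth : ContDiff ℝ ∞ P.PV := by
  rw [contDiff_euclidean]
  intro i
  rcases Data0_cases i with rfl | rfl | rfl
  · exact (P.ρ_smooth.comp (Data0_cd 0)).mul ((Data0_cd 2).div_const _).cos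
  · exact (P.ρ_smooth.comp (Data0_cd 0)).mul ((Data0_cd 2).div_const _).sin
  · exact Data0_cd 1

theorem PW_smooth : ContDiff ℝ ∞ P.PW := by
  rw [contDiff_euclidean]
  intro i
  rcases Data0_cases i with rfl | rfl | rfl
  · exact (P.H_smooth.comp (Data0_cd 0)).mul (Data0_cd 1).cos
  · exact (P.H_smooth.comp (Data0_cd 0)).mul (Data0_cd 1).sin
  · exact (Data0_cd 2).add (contDiff_const.mul (Data0_cd 1))

theorem isClosed_latN : IsClosed {z : E | P.LatN z} := by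
  have : {z : E | P.LatN z} = {z : E | z 0 = 0} ∩
      ((fun z : E => z 1) ⁻¹' {t : ℝ | ∃ n : ℤ, t = 2 * Real.pi * n} ∩
        (fun z : E => z 2) ⁻¹' {t : ℝ | ∃ n : ℤ, t = 2 * Real.pi * P.ε * n}) := by
    ext z
    constructor
    · rintro ⟨h0, m, k, h1, h2⟩
      exact ⟨h0, ⟨m, h1⟩, ⟨k, h2⟩⟩
    · rintro ⟨h0, ⟨m, h1⟩, ⟨k, h2⟩⟩
      exact ⟨h0, m, k, h1, h2⟩
  rw [this]
  exact (isClosed_eq (Data0_cont 0) continuous_const).inter
    (((isClosed_multiples Data0_T0).preimage (Data0_cont 1)).inter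
      ((isClosed_multiples P.Data0_T2).preimage (Data0_cont 2)))

theorem latN_eventually_eq_zero : ∀ᶠ z in 𝓝 (0 : E), P.LatN z → z = 0 := by
  filter_upwards [Data0_small 1 Data0_T0, Data0_small 2 P.Data0_T2] with z a1 a2
  rintro ⟨h0, m, k, h1, h2⟩
  exact Data0_ext h0 (eq_zero_of_multiple Data0_T0 h1 a1) (eq_zero_of_multiple P.Data0_T2 h2 a2)

/-- `ρ (z 0)² > ρ (-2)²` and `ρ` is antitone and positive -/
theorem lt_of_R10 {z u : E} (h : P.R (1, z) (0, u)) : z 0 < -2 := by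
  obtain ⟨-, hu, hl⟩ := (P.R10 z u).1 h
  have h1 := Holes.add_lat hu hl.neg 0 0
  have h2 : u + -(u - P.PV z) = P.PV z := by abel
  rw [h2, Data0_PV0, Data0_PV1] at h1
  simp only [Int.cast_zero, mul_zero, sub_zero, Data0_polar_sq] at h1
  by_contra hc
  have h3 := P.ρ_anti (not_lt.1 hc)
  have h4 := P.ρ_pos (z 0)
  nlinarith

theorem lt_of_R12 {z w : E} (h : P.R (1, z) (2, w)) : 2 < z 0 := by
  obtain ⟨-, hu, hl⟩ := (P.R12 z w).1 h
  have h1 := Holes.add_lat hu hl.neg 0 0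
  have h2 : w + -(w - P.PW z) = P.PW z := by abel
  rw [h2, Data0_PW0, Data0_PW1] at h1
  simp only [Int.cast_zero, mul_zero, sub_zero, Data0_polar_sq] at h1
  by_contra hc
  have h3 := P.H_mono (not_lt.1 hc)
  have h4 := P.H_pos (z 0)
  nlinarith

/-- `mem_holes`, `ρ (z 0) ≤ ρ (-3) < Λ/2`, `ρ_lin` -/
theorem R_PV {z : E} (h3 : -3 < z 0) (h2 : z 0 < -2) : P.R (1, z) (0, P.PV z) := by
  have hΛ := P.Λρ
  have h4 : P.ρ (z 0) ≤ P.Λ / 2 := by have := P.ρ_anti h3.le; linarith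
  refine (P.R10 _ _).2 ⟨abs_lt.2 ⟨h3, by linarith⟩, ?_, Lat.zero.of_eq (sub_self _)⟩
  refine mem_holes (P.ρ_pos _).le ?_ (Data0_abs_cos (P.ρ_pos _) h4 _)
    (Data0_abs_sin (P.ρ_pos _) h4 _) ?_
  · have := P.ρ_anti (show (-3 : ℝ) ≤ -2 by norm_num); linarith
  · rw [Data0_PV0, Data0_PV1, Data0_polar_sq]
    have h5 := P.ρ_pos (-2)
    have h6 := P.ρ_lin (-2) le_rfl
    have h7 := P.ρ_lin (z 0) h2.le
    nlinarith

theorem R_PW {z : E} (h2 : 2 < z 0) (h3 : z 0 < 3) : P.R (1, z) (2, P.PW z) := by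
  have hΛ := P.ΛH
  have h4 : P.H (z 0) ≤ P.Λ / 2 := by have := P.H_mono h3.le; linarith
  refine (P.R12 _ _).2 ⟨abs_lt.2 ⟨by linarith, h3⟩, ?_, Lat.zero.of_eq (sub_self _)⟩
  refine mem_holes (P.H_pos _).le ?_ (Data0_abs_cos (P.H_pos _) h4 _)
    (Data0_abs_sin (P.H_pos _) h4 _) ?_
  · have := P.H_mono (show (2 : ℝ) ≤ 3 by norm_num); linarith
  · rw [Data0_PW0, Data0_PW1, Data0_polar_sq]
    have h5 := P.H_pos 2
    have h6 := P.H_lin 2 le_rfl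
    have h7 := P.H_lin (z 0) h2.le
    nlinarith

theorem lat_PV_of_latN {z z' : E} (h : P.LatN (z' - z)) :
    Lat P.Λ (2 * Real.pi) (P.PV z' - P.PV z) := by
  obtain ⟨h0, m, k, h1, h2⟩ := h
  simp only [PiLp.sub_apply] at h0 h1 h2
  have e0 : z' 0 = z 0 := by linarith
  have e2 : z' 2 / P.ε = z 2 / P.ε + k * (2 * Real.pi) := by
    have := P.hε.ne'
    field_simp; linarith
  refine ⟨0, 0, m, ?_, ?_, ?_⟩
  · rw [PiLp.sub_apply, Data0_PV0, Data0_PV0, e0, e2, Real.cos_add_int_mul_two_pi]; simp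
  · rw [PiLp.sub_apply, Data0_PV1, Data0_PV1, e0, e2, Real.sin_add_int_mul_two_pi]; simp
  · rw [PiLp.sub_apply, Data0_PV2, Data0_PV2, h1]

theorem lat_PW_of_latN {z z' : E} (h : P.LatN (z' - z)) :
    Lat P.Λ (2 * Real.pi * P.ε) (P.PW z' - P.PW z) := by
  obtain ⟨h0, m, k, h1, h2⟩ := h
  simp only [PiLp.sub_apply] at h0 h1 h2
  have e0 : z' 0 = z 0 := by linarith
  have e1 : z' 1 = z 1 + m * (2 * Real.pi) := by linarith
  refine ⟨0, 0, k + m, ?_, ?_, ?_⟩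
  · rw [PiLp.sub_apply, Data0_PW0, Data0_PW0, e0, e1, Real.cos_add_int_mul_two_pi]; simp
  · rw [PiLp.sub_apply, Data0_PW1, Data0_PW1, e0, e1, Real.sin_add_int_mul_two_pi]; simp
  · rw [PiLp.sub_apply, Data0_PW2, Data0_PW2, e1]
    push_cast
    linear_combination h2

/-- Rigidity: the planar parts have coordinates `< Λ/2` in absolute value, so they are equal; equal
radii (sum of squares), `ρ_lin`; equal `cos` and `sin` give angles differing by `2πk`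
(`Real.cos_eq_one_iff` for the difference, or `Real.Angle.cos_sin_inj`). -/
theorem latN_of_lat_PV {z z' : E} (hz : z 0 ∈ Ioo (-3 : ℝ) (-2)) (hz' : z' 0 ∈ Ioo (-3 : ℝ) (-2))
    (h : Lat P.Λ (2 * Real.pi) (P.PV z' - P.PV z)) : P.LatN (z' - z) := by
  obtain ⟨n, m, k, h0, h1, h2⟩ := h
  rw [PiLp.sub_apply, Data0_PV0, Data0_PV0] at h0
  rw [PiLp.sub_apply, Data0_PV1, Data0_PV1] at h1
  rw [PiLp.sub_apply, Data0_PV2, Data0_PV2] at h2
  obtain ⟨e, j, hj⟩ := Data0_rigid (P.ρ_pos _) (P.ρ_pos _) (P.ρ_anti hz.1.le) (P.ρ_anti hz'.1.le)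
    P.Λρ h0 h1
  rw [P.ρ_lin _ hz.2.le, P.ρ_lin _ hz'.2.le] at e
  refine ⟨by rw [PiLp.sub_apply]; linarith, k, j, h2, ?_⟩
  rw [PiLp.sub_apply]
  have := P.hε.ne'
  field_simp at hj
  linarith

theorem latN_of_lat_PW {z z' : E} (hz : z 0 ∈ Ioo (2 : ℝ) 3) (hz' : z' 0 ∈ Ioo (2 : ℝ) 3)
    (h : Lat P.Λ (2 * Real.pi * P.ε) (P.PW z' - P.PW z)) : P.LatN (z' - z) := by
  obtain ⟨n, m, k, h0, h1, h2⟩ := h
  rw [PiLp.sub_apply, Data0_PW0, Data0_PW0] at h0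
  rw [PiLp.sub_apply, Data0_PW1, Data0_PW1] at h1
  rw [PiLp.sub_apply, Data0_PW2, Data0_PW2] at h2
  obtain ⟨e, j, hj⟩ := Data0_rigid (P.H_pos _) (P.H_pos _) (P.H_mono hz.2.le) (P.H_mono hz'.2.le)
    P.ΛH h0 h1
  rw [P.H_lin _ hz.1.le, P.H_lin _ hz'.1.le] at e
  refine ⟨by rw [PiLp.sub_apply]; linarith, j, k - j, hj, ?_⟩
  rw [PiLp.sub_apply]
  push_cast
  linear_combination h2 - P.ε * hj

theorem R_refl (d : Fin 3 × E) (h : d.2 ∈ P.O d.1) : P.R d d := by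
  obtain ⟨i, z⟩ := d
  rcases Data0_cases i with rfl | rfl | rfl
  · exact (P.R00 _ _).2 ⟨h, h, Lat.zero.of_eq (sub_self _)⟩
  · exact (P.R11 _ _).2 ⟨h, h, by rw [sub_self]; exact P.Data0_latN_zero⟩
  · exact (P.R22 _ _).2 ⟨h, h, Lat.zero.of_eq (sub_self _)⟩

theorem R_symm (d d' : Fin 3 × E) (h : P.R d d') : P.R d' d := by
  obtain ⟨i, z⟩ := d
  obtain ⟨j, z'⟩ := d'
  refine ⟨h.2.1, h.1, ?_⟩
  rcases Data0_cases i with rfl | rfl | rfl <;> rcases Data0_cases j with rfl | rfl | rfl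
  · exact ((P.R00 _ _).1 h).2.2.neg.of_eq (neg_sub _ _).symm
  · exact h.2.2
  · exact h.2.2
  · exact h.2.2
  · exact P.Data0_latN_neg ((P.R11 _ _).1 h).2.2 (neg_sub _ _).symm
  · exact h.2.2
  · exact h.2.2
  · exact h.2.2
  · exact ((P.R22 _ _).1 h).2.2.neg.of_eq (neg_sub _ _).symm

/-- 27 cases (`fin_cases`), each one line from the lemmas above -/
theorem R_trans (d d' d'' : Fin 3 × E) (h : P.R d d') (h' : P.R d' d'') : P.R d d'' := by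
  obtain ⟨i, z⟩ := d
  obtain ⟨j, z'⟩ := d'
  obtain ⟨k, z''⟩ := d''
  have rV : ∀ {z u : E}, P.R (1, z) (0, u) → z 0 ∈ Ioo (-3 : ℝ) (-2) := fun h =>
    ⟨(abs_lt.1 ((P.R10 _ _).1 h).1).1, P.lt_of_R10 h⟩
  have rW : ∀ {z u : E}, P.R (1, z) (2, u) → z 0 ∈ Ioo (2 : ℝ) 3 := fun h =>
    ⟨P.lt_of_R12 h, (abs_lt.1 ((P.R12 _ _).1 h).1).2⟩
  rcases Data0_cases i with rfl | rfl | rfl <;> rcases Data0_cases j with rfl | rfl | rfl <;>
    rcases Data0_cases k with rfl | rfl | rfl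
  · exact (P.R00 _ _).2 ⟨h.1, h'.2.1,
      (((P.R00 _ _).1 h).2.2.add ((P.R00 _ _).1 h').2.2).of_eq (by abel)⟩
  · exact (P.R01 _ _).2 ⟨h.1, h'.2.1,
      (((P.R01 _ _).1 h').2.2.sub ((P.R00 _ _).1 h).2.2).of_eq (by abel)⟩
  · exact absurd h' (P.R02 _ _)
  · exact (P.R00 _ _).2 ⟨h.1, h'.2.1,
      (((P.R10 _ _).1 h').2.2.sub ((P.R01 _ _).1 h).2.2).of_eq (by abel)⟩
  · exact (P.R01 _ _).2 ⟨h.1, h'.2.1, (((P.R01 _ _).1 h).2.2.sub
      (P.lat_PV_of_latN ((P.R11 _ _).1 h').2.2)).of_eq (by abel)⟩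
  · have := P.lt_of_R10 (P.R_symm _ _ h)
    have := P.lt_of_R12 h'
    linarith
  · exact absurd h (P.R02 _ _)
  · exact absurd h (P.R02 _ _)
  · exact absurd h (P.R02 _ _)
  · exact (P.R10 _ _).2 ⟨h.1, h'.2.1,
      (((P.R10 _ _).1 h).2.2.add ((P.R00 _ _).1 h').2.2).of_eq (by abel)⟩
  · exact (P.R11 _ _).2 ⟨h.1, h'.2.1, P.latN_of_lat_PV (rV h) (rV (P.R_symm _ _ h'))
      ((((P.R10 _ _).1 h).2.2.sub ((P.R01 _ _).1 h').2.2).of_eq (by abel))⟩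
  · exact absurd h' (P.R02 _ _)
  · exact (P.R10 _ _).2 ⟨h.1, h'.2.1, (((P.R10 _ _).1 h').2.2.add
      (P.lat_PV_of_latN ((P.R11 _ _).1 h).2.2)).of_eq (by abel)⟩
  · exact (P.R11 _ _).2 ⟨h.1, h'.2.1,
      P.Data0_latN_add ((P.R11 _ _).1 h).2.2 ((P.R11 _ _).1 h').2.2 (by abel)⟩
  · exact (P.R12 _ _).2 ⟨h.1, h'.2.1, (((P.R12 _ _).1 h').2.2.add
      (P.lat_PW_of_latN ((P.R11 _ _).1 h).2.2)).of_eq (by abel)⟩
  · exact absurd h' (P.R20 _ _)
  · exact (P.R11 _ _).2 ⟨h.1, h'.2.1, P.latN_of_lat_PW (rW h) (rW (P.R_symm _ _ h'))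
      ((((P.R12 _ _).1 h).2.2.sub ((P.R21 _ _).1 h').2.2).of_eq (by abel))⟩
  · exact (P.R12 _ _).2 ⟨h.1, h'.2.1,
      (((P.R12 _ _).1 h).2.2.add ((P.R22 _ _).1 h').2.2).of_eq (by abel)⟩
  · exact absurd h (P.R20 _ _)
  · exact absurd h (P.R20 _ _)
  · exact absurd h (P.R20 _ _)
  · have := P.lt_of_R12 (P.R_symm _ _ h)
    have := P.lt_of_R10 h'
    linarith
  · exact (P.R21 _ _).2 ⟨h.1, h'.2.1, (((P.R21 _ _).1 h).2.2.sub
      (P.lat_PW_of_latN ((P.R11 _ _).1 h').2.2)).of_eq (by abel)⟩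
  · exact (P.R22 _ _).2 ⟨h.1, h'.2.1,
      (((P.R12 _ _).1 h').2.2.sub ((P.R21 _ _).1 h).2.2).of_eq (by abel)⟩
  · exact absurd h' (P.R20 _ _)
  · exact (P.R21 _ _).2 ⟨h.1, h'.2.1,
      (((P.R21 _ _).1 h').2.2.sub ((P.R22 _ _).1 h).2.2).of_eq (by abel)⟩
  · exact (P.R22 _ _).2 ⟨h.1, h'.2.1,
      (((P.R22 _ _).1 h).2.2.add ((P.R22 _ _).1 h').2.2).of_eq (by abel)⟩

theorem R_inj (i : Fin 3) (y : E) :
    ∀ᶠ p : E × E in 𝓝 (y, y), P.R (i, p.1) (i, p.2) → p.1 = p.2 := by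
  have ht : Tendsto (fun p : E × E => p.2 - p.1) (𝓝 (y, y)) (𝓝 0) := by
    have h : Continuous fun p : E × E => p.2 - p.1 := continuous_snd.sub continuous_fst
    simpa using h.tendsto (y, y)
  rcases Data0_cases i with rfl | rfl | rfl
  · filter_upwards [ht.eventually (Lat.eventually_eq_zero P.Λ_pos Data0_T0)] with p hp h
    exact (sub_eq_zero.1 (hp ((P.R00 _ _).1 h).2.2)).symm
  · filter_upwards [ht.eventually P.latN_eventually_eq_zero] with p hp h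
    exact (sub_eq_zero.1 (hp ((P.R11 _ _).1 h).2.2)).symm
  · filter_upwards [ht.eventually (Lat.eventually_eq_zero P.Λ_pos P.Data0_T2)] with p hp h
    exact (sub_eq_zero.1 (hp ((P.R22 _ _).1 h).2.2)).symm

theorem R_sep (d d' : Fin 3 × E) (hd : d.2 ∈ P.O d.1) (hd' : d'.2 ∈ P.O d'.1) (h : ¬ P.R d d') :
    ∀ᶠ p : E × E in 𝓝 (d.2, d'.2), ¬ P.R (d.1, p.1) (d'.1, p.2) := by
  obtain ⟨i, z⟩ := d
  obtain ⟨j, z'⟩ := d'
  have key : IsClosed {p : E × E | P.R0 i j p.1 p.2} := by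
    have cV := P.PV_smooth.continuous
    have cW := P.PW_smooth.continuous
    have l0 := isClosed_lat P.Λ_pos Data0_T0
    have l2 := isClosed_lat P.Λ_pos P.Data0_T2
    rcases Data0_cases i with rfl | rfl | rfl <;> rcases Data0_cases j with rfl | rfl | rfl
    · exact l0.preimage (continuous_snd.sub continuous_fst)
    · exact l0.preimage (continuous_fst.sub (cV.comp continuous_snd))
    · exact isClosed_empty
    · exact l0.preimage (continuous_snd.sub (cV.comp continuous_fst))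
    · exact P.isClosed_latN.preimage (continuous_snd.sub continuous_fst)
    · exact l2.preimage (continuous_snd.sub (cW.comp continuous_fst))
    · exact isClosed_empty
    · exact l2.preimage (continuous_fst.sub (cW.comp continuous_snd))
    · exact l2.preimage (continuous_snd.sub continuous_fst)
  filter_upwards [key.isOpen_compl.mem_nhds (x := (z, z')) fun h0 => h ⟨hd, hd', h0⟩] with p hp h0
  exact hp h0.2.2

end Prof

end Crest.Agent.R244
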