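import Crest.Agent.R244.Data0
import Crest.Agent.R244.Coord

/-! # R244: the gluing maps are orientation preserving isometries -/

open scoped ContDiff Topology Manifold
open Set Filter
open Crest.GeometryTopology.CoordMetric

noncomputable section

namespace Crest.Agent.R244

set_option linter.unusedSectionVars false
set_option linter.unusedVariables false

theorem data1_det (A : E →L[ℝ] E) : LinearMap.det (A : E →ₗ[ℝ] E)
    = Matrix.det (Matrix.of fun i j => A (EuclideanSpace.single j 1) i) := by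
  rw [← LinearMap.det_toMatrix (EuclideanSpace.basisFun (Fin 3) ℝ).toBasis]
  congr 1

theorem data1_proj (k : Fin 3) (w : E) :
    HasFDerivAt (fun z : E => z k) (EuclideanSpace.proj k : E →L[ℝ] ℝ) w :=
  (EuclideanSpace.proj k : E →L[ℝ] ℝ).hasFDerivAt

theorem data1_coord {τ : E → E} {w : E} (hτ : DifferentiableAt ℝ τ w) {k : Fin 3} {L : E →L[ℝ] ℝ}
    (h : HasFDerivAt (fun z => τ z k) L w) (v : E) : fderiv ℝ τ w v k = L v :=
  DFunLike.congr_fun (((data1_proj k (τ w)).comp w hτ.hasFDerivAt).unique h) v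

namespace Prof

variable (P : Prof)

theorem data1_dPV {w : E} (hw : w 0 < -2) (v : E) :
    fderiv ℝ P.PV w v 0 = -v 0 * Real.cos (w 2 / P.ε) - P.ρ (w 0) * Real.sin (w 2 / P.ε) * v 2 / P.ε ∧
    fderiv ℝ P.PV w v 1 = -v 0 * Real.sin (w 2 / P.ε) + P.ρ (w 0) * Real.cos (w 2 / P.ε) * v 2 / P.ε ∧
    fderiv ℝ P.PV w v 2 = v 1 := by
  have hd : DifferentiableAt ℝ P.PV w := P.PV_smooth.differentiable (by simp) w
  have hρ : HasDerivAt P.ρ (-1) (w 0) :=
    ((hasDerivAt_id (w 0)).const_sub P.c1).congr_of_eventuallyEq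
      ((eventually_lt_nhds hw).mono fun r hr => P.ρ_lin r hr.le)
  have h0 := hρ.comp_hasFDerivAt w (data1_proj 0 w)
  have h2 := (hasDerivAt_id (w 2)).div_const P.ε
  have hc := h2.cos.comp_hasFDerivAt w (data1_proj 2 w)
  have hs := h2.sin.comp_hasFDerivAt w (data1_proj 2 w)
  refine ⟨?_, ?_, ?_⟩
  · rw [data1_coord hd (k := 0) (h0.mul hc)]
    simp
    ring
  · rw [data1_coord hd (k := 1) (h0.mul hs)]
    simp
    ring
  · rw [data1_coord hd (k := 2) (data1_proj 1 w)]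
    simp

theorem data1_dPW {w : E} (hw : 2 < w 0) (v : E) :
    fderiv ℝ P.PW w v 0 = v 0 * Real.cos (w 1) - P.H (w 0) * Real.sin (w 1) * v 1 ∧
    fderiv ℝ P.PW w v 1 = v 0 * Real.sin (w 1) + P.H (w 0) * Real.cos (w 1) * v 1 ∧
    fderiv ℝ P.PW w v 2 = v 2 + P.ε * v 1 := by
  have hd : DifferentiableAt ℝ P.PW w := P.PW_smooth.differentiable (by simp) w
  have hH : HasDerivAt P.H 1 (w 0) :=
    ((hasDerivAt_id (w 0)).const_add P.c2).congr_of_eventuallyEq
      ((eventually_gt_nhds hw).mono fun r hr => P.H_lin r hr.le)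
  have h0 := hH.comp_hasFDerivAt w (data1_proj 0 w)
  refine ⟨?_, ?_, ?_⟩
  · rw [data1_coord hd (k := 0) (h0.mul (data1_proj 1 w).cos)]
    simp
    ring
  · rw [data1_coord hd (k := 1) (h0.mul (data1_proj 1 w).sin)]
    simp
    ring
  · rw [data1_coord hd (k := 2) ((data1_proj 2 w).add ((data1_proj 1 w).const_mul P.ε))]
    simp

theorem bil_one (z u w : E) :
    bil (fun _ => (1 : Matrix (Fin 3) (Fin 3) ℝ)) z u w = u 0 * w 0 + u 1 * w 1 + u 2 * w 2 := by
  simp [bil_apply, Fin.sum_univ_three, Matrix.one_apply]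

theorem bil_GN (z u w : E) : bil P.GN z u w = u 0 * w 0
    + (P.β (z 0) * u 1 * w 1 - P.γ (z 0) * (u 1 * w 2 + u 2 * w 1) + P.α (z 0) * u 2 * w 2)
      / P.D (z 0) := by
  simp [bil_apply, GN, Fin.sum_univ_three]
  ring

/-- `Matrix.PosDef.one`; for `GN`: `α (β a² - 2γ a b + α b²) = (α b - γ a)² + D a²` -/
theorem riem_GN : IsRiemannianOn P.GN univ := by
  have h0 : ContDiff ℝ ∞ (fun z : E => z 0) := (EuclideanSpace.proj (0 : Fin 3) : E →L[ℝ] ℝ).contDiff
  have hα := P.α_smooth.comp h0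
  have hβ := P.β_smooth.comp h0
  have hγ := P.γ_smooth.comp h0
  have hD : ContDiff ℝ ∞ (fun z : E => P.D (z 0)) := (hα.mul hβ).sub (hγ.pow 2)
  have hD0 : ∀ z : E, P.D (z 0) ≠ 0 := fun z => (P.D_pos _).ne'
  refine ⟨isOpen_univ, fun i j => ContDiff.contDiffOn ?_, fun z _ => ?_⟩
  · fin_cases i <;> fin_cases j
    · exact contDiff_const
    · exact contDiff_const
    · exact contDiff_const
    · exact contDiff_const
    · exact hβ.div hD hD0
    · exact hγ.neg.div hD hD0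
    · exact contDiff_const
    · exact hγ.neg.div hD hD0
    · exact hα.div hD hD0
  · refine Matrix.PosDef.of_dotProduct_mulVec_pos ?_ fun x hx => ?_
    · ext i j
      fin_cases i <;> fin_cases j <;> simp [GN]
    · have h1 : star x ⬝ᵥ (P.GN z).mulVec x = x 0 ^ 2 + ((P.α (z 0) * x 2 - P.γ (z 0) * x 1) ^ 2
          + P.D (z 0) * x 1 ^ 2) / (P.α (z 0) * P.D (z 0)) := by
        have a1 := (P.α_pos (z 0)).ne'
        have a2 := hD0 z
        simp [GN, dotProduct, Matrix.mulVec, Fin.sum_univ_three]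
        field_simp
        simp only [D]
        ring
      rw [h1]
      have a1 := P.α_pos (z 0)
      have a2 : 0 < P.D (z 0) := P.D_pos _
      by_cases x0 : x 0 = 0
      · by_cases x1 : x 1 = 0
        · have x2 : x 2 ≠ 0 := fun x2 => hx (by ext i; fin_cases i <;> assumption)
          rw [x0, x1, mul_zero, sub_zero]
          positivity
        · positivity
      · positivity

theorem riem (i : Fin 3) : IsRiemannianOn (P.G i) (P.O i) := by
  fin_cases i
  · exact ⟨P.isOpen_O 0, fun i j => contDiffOn_const, fun z _ => Matrix.PosDef.one⟩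
  · exact ⟨P.isOpen_O 1, fun i j => (P.riem_GN.contDiffOn i j).mono (subset_univ _),
      fun z _ => P.riem_GN.posDef z (mem_univ _)⟩
  · exact ⟨P.isOpen_O 2, fun i j => contDiffOn_const, fun z _ => Matrix.PosDef.one⟩

/-- a translation preserving the metric -/
theorem loc_translate {i : Fin 3} {z l : E} (hz : z ∈ P.O i)
    (hG : ∀ w, P.G i (w + l) = P.G i w)
    (hR : ∀ w ∈ P.O i, P.R (i, w) (i, w + l)) : Loc P.G P.R (i, z) (i, z + l) := by
  have hf : ∀ w, fderiv ℝ (fun w : E => w + l) w = ContinuousLinearMap.id ℝ E := fun w => by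
    rw [fderiv_add_const, fderiv_fun_id]
  refine ⟨fun w => w + l, rfl, Eventually.of_forall fun w => ⟨contDiffAt_id.add contDiffAt_const,
    fun u v => ?_⟩, ?_⟩
  · simp only [hf, bil_apply, hG, ContinuousLinearMap.id_apply]
  · filter_upwards [(P.isOpen_O i).mem_nhds hz] with w hw
    refine ⟨hR w hw, ?_⟩
    rw [hf]
    simp

/-- Recipe: `τ w = PV w + l`, `l = u - PV z`.  For `w 0 < -2`: `deriv ρ = -1` (`ρ_lin`, locally),
`D(PV) w v = (-v₀ cos θ - ρ sin θ v₂/ε, -v₀ sin θ + ρ cos θ v₂/ε, v₁)`, `θ = w₂/ε`; `left0` gives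
`GN w = diag(1, 1, ρ²/ε²)`; determinant `ρ/ε` (`LinearMap.det_toMatrix` with
`(EuclideanSpace.basisFun _ ℝ).toBasis`, `Matrix.det_fin_three`). -/
theorem loc10 {z u : E} (h : P.R (1, z) (0, u)) : Loc P.G P.R (1, z) (0, u) := by
  have hz := P.lt_of_R10 h
  obtain ⟨h1, -, h3⟩ := (P.R10 z u).1 h
  have hev : ∀ᶠ w : E in 𝓝 z, w 0 < -2 :=
    (EuclideanSpace.proj (0 : Fin 3) : E →L[ℝ] ℝ).continuous.continuousAt.eventually_lt
      continuousAt_const hz
  have hε := P.hε
  refine ⟨fun w => P.PV w + (u - P.PV z), by simp, ?_, ?_⟩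
  · filter_upwards [hev] with w hw
    refine ⟨P.PV_smooth.contDiffAt.add contDiffAt_const, fun a b => ?_⟩
    obtain ⟨e1, e2, e3⟩ := P.left0 (w 0) (by linarith [P.hδδ, P.hδ2])
    obtain ⟨a0, a1, a2⟩ := P.data1_dPV hw a
    obtain ⟨b0, b1, b2⟩ := P.data1_dPV hw b
    have hρ := (P.ρ_pos (w 0)).ne'
    show bil P.GN w a b = bil (fun _ => 1) _ _ _
    rw [bil_GN, bil_one, fderiv_add_const, a0, a1, a2, b0, b1, b2, D, e1, e2, e3]
    have hs := Real.sin_sq_add_cos_sq (w 2 / P.ε)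
    generalize Real.sin (w 2 / P.ε) = S at hs ⊢
    generalize Real.cos (w 2 / P.ε) = C at hs ⊢
    field_simp
    linear_combination P.ε ^ 2 * (-(a 0 * b 0 * P.ε ^ 2) - P.ρ (w 0) ^ 2 * a 2 * b 2) * hs
  · filter_upwards [hev, (P.isOpen_O 1).mem_nhds h1] with w hw hw'
    have hw3 : -3 < w 0 := (abs_lt.1 hw').1
    refine ⟨(P.R10 _ _).2 ⟨hw', Holes.add_lat ((P.R10 _ _).1 (P.R_PV hw3 hw)).2.1 h3,
      by simpa using h3⟩, ?_⟩
    rw [fderiv_add_const, data1_det, Matrix.det_fin_three]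
    simp only [Matrix.of_apply, (P.data1_dPV hw _).1, (P.data1_dPV hw _).2.1,
      (P.data1_dPV hw _).2.2]
    have hs := Real.sin_sq_add_cos_sq (w 2 / P.ε)
    have hp : 0 < P.ρ (w 0) / P.ε := div_pos (P.ρ_pos _) hε
    refine hp.trans_eq ?_
    simp
    linear_combination (-(P.ρ (w 0) / P.ε)) * hs

/-- `D(PW) w v = (v₀ cos x - H sin x v₁, v₀ sin x + H cos x v₁, v₂ + ε v₁)`; `right0` gives `D = α`,
`β/D = H² + ε²`, `-γ/D = ε`, `α/D = 1`; determinant `H`. -/
theorem loc12 {z w : E} (h : P.R (1, z) (2, w)) : Loc P.G P.R (1, z) (2, w) := by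
  have hz := P.lt_of_R12 h
  obtain ⟨h1, -, h3⟩ := (P.R12 z w).1 h
  have hev : ∀ᶠ y : E in 𝓝 z, 2 < y 0 :=
    continuousAt_const.eventually_lt
      (EuclideanSpace.proj (0 : Fin 3) : E →L[ℝ] ℝ).continuous.continuousAt hz
  refine ⟨fun y => P.PW y + (w - P.PW z), by simp, ?_, ?_⟩
  · filter_upwards [hev] with y hy
    refine ⟨P.PW_smooth.contDiffAt.add contDiffAt_const, fun a b => ?_⟩
    obtain ⟨e1, e2, e3⟩ := P.right0 (y 0) (by linarith [P.hδδ, P.hδ2])
    obtain ⟨a0, a1, a2⟩ := P.data1_dPW hy a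
    obtain ⟨b0, b1, b2⟩ := P.data1_dPW hy b
    have hH := (P.H_pos (y 0)).ne'
    have hD : P.D (y 0) = P.α (y 0) := by
      rw [D, e2, e3]
      ring
    show bil P.GN y a b = bil (fun _ => 1) _ _ _
    rw [bil_GN, bil_one, fderiv_add_const, a0, a1, a2, b0, b1, b2, hD, e2, e3, e1]
    have hs := Real.sin_sq_add_cos_sq (y 1)
    generalize Real.sin (y 1) = S at hs ⊢
    generalize Real.cos (y 1) = C at hs ⊢
    field_simp
    linear_combination (-(a 0 * b 0) - P.H (y 0) ^ 2 * a 1 * b 1) * hs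
  · filter_upwards [hev, (P.isOpen_O 1).mem_nhds h1] with y hy hy'
    have hy3 : y 0 < 3 := (abs_lt.1 hy').2
    refine ⟨(P.R12 _ _).2 ⟨hy', Holes.add_lat ((P.R12 _ _).1 (P.R_PW hy hy3)).2.1 h3,
      by simpa using h3⟩, ?_⟩
    rw [fderiv_add_const, data1_det, Matrix.det_fin_three]
    simp only [Matrix.of_apply, (P.data1_dPW hy _).1, (P.data1_dPW hy _).2.1,
      (P.data1_dPW hy _).2.2]
    have hs := Real.sin_sq_add_cos_sq (y 1)
    refine (P.H_pos (y 0)).trans_eq ?_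
    simp
    linear_combination (-P.H (y 0)) * hs

theorem R_loc (d d' : Fin 3 × E) (h : P.R d d') : Loc P.G P.R d d' ∨ Loc P.G P.R d' d := by
  obtain ⟨i, z⟩ := d
  obtain ⟨j, z'⟩ := d'
  have e : z' = z + (z' - z) := by simp
  fin_cases i <;> fin_cases j
  · obtain ⟨h1, -, h3⟩ := (P.R00 z z').1 h
    left
    rw [e]
    exact P.loc_translate (i := 0) h1 (fun _ => rfl) fun w hw =>
      (P.R00 _ _).2 ⟨hw, Holes.add_lat hw h3, by simpa using h3⟩
  · exact Or.inr (P.loc10 (P.R_symm _ _ h))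
  · exact absurd h (P.R02 z z')
  · exact Or.inl (P.loc10 h)
  · obtain ⟨h1, -, h3⟩ := (P.R11 z z').1 h
    left
    rw [e]
    have h0 : ∀ w : E, (w + (z' - z)) 0 = w 0 := fun w => by rw [PiLp.add_apply, h3.1, add_zero]
    refine P.loc_translate (i := 1) h1 (fun w => ?_) fun w hw =>
      (P.R11 _ _).2 ⟨hw, ?_, by simpa using h3⟩
    · show P.GN _ = P.GN _
      simp only [GN, h0]
    · show |(w + (z' - z)) 0| < 3
      rw [h0]
      exact hw
  · exact Or.inl (P.loc12 h)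
  · exact absurd h (P.R20 z z')
  · exact Or.inr (P.loc12 (P.R_symm _ _ h))
  · obtain ⟨h1, -, h3⟩ := (P.R22 z z').1 h
    left
    rw [e]
    exact P.loc_translate (i := 2) h1 (fun _ => rfl) fun w hw =>
      (P.R22 _ _).2 ⟨hw, Holes.add_lat hw h3, by simpa using h3⟩

end Prof

end Crest.Agent.R244
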