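import Crest.Agent.R244.Data1

/-! # R244: compactness and connectedness of the model -/

open scoped ContDiff Topology Manifold
open Set Filter
open Crest.GeometryTopology.CoordMetric

noncomputable section

namespace Crest.Agent.R244

set_option linter.unusedSectionVars false
set_option linter.unusedVariables false

theorem data2_cpt {S : Set E} (hS : IsClosed S) (C : ℝ) (h : ∀ u ∈ S, ∀ i, |u i| ≤ C) :
    IsCompact S := by
  refine Metric.isCompact_of_isClosed_isBounded hS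
    (isBounded_iff_forall_norm_le.2 ⟨Real.sqrt (3 * C ^ 2), fun u hu => ?_⟩)
  rw [EuclideanSpace.norm_eq, Fin.sum_univ_three]
  refine Real.sqrt_le_sqrt ?_
  have h1 : ∀ i, ‖u i‖ ^ 2 ≤ C ^ 2 := fun i => pow_le_pow_left₀ (norm_nonneg _) (h u hu i) 2
  linarith [h1 0, h1 1, h1 2]

/-- the compact part of a block -/
def data2K (Λ T s : ℝ) : Set E :=
  {u | |u 0| ≤ Λ / 2 ∧ |u 1| ≤ Λ / 2 ∧ (0 ≤ u 2 ∧ u 2 ≤ T) ∧ s ^ 2 ≤ u 0 ^ 2 + u 1 ^ 2}

theorem data2_isCompact (Λ T s : ℝ) : IsCompact (data2K Λ T s) := by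
  refine data2_cpt ?_ (max (Λ / 2) T) fun u hu i => ?_
  · unfold data2K
    refine IsClosed.and ?_ (IsClosed.and ?_ (IsClosed.and (IsClosed.and ?_ ?_) ?_)) <;>
      exact isClosed_le (by fun_prop) (by fun_prop)
  · fin_cases i
    · exact le_max_of_le_left hu.1
    · exact le_max_of_le_left hu.2.1
    · exact le_max_of_le_right ((abs_of_nonneg hu.2.2.1.1).trans_le hu.2.2.1.2)

theorem data2_subset {Λ T s s' : ℝ} (hs : 0 ≤ s) (hΛ : 2 * s < Λ) (h : s < s') :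
    data2K Λ T s' ⊆ Holes Λ s := fun u hu =>
  mem_holes hs hΛ hu.1 hu.2.1 (lt_of_lt_of_le (by nlinarith) hu.2.2.2)

theorem data2_lt_sqrt {Λ s : ℝ} {y : E} (hs : 0 ≤ s) (h : y ∈ Holes Λ s) :
    s < Real.sqrt (y 0 ^ 2 + y 1 ^ 2) := by
  have := h 0 0
  simp only [Int.cast_zero, mul_zero, sub_zero] at this
  exact Real.lt_sqrt_of_sq_lt this

theorem data2_radial {Λ s s' : ℝ} (hs : 0 ≤ s) (hΛ : 2 * s < Λ) (h : s < s') {y : E}
    (hy : y ∈ Holes Λ s) (h0 : |y 0| ≤ Λ / 2) (h1 : |y 1| ≤ Λ / 2) :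
    ∃ y', JoinedIn (Holes Λ s) y y' ∧ Real.sqrt (y' 0 ^ 2 + y' 1 ^ 2) ≤ s' := by
  set r := Real.sqrt (y 0 ^ 2 + y 1 ^ 2) with hr
  rcases le_total r s' with hle | hle
  · exact ⟨y, JoinedIn.refl hy, hle⟩
  have hs' : 0 < s' := by linarith
  have hr0 : 0 < r := by linarith
  have hr2 : r ^ 2 = y 0 ^ 2 + y 1 ^ 2 := Real.sq_sqrt (by positivity)
  set κ := s' / r with hκ
  have hκ0 : 0 < κ := by positivity
  have hκ1 : κ ≤ 1 := (div_le_one hr0).2 hle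
  have hκr : κ * r = s' := div_mul_cancel₀ _ hr0.ne'
  refine ⟨κ • y, JoinedIn.of_segment_subset ?_, ?_⟩
  · rintro p ⟨a, b, ha, hb, hab, rfl⟩
    have e : a • y + b • κ • y = (a + b * κ) • y := by rw [add_smul, mul_smul]
    have l0 : κ ≤ a + b * κ := by nlinarith
    have l1 : a + b * κ ≤ 1 := by nlinarith
    rw [e]
    generalize a + b * κ = l at l0 l1
    have l2 : 0 < l := by linarith
    refine mem_holes hs hΛ ?_ ?_ ?_
    · rw [PiLp.smul_apply, smul_eq_mul, abs_mul, abs_of_pos l2]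
      exact (mul_le_of_le_one_left (abs_nonneg _) l1).trans h0
    · rw [PiLp.smul_apply, smul_eq_mul, abs_mul, abs_of_pos l2]
      exact (mul_le_of_le_one_left (abs_nonneg _) l1).trans h1
    · simp only [PiLp.smul_apply, smul_eq_mul]
      have h2 : s < l * r := by nlinarith
      have h3 : (l * y 0) ^ 2 + (l * y 1) ^ 2 = (l * r) ^ 2 := by
        rw [mul_pow, mul_pow, mul_pow, hr2]; ring
      rw [h3]
      nlinarith
  · simp only [PiLp.smul_apply, smul_eq_mul]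
    have h3 : (κ * y 0) ^ 2 + (κ * y 1) ^ 2 = s' ^ 2 := by
      rw [← hκr, mul_pow, mul_pow, mul_pow, hr2]; ring
    rw [h3, Real.sqrt_sq hs'.le]

theorem data2_mod {T : ℝ} (hT : 0 < T) (t : ℝ) : ∃ n : ℤ, 0 ≤ t + T * n ∧ t + T * n ≤ T := by
  refine ⟨-⌊t / T⌋, ?_, ?_⟩
  · have := (le_div_iff₀ hT).1 (Int.floor_le (t / T))
    push_cast; linarith
  · have := (div_lt_iff₀ hT).1 (Int.lt_floor_add_one (t / T))
    push_cast; linarith

namespace Prof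

variable (P : Prof)

theorem data2_ρ : P.ρ (-2) = P.c1 + 2 ∧ P.ρ (-5 / 2) = P.c1 + 5 / 2 ∧ P.ρ (-3) = P.c1 + 3 :=
  ⟨by rw [P.ρ_lin _ le_rfl]; ring, by rw [P.ρ_lin _ (by norm_num)]; ring,
    by rw [P.ρ_lin _ (by norm_num)]; ring⟩

theorem data2_H : P.H 2 = P.c2 + 2 ∧ P.H (5 / 2) = P.c2 + 5 / 2 ∧ P.H 3 = P.c2 + 3 :=
  ⟨P.H_lin _ le_rfl, P.H_lin _ (by norm_num), P.H_lin _ (by norm_num)⟩

theorem data2_V {y : E} (hy : y ∈ P.O 0) (h : Real.sqrt (y 0 ^ 2 + y 1 ^ 2) ≤ P.ρ (-5 / 2)) :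
    ∃ z, |z 0| ≤ 5 / 2 ∧ P.R (0, y) (1, z) := by
  obtain ⟨e1, e2, e3⟩ := P.data2_ρ
  have h1 := data2_lt_sqrt (P.ρ_pos _).le hy
  obtain ⟨θ, -, ha, hb⟩ := exists_polar (y 0) (y 1)
  set r := Real.sqrt (y 0 ^ 2 + y 1 ^ 2) with hr
  have hρ : P.ρ (P.c1 - r) = r := by rw [P.ρ_lin _ (by linarith)]; ring
  have hθ : P.ε * θ / P.ε = θ := mul_div_cancel_left₀ _ P.hε.ne'
  have e : P.PV !₂[P.c1 - r, y 2, P.ε * θ] = y := by
    ext i
    fin_cases i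
    · simpa [PV, hρ, hθ] using ha.symm
    · simpa [PV, hρ, hθ] using hb.symm
    · simp [PV]
  refine ⟨!₂[P.c1 - r, y 2, P.ε * θ], ?_, ?_⟩
  · change |P.c1 - r| ≤ 5 / 2
    rw [abs_le]; constructor <;> linarith
  · have := P.R_PV (z := !₂[P.c1 - r, y 2, P.ε * θ]) (by change -3 < P.c1 - r; linarith)
      (by change P.c1 - r < -2; linarith)
    rw [e] at this
    exact P.R_symm _ _ this

theorem data2_W {y : E} (hy : y ∈ P.O 2) (h : Real.sqrt (y 0 ^ 2 + y 1 ^ 2) ≤ P.H (5 / 2)) :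
    ∃ z, |z 0| ≤ 5 / 2 ∧ P.R (2, y) (1, z) := by
  obtain ⟨e1, e2, e3⟩ := P.data2_H
  have h1 := data2_lt_sqrt (P.H_pos _).le hy
  obtain ⟨θ, -, ha, hb⟩ := exists_polar (y 0) (y 1)
  set r := Real.sqrt (y 0 ^ 2 + y 1 ^ 2) with hr
  have hρ : P.H (r - P.c2) = r := by rw [P.H_lin _ (by linarith)]; ring
  have e : P.PW !₂[r - P.c2, θ, y 2 - P.ε * θ] = y := by
    ext i
    fin_cases i
    · simpa [PW, hρ] using ha.symm
    · simpa [PW, hρ] using hb.symm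
    · simp [PW]
  refine ⟨!₂[r - P.c2, θ, y 2 - P.ε * θ], ?_, ?_⟩
  · change |r - P.c2| ≤ 5 / 2
    rw [abs_le]; constructor <;> linarith
  · have := P.R_PW (z := !₂[r - P.c2, θ, y 2 - P.ε * θ]) (by change 2 < r - P.c2; linarith)
      (by change r - P.c2 < 3; linarith)
    rw [e] at this
    exact P.R_symm _ _ this

theorem data2_box0 {u : E} (hu : u ∈ P.O 0) : ∃ y, P.R (0, u) (0, y) ∧ |y 0| ≤ P.Λ / 2 ∧
    |y 1| ≤ P.Λ / 2 ∧ y 2 ∈ Icc 0 (2 * Real.pi) := by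
  obtain ⟨l, hl, h⟩ := exists_lat_box P.Λ_pos Real.two_pi_pos u
  exact ⟨u + l, (P.R00 _ _).2 ⟨hu, Holes.add_lat hu hl, by simpa using hl⟩, h⟩

theorem data2_box2 {u : E} (hu : u ∈ P.O 2) : ∃ y, P.R (2, u) (2, y) ∧ |y 0| ≤ P.Λ / 2 ∧
    |y 1| ≤ P.Λ / 2 ∧ y 2 ∈ Icc 0 (2 * Real.pi * P.ε) := by
  obtain ⟨l, hl, h⟩ := exists_lat_box P.Λ_pos (mul_pos Real.two_pi_pos P.hε) u
  exact ⟨u + l, (P.R22 _ _).2 ⟨hu, Holes.add_lat hu hl, by simpa using hl⟩, h⟩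

/-- the compact part of the neck -/
def data2N : Set E := {z | |z 0| ≤ 5 / 2 ∧ (0 ≤ z 1 ∧ z 1 ≤ 2 * Real.pi) ∧
  (0 ≤ z 2 ∧ z 2 ≤ 2 * Real.pi * P.ε)}

theorem data2_isCompactN : IsCompact P.data2N := by
  refine data2_cpt ?_ (max (5 / 2) (max (2 * Real.pi) (2 * Real.pi * P.ε))) fun u hu i => ?_
  · unfold data2N
    refine IsClosed.and ?_ (IsClosed.and (IsClosed.and ?_ ?_) (IsClosed.and ?_ ?_)) <;>
      exact isClosed_le (by fun_prop) (by fun_prop)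
  · fin_cases i
    · exact le_max_of_le_left hu.1
    · exact le_max_of_le_right (le_max_of_le_left ((abs_of_nonneg hu.2.1.1).trans_le hu.2.1.2))
    · exact le_max_of_le_right (le_max_of_le_right ((abs_of_nonneg hu.2.2.1).trans_le hu.2.2.2))

theorem data2_box1 {z : E} (hz : |z 0| ≤ 5 / 2) : ∃ y ∈ P.data2N, P.R (1, z) (1, y) := by
  obtain ⟨m, hm⟩ := data2_mod Real.two_pi_pos (z 1)
  obtain ⟨k, hk⟩ := data2_mod (mul_pos Real.two_pi_pos P.hε) (z 2)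
  refine ⟨!₂[z 0, z 1 + 2 * Real.pi * m, z 2 + 2 * Real.pi * P.ε * k], ⟨hz, hm, hk⟩,
    (P.R11 _ _).2 ⟨?_, ?_, by simp, m, k, by simp, by simp⟩⟩
  · change |z 0| < 3
    linarith
  · change |z 0| < 3
    linarith

/-- Recipe: `K 0 = {u | |u 0|, |u 1| ≤ Λ/2, u 2 ∈ [0,2π], ρ(-5/2)² ≤ u₀² + u₁²}`,
`K 1 = [-5/2,5/2] × [-2π,2π]... ` (any box containing the points below), `K 2` like `K 0`
(closed and bounded: `Metric.isCompact_of_isClosed_isBounded`; `mem_holes`).  For `(0,u)`: translate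
by `exists_lat_box`; if the radius `s` is `< ρ(-5/2)` (and `> ρ(-2)`), then `u + l = PV z` with
`z = (c1 - s, u₂, ε θ)` (`exists_polar`, `ρ_lin`).  For `(1,z)` with `|z 0| ≤ 5/2` translate by `LatN`;
with `z 0 < -5/2` use `R_PV`: `PV z` lies in the square, translate only the third coordinate.
For the second block `w + l = PW z`, `z = (s - c2, θ, w₂ - ε θ)`. -/
theorem R_cpt : ∃ K : Fin 3 → Set E, (∀ i, IsCompact (K i) ∧ K i ⊆ P.O i) ∧
    ∀ d : Fin 3 × E, d.2 ∈ P.O d.1 → ∃ i, ∃ y ∈ K i, P.R d (i, y) := by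
  obtain ⟨e1, e2, e3⟩ := P.data2_ρ
  obtain ⟨f1, f2, f3⟩ := P.data2_H
  have hΛ1 := P.Λρ
  have hΛ2 := P.ΛH
  set K : Fin 3 → Set E := ![data2K P.Λ (2 * Real.pi) (P.ρ (-5 / 2)), P.data2N,
    data2K P.Λ (2 * Real.pi * P.ε) (P.H (5 / 2))] with hK
  have tr : ∀ {d d'}, P.R d d' → (∃ i, ∃ y ∈ K i, P.R d' (i, y)) → ∃ i, ∃ y ∈ K i, P.R d (i, y) :=
    fun h ⟨i, y, hy, h'⟩ => ⟨i, y, hy, P.R_trans _ _ _ h h'⟩
  have c1 : ∀ z : E, |z 0| ≤ 5 / 2 → ∃ i, ∃ y ∈ K i, P.R (1, z) (i, y) := fun z hz =>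
    ⟨1, P.data2_box1 hz⟩
  have c0 : ∀ u ∈ P.O 0, ∃ i, ∃ y ∈ K i, P.R (0, u) (i, y) := fun u hu => by
    obtain ⟨y, hR, h0, h1, h2⟩ := P.data2_box0 hu
    rcases le_total (Real.sqrt (y 0 ^ 2 + y 1 ^ 2)) (P.ρ (-5 / 2)) with h | h
    · obtain ⟨z, hz, hR'⟩ := P.data2_V hR.2.1 h
      exact tr hR (tr hR' (c1 z hz))
    · exact ⟨0, y, ⟨h0, h1, h2, (Real.le_sqrt (P.ρ_pos _).le (by positivity)).1 h⟩, hR⟩
  have c2 : ∀ u ∈ P.O 2, ∃ i, ∃ y ∈ K i, P.R (2, u) (i, y) := fun u hu => by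
    obtain ⟨y, hR, h0, h1, h2⟩ := P.data2_box2 hu
    rcases le_total (Real.sqrt (y 0 ^ 2 + y 1 ^ 2)) (P.H (5 / 2)) with h | h
    · obtain ⟨z, hz, hR'⟩ := P.data2_W hR.2.1 h
      exact tr hR (tr hR' (c1 z hz))
    · exact ⟨2, y, ⟨h0, h1, h2, (Real.le_sqrt (P.H_pos _).le (by positivity)).1 h⟩, hR⟩
  refine ⟨K, fun i => ?_, ?_⟩
  · fin_cases i
    · exact ⟨data2_isCompact _ _ _, data2_subset (P.ρ_pos _).le (by linarith) (by linarith)⟩
    · exact ⟨P.data2_isCompactN, fun z hz => lt_of_le_of_lt hz.1 (by norm_num)⟩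
    · exact ⟨data2_isCompact _ _ _, data2_subset (P.H_pos _).le (by linarith) (by linarith)⟩
  · rintro ⟨i, z⟩ hz
    fin_cases i
    · exact c0 z hz
    · have hz' : |z 0| < 3 := hz
      obtain ⟨h1, h2⟩ := abs_lt.1 hz'
      rcases lt_or_ge (z 0) (-2) with h | h
      · have hR := P.R_PV h1 h
        exact tr hR (c0 _ hR.2.1)
      rcases lt_or_ge 2 (z 0) with h' | h'
      · have hR := P.R_PW h' h2
        exact tr hR (c2 _ hR.2.1)
      exact c1 z (abs_le.2 ⟨by linarith, by linarith⟩)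
    · exact c2 z hz

/-- convex (`Convex.isConnected`/`isPathConnected`) -/
theorem conn1 : IsConnected (P.O 1) := by
  have h : Convex ℝ (P.O 1) := by
    have e : P.O 1 = (EuclideanSpace.proj (0 : Fin 3) : E →L[ℝ] ℝ) ⁻¹' Ioo (-3) 3 := by
      ext z; simp [O_one, abs_lt]
    rw [e]
    exact (convex_Ioo _ _).linear_preimage (EuclideanSpace.proj (0 : Fin 3) : E →L[ℝ] ℝ).toLinearMap
  exact ⟨⟨0, by simp [O_one]⟩, h.isPreconnected⟩

/-- translate into the square, then move radially to radius `ρ(-5/2)` (resp. `H(5/2)`);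
`JoinedIn.of_segment_subset` or an explicit path; `mem_holes`. -/
theorem R_conn (d : Fin 3 × E) (hd : d.2 ∈ P.O d.1) :
    ∃ i y y' z, P.R d (i, y) ∧ JoinedIn (P.O i) y y' ∧ P.R (i, y') (1, z) := by
  obtain ⟨e1, e2, e3⟩ := P.data2_ρ
  obtain ⟨f1, f2, f3⟩ := P.data2_H
  have hΛ1 := P.Λρ
  have hΛ2 := P.ΛH
  obtain ⟨i, u⟩ := d
  fin_cases i
  · obtain ⟨y, hR, h0, h1, -⟩ := P.data2_box0 hd
    obtain ⟨y', hJ, h⟩ := data2_radial (s' := P.ρ (-5 / 2)) (P.ρ_pos (-2)).le (by linarith)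
      (by linarith) hR.2.1 h0 h1
    obtain ⟨z, -, hz⟩ := P.data2_V hJ.target_mem h
    exact ⟨0, y, y', z, hR, hJ, hz⟩
  · exact ⟨1, u, u, u, P.R_refl _ hd, JoinedIn.refl hd, P.R_refl _ hd⟩
  · obtain ⟨y, hR, h0, h1, -⟩ := P.data2_box2 hd
    obtain ⟨y', hJ, h⟩ := data2_radial (s' := P.H (5 / 2)) (P.H_pos 2).le (by linarith)
      (by linarith) hR.2.1 h0 h1
    obtain ⟨z, -, hz⟩ := P.data2_W hJ.target_mem h
    exact ⟨2, y, y', z, hR, hJ, hz⟩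

theorem etale : Etale P.O P.G P.R where
  riem := P.riem
  dom d d' h := ⟨h.1, h.2.1⟩
  refl := P.R_refl
  symm := P.R_symm
  trans := P.R_trans
  loc := P.R_loc
  inj i y _ := P.R_inj i y
  sep := P.R_sep
  cpt := P.R_cpt
  conn1 := P.conn1
  conn := P.R_conn

end Prof

end Crest.Agent.R244
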