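import Crest.Agent.R244.Data0

/-! # R244: deck transformations of the model -/

open scoped ContDiff Topology Manifold
open Set Filter
open Crest.GeometryTopology.CoordMetric

noncomputable section

namespace Crest.Agent.R244

set_option linter.unusedSectionVars false
set_option linter.unusedVariables false

section
variable {M : Type} [TopologicalSpace M] {e : E → M}

/-- `IsCoveringMap.eq_of_comp_eq` -/
theorem Deck.ext (he : IsCoveringMap e) {D D' : Equiv.Perm E} (h : Deck e D) (h' : Deck e D')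
    {a : E} (ha : D a = D' a) : D = D' := by
  have key : (D : E → E) = D' :=
    he.eq_of_comp_eq h.1 h'.1 (funext fun x => by simp only [Function.comp, h.2, h'.2]) a ha
  exact Equiv.ext fun x => congrFun key x

/-- lifting of maps from a real topological vector space -/
theorem deck_lift (he : IsCoveringMap e) {A : Type} [NormedAddCommGroup A] [NormedSpace ℝ A]
    {f : A → M} (hf : Continuous f) (a₀ : A) (e₀ : E) (h : e e₀ = f a₀) :
    ∃ N : A → E, Continuous N ∧ N a₀ = e₀ ∧ ∀ a, e (N a) = f a := by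
  obtain ⟨N, ⟨h0, hN⟩, -⟩ := he.existsUnique_continuousMap_lifts (⟨f, hf⟩ : C(A, M)) a₀ e₀ h
  exact ⟨N, N.continuous, h0, fun a => congrFun hN a⟩

/-- `IsCoveringMap.existsUnique_continuousMap_lifts` (twice; `E` is contractible) -/
theorem exists_deck (he : IsCoveringMap e) {a b : E} (h : e a = e b) :
    ∃ D : Equiv.Perm E, Deck e D ∧ D a = b := by
  obtain ⟨N, hN, h0, hNe⟩ := deck_lift he he.continuous a b h.symm
  obtain ⟨N', hN', h0', hNe'⟩ := deck_lift he he.continuous b a h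
  have h1 : N' ∘ N = id :=
    he.eq_of_comp_eq (hN'.comp hN) continuous_id
      (funext fun x => by simp only [Function.comp, hNe, hNe', id]) a
      (by simp only [Function.comp, h0, h0', id])
  have h2 : N ∘ N' = id :=
    he.eq_of_comp_eq (hN.comp hN') continuous_id
      (funext fun x => by simp only [Function.comp, hNe, hNe', id]) b
      (by simp only [Function.comp, h0, h0', id])
  exact ⟨⟨N, N', fun x => congrFun h1 x, fun x => congrFun h2 x⟩, ⟨hN, hNe⟩, h0⟩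

theorem Deck.one : Deck e 1 :=
  ⟨continuous_id, fun _ => rfl⟩

theorem Deck.mul {D D' : Equiv.Perm E} (h : Deck e D) (h' : Deck e D') : Deck e (D * D') :=
  ⟨h.1.comp h'.1, fun a => by rw [Equiv.Perm.mul_apply, h.2, h'.2]⟩

theorem Deck.inv (he : IsCoveringMap e) {D : Equiv.Perm E} (h : Deck e D) : Deck e D⁻¹ := by
  obtain ⟨D', hD', h0⟩ := exists_deck he (h.2 0)
  have h1 : D' * D = 1 := Deck.ext he (hD'.mul h) Deck.one (a := 0) (by simpa using h0)
  have h2 : D⁻¹ = D' := inv_eq_of_mul_eq_one_left h1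
  rw [h2]; exact hD'

/-- two lifts of the same map on a preconnected set differ by one deck transformation -/
theorem exists_deck_on (he : IsCoveringMap e) {Y : Type} [TopologicalSpace Y] {S : Set Y}
    (hS : IsPreconnected S) {f f' : Y → E} (hf : ContinuousOn f S) (hf' : ContinuousOn f' S)
    (h : ∀ y ∈ S, e (f y) = e (f' y)) : ∃ D : Equiv.Perm E, Deck e D ∧ ∀ y ∈ S, f' y = D (f y) := by
  rcases S.eq_empty_or_nonempty with rfl | ⟨y₀, hy₀⟩
  · exact ⟨1, Deck.one, fun y hy => hy.elim⟩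
  obtain ⟨D, hD, h0⟩ := exists_deck he (h y₀ hy₀)
  refine ⟨D, hD, ?_⟩
  exact he.eqOn_of_comp_eqOn hS hf' (hD.1.comp_continuousOn hf)
    (fun y hy => by simp only [Function.comp, hD.2, h y hy]) hy₀ h0.symm

theorem deck_inv_apply (D : Equiv.Perm E) (a : E) : D⁻¹ (D a) = a :=
  D.symm_apply_apply a

/-- the sup norm of the unit vector at angle `θ` -/
def deckMx (θ : ℝ) : ℝ := max |Real.cos θ| |Real.sin θ|

theorem deckMx_cont : Continuous deckMx := by
  unfold deckMx; fun_prop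

theorem deckMx_pos (θ : ℝ) : 0 < deckMx θ := by
  unfold deckMx
  by_contra hc
  push Not at hc
  have h1 : |Real.cos θ| ≤ 0 := (le_max_left _ _).trans hc
  have h2 : |Real.sin θ| ≤ 0 := (le_max_right _ _).trans hc
  have h3 := Real.cos_sq_add_sin_sq θ
  rw [abs_nonpos_iff] at h1 h2
  rw [h1, h2] at h3
  norm_num at h3

theorem deckMx_le (θ : ℝ) : deckMx θ ≤ 1 :=
  max_le (Real.abs_cos_le_one θ) (Real.abs_sin_le_one θ)

theorem deckMx_add (θ : ℝ) : deckMx (θ + 2 * Real.pi) = deckMx θ := by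
  simp [deckMx]

theorem deckMx_pi_sub (θ : ℝ) : deckMx (Real.pi - θ) = deckMx θ := by
  simp [deckMx]

theorem deckMx_two_pi_sub (θ : ℝ) : deckMx (2 * Real.pi - θ) = deckMx θ := by
  simp [deckMx]

theorem deckMx_eq_cos {θ : ℝ} (h : θ ∈ Icc (-(Real.pi / 4)) (Real.pi / 4)) :
    deckMx θ = Real.cos θ := by
  have hpi := Real.pi_pos
  have hc : 0 ≤ Real.cos θ := Real.cos_nonneg_of_mem_Icc ⟨by linarith [h.1], by linarith [h.2]⟩
  have h2 : 0 ≤ Real.cos (2 * θ) :=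
    Real.cos_nonneg_of_mem_Icc ⟨by linarith [h.1], by linarith [h.2]⟩
  rw [Real.cos_two_mul'] at h2
  have h3 : |Real.sin θ| ≤ Real.cos θ := by
    apply abs_le_of_sq_le_sq' _ hc |> fun h => abs_le.2 h
    linarith
  unfold deckMx
  rw [abs_of_nonneg hc, max_eq_left h3]

theorem deckMx_eq_sin {θ : ℝ} (h : θ ∈ Icc (Real.pi / 4) (3 * Real.pi / 4)) :
    deckMx θ = Real.sin θ := by
  have h1 := deckMx_eq_cos (θ := Real.pi / 2 - θ) ⟨by linarith [h.2], by linarith [h.1]⟩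
  rw [Real.cos_pi_div_two_sub] at h1
  rw [← h1]
  unfold deckMx
  rw [Real.cos_pi_div_two_sub, Real.sin_pi_div_two_sub, max_comm]

/-- clamp to `[0,1]` -/
def deckCl (l : ℝ) : ℝ := max 0 (min 1 l)

theorem deckCl_cont : Continuous deckCl := by
  unfold deckCl; fun_prop

theorem deckCl_mem (l : ℝ) : 0 ≤ deckCl l ∧ deckCl l ≤ 1 :=
  ⟨le_max_left _ _, max_le zero_le_one (min_le_left _ _)⟩

/-- the radius interpolating between the circle and the square -/
def deckRad (Λ s1 θ l : ℝ) : ℝ := (1 - deckCl l) * s1 + deckCl l * (Λ / 2 / deckMx θ)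

/-- the point of the annulus between the circle and the square -/
def deckPt (Λ s1 : ℝ) (x : ℝ × ℝ × ℝ) : E :=
  !₂[deckRad Λ s1 x.1 x.2.1 * Real.cos x.1, deckRad Λ s1 x.1 x.2.1 * Real.sin x.1, x.2.2]

theorem deckPt_cont (Λ s1 : ℝ) : Continuous (deckPt Λ s1) := by
  have hR : Continuous fun x : ℝ × ℝ × ℝ => deckRad Λ s1 x.1 x.2.1 := by
    unfold deckRad
    have h1 : Continuous fun x : ℝ × ℝ × ℝ => deckCl x.2.1 := deckCl_cont.comp (by fun_prop)
    have h2 : Continuous fun x : ℝ × ℝ × ℝ => Λ / 2 / deckMx x.1 :=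
      continuous_const.div (deckMx_cont.comp continuous_fst) fun x => (deckMx_pos _).ne'
    fun_prop
  unfold deckPt
  refine (PiLp.continuous_toLp 2 _).comp (continuous_pi fun i => ?_)
  fin_cases i
  · exact hR.mul (by fun_prop)
  · exact hR.mul (by fun_prop)
  · exact continuous_snd.comp continuous_snd

theorem deckPt_mem {Λ s s1 : ℝ} (hs : 0 ≤ s) (hs1 : s < s1) (hΛ : 2 * s1 ≤ Λ) (x : ℝ × ℝ × ℝ) :
    deckPt Λ s1 x ∈ Holes Λ s := by
  obtain ⟨θ, l, z⟩ := x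
  have hm := deckMx_pos θ
  have hm1 := deckMx_le θ
  obtain ⟨hl0, hl1⟩ := deckCl_mem l
  have hΛ0 : 0 ≤ Λ / 2 := by linarith
  have hR : s1 ≤ Λ / 2 / deckMx θ := by
    rw [le_div_iff₀ hm]; nlinarith
  have h1 : s1 ≤ deckRad Λ s1 θ l := by unfold deckRad; nlinarith
  have h2 : deckRad Λ s1 θ l ≤ Λ / 2 / deckMx θ := by unfold deckRad; nlinarith
  have h3 : deckRad Λ s1 θ l * deckMx θ ≤ Λ / 2 := by rwa [← le_div_iff₀ hm]
  have h0 : 0 ≤ deckRad Λ s1 θ l := by linarith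
  refine mem_holes hs (by linarith) ?_ ?_ ?_
  · show |deckRad Λ s1 θ l * Real.cos θ| ≤ Λ / 2
    rw [abs_mul, abs_of_nonneg h0]
    exact (mul_le_mul_of_nonneg_left (le_max_left _ _) h0).trans h3
  · show |deckRad Λ s1 θ l * Real.sin θ| ≤ Λ / 2
    rw [abs_mul, abs_of_nonneg h0]
    exact (mul_le_mul_of_nonneg_left (le_max_right _ _) h0).trans h3
  · show s ^ 2 < (deckRad Λ s1 θ l * Real.cos θ) ^ 2 + (deckRad Λ s1 θ l * Real.sin θ) ^ 2
    have h4 : (deckRad Λ s1 θ l * Real.cos θ) ^ 2 + (deckRad Λ s1 θ l * Real.sin θ) ^ 2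
        = deckRad Λ s1 θ l ^ 2 := by
      have := Real.cos_sq_add_sin_sq θ
      linear_combination (deckRad Λ s1 θ l) ^ 2 * this
    rw [h4]; nlinarith

theorem deckPt_zero (Λ s1 θ z : ℝ) :
    deckPt Λ s1 (θ, 0, z) = !₂[s1 * Real.cos θ, s1 * Real.sin θ, z] := by
  simp [deckPt, deckRad, deckCl]

theorem deckPt_one (Λ s1 θ z : ℝ) :
    deckPt Λ s1 (θ, 1, z)
      = !₂[Λ / 2 / deckMx θ * Real.cos θ, Λ / 2 / deckMx θ * Real.sin θ, z] := by
  simp [deckPt, deckRad, deckCl]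

theorem deckPt_add (Λ s1 θ l z : ℝ) :
    deckPt Λ s1 (θ + 2 * Real.pi, l, z) = deckPt Λ s1 (θ, l, z) := by
  simp [deckPt, deckRad, deckMx_add]

theorem deck_lat {Λ T a b c a' b' c' : ℝ} (n m k : ℤ) (h0 : a' - a = Λ * n) (h1 : b' - b = Λ * m)
    (h2 : c' - c = T * k) : Lat Λ T ((!₂[a', b', c'] : E) - !₂[a, b, c]) :=
  ⟨n, m, k, by simpa using h0, by simpa using h1, by simpa using h2⟩

/-- A punctured torus times a line.  Recipe: `Rθ = (Λ/2) / max |cos θ| |sin θ|` (continuous,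
`2π`-periodic, `≥ Λ/2`), `f (θ, λ, z) = p (ρ cos θ, ρ sin θ, z)` with `ρ = (1-λ') s1 + λ' Rθ`, `λ'` the
clamp of `λ` to `[0,1]` (`mem_holes`).  Lift `f` on `ℝ × ℝ × ℝ` to `N` with `N (0,0,0) = n (0,0)`; by
uniqueness of lifts `N (θ,0,z) = n (θ,z)`, `N (θ,λ,z+T) = F (N ..)`, `N (θ+2π,λ,z) = Bd (N ..)`.
`S (θ,z) = N (θ,1,z)`.  `exists_deck_on`: `S (π-θ, z) = A (S (θ,z))` for `θ ∈ [-π/4, π/4]` (the points
differ by `(-Λ,0,0)`), `S (2π-θ, z) = B (S (θ,z))` for `θ ∈ [π/4, 3π/4]` (differ by `(0,-Λ,0)`).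
Commutation with `F`: evaluate at one point, `Deck.ext`.  With `c k = S (π/4 + kπ/2, 0)`:
`A c₀ = c₁`, `A c₋₁ = c₂`, `B c₀ = c₃`, `B c₁ = c₂`, `Bd c₋₁ = c₃`.  `ℓ t = S (π/4, T t)`. -/
theorem deck_piece (he : IsCoveringMap e) {Λ s s1 T : ℝ} (hs : 0 ≤ s) (hs1 : s < s1)
    (hΛ : 2 * s1 ≤ Λ) {p : E → M} (hp : ContinuousOn p (Holes Λ s))
    (hinv : ∀ z ∈ Holes Λ s, ∀ z' ∈ Holes Λ s, Lat Λ T (z' - z) → p z = p z')
    {n : ℝ × ℝ → E} (hn : Continuous n)
    (hne : ∀ θ z, e (n (θ, z)) = p !₂[s1 * Real.cos θ, s1 * Real.sin θ, z])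
    {F Bd : Equiv.Perm E} (hF : Deck e F) (hBd : Deck e Bd)
    (hnF : ∀ θ z, n (θ, z + T) = F (n (θ, z)))
    (hnB : ∀ θ z, n (θ + 2 * Real.pi, z) = Bd (n (θ, z))) :
    ∃ A B : Equiv.Perm E, Deck e A ∧ Deck e B ∧ A * F = F * A ∧ B * F = F * B ∧
      Bd = B * A⁻¹ * B⁻¹ * A ∧
      ∃ ℓ : ℝ → E, Continuous ℓ ∧ (∀ t, e (ℓ t) = p !₂[Λ / 2, Λ / 2, T * t]) ∧ ℓ 1 = F (ℓ 0) := by
  have hpi := Real.pi_pos
  have hmem := deckPt_mem hs hs1 hΛ
  have hf : Continuous fun x => p (deckPt Λ s1 x) :=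
    hp.comp_continuous (deckPt_cont Λ s1) hmem
  obtain ⟨N, hN, hN0, hNe⟩ := deck_lift he hf (0, 0, 0) (n (0, 0)) (by rw [hne, deckPt_zero])
  -- the lift restricts to `n` on the circle
  have hNn : ∀ θ z, N (θ, 0, z) = n (θ, z) := by
    have key : (fun x : ℝ × ℝ => N (x.1, 0, x.2)) = n :=
      he.eq_of_comp_eq (by fun_prop) hn
        (funext fun x => by
          obtain ⟨θ, z⟩ := x
          simp only [Function.comp, hNe, hne, deckPt_zero]) (0, 0) hN0
    exact fun θ z => congrFun key (θ, z)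
  -- translation along the fibre
  have hNF : ∀ θ l z, N (θ, l, z + T) = F (N (θ, l, z)) := by
    have key : (fun x : ℝ × ℝ × ℝ => N (x.1, x.2.1, x.2.2 + T)) = fun x => F (N x) :=
      he.eq_of_comp_eq (by fun_prop) (hF.1.comp hN)
        (funext fun x => by
          obtain ⟨θ, l, z⟩ := x
          simp only [Function.comp, hNe, hF.2]
          refine (hinv _ (hmem _) _ (hmem _) ?_).symm
          exact deck_lat 0 0 1 (by simp) (by simp) (by simp)) (0, 0, 0)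
        (by simp only [hNn, hnF])
    exact fun θ l z => congrFun key (θ, l, z)
  -- going once around the hole
  have hNB : ∀ θ l z, N (θ + 2 * Real.pi, l, z) = Bd (N (θ, l, z)) := by
    have key : (fun x : ℝ × ℝ × ℝ => N (x.1 + 2 * Real.pi, x.2.1, x.2.2)) = fun x => Bd (N x) :=
      he.eq_of_comp_eq (by fun_prop) (hBd.1.comp hN)
        (funext fun x => by
          obtain ⟨θ, l, z⟩ := x
          simp only [Function.comp, hNe, hBd.2, deckPt_add]) (0, 0, 0)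
        (by simp only [hNn, hnB])
    exact fun θ l z => congrFun key (θ, l, z)
  -- the side pairings
  obtain ⟨A, hA, hAS⟩ := exists_deck_on he (Y := ℝ × ℝ)
    (S := Icc (-(Real.pi / 4)) (Real.pi / 4) ×ˢ univ)
    (isPreconnected_Icc.prod isPreconnected_univ)
    (f := fun x => N (x.1, 1, x.2)) (f' := fun x => N (Real.pi - x.1, 1, x.2))
    (by fun_prop) (by fun_prop) (by
      rintro ⟨θ, z⟩ ⟨hθ, -⟩
      simp only [hNe]
      refine hinv _ (hmem _) _ (hmem _) ?_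
      have h1 := deckMx_eq_cos hθ
      have h2 := (deckMx_pos θ).ne'
      rw [deckPt_one, deckPt_one, deckMx_pi_sub, Real.cos_pi_sub, Real.sin_pi_sub, ← h1]
      refine deck_lat (-1) 0 0 ?_ (by simp) (by simp)
      push_cast
      field_simp
      ring)
  obtain ⟨B, hB, hBS⟩ := exists_deck_on he (Y := ℝ × ℝ)
    (S := Icc (Real.pi / 4) (3 * Real.pi / 4) ×ˢ univ)
    (isPreconnected_Icc.prod isPreconnected_univ)
    (f := fun x => N (x.1, 1, x.2)) (f' := fun x => N (2 * Real.pi - x.1, 1, x.2))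
    (by fun_prop) (by fun_prop) (by
      rintro ⟨θ, z⟩ ⟨hθ, -⟩
      simp only [hNe]
      refine hinv _ (hmem _) _ (hmem _) ?_
      have h1 := deckMx_eq_sin hθ
      have h2 := (deckMx_pos θ).ne'
      rw [deckPt_one, deckPt_one, deckMx_two_pi_sub, Real.cos_two_pi_sub, Real.sin_two_pi_sub, ← h1]
      refine deck_lat 0 (-1) 0 (by simp) ?_ (by simp)
      push_cast
      field_simp
      ring)
  have hA' : ∀ θ z θ', -(Real.pi / 4) ≤ θ → θ ≤ Real.pi / 4 → θ' = Real.pi - θ →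
      A (N (θ, 1, z)) = N (θ', 1, z) := by
    intro θ z θ' h1 h2 h3
    rw [h3]; exact (hAS (θ, z) ⟨⟨h1, h2⟩, mem_univ _⟩).symm
  have hB' : ∀ θ z θ', Real.pi / 4 ≤ θ → θ ≤ 3 * Real.pi / 4 → θ' = 2 * Real.pi - θ →
      B (N (θ, 1, z)) = N (θ', 1, z) := by
    intro θ z θ' h1 h2 h3
    rw [h3]; exact (hBS (θ, z) ⟨⟨h1, h2⟩, mem_univ _⟩).symm
  refine ⟨A, B, hA, hB, ?_, ?_, ?_, fun t => N (Real.pi / 4, 1, T * t), by fun_prop, ?_, ?_⟩
  · refine Deck.ext he (hA.mul hF) (hF.mul hA) (a := N (0, 1, 0)) ?_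
    rw [Equiv.Perm.mul_apply, Equiv.Perm.mul_apply, ← hNF,
      hA' 0 _ Real.pi (by linarith) (by linarith) (by ring),
      hA' 0 _ Real.pi (by linarith) (by linarith) (by ring), hNF]
  · refine Deck.ext he (hB.mul hF) (hF.mul hB) (a := N (Real.pi / 4, 1, 0)) ?_
    rw [Equiv.Perm.mul_apply, Equiv.Perm.mul_apply, ← hNF,
      hB' _ _ (7 * Real.pi / 4) le_rfl (by linarith) (by ring),
      hB' _ _ (7 * Real.pi / 4) le_rfl (by linarith) (by ring), hNF]
  · refine Deck.ext he hBd (((hB.mul (hA.inv he)).mul (hB.inv he)).mul hA)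
      (a := N (-(Real.pi / 4), 1, 0)) ?_
    have a0 := hA' (Real.pi / 4) 0 (3 * Real.pi / 4) (by linarith) le_rfl (by ring)
    have a1 := hA' (-(Real.pi / 4)) 0 (5 * Real.pi / 4) le_rfl (by linarith) (by ring)
    have b0 := hB' (Real.pi / 4) 0 (-(Real.pi / 4) + 2 * Real.pi) le_rfl (by linarith) (by ring)
    have b1 := hB' (3 * Real.pi / 4) 0 (5 * Real.pi / 4) (by linarith) le_rfl (by ring)
    rw [← hNB, Equiv.Perm.mul_apply, Equiv.Perm.mul_apply, Equiv.Perm.mul_apply, a1, ← b1,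
      deck_inv_apply, ← a0, deck_inv_apply, b0]
  · intro t
    have h1 := deckMx_eq_cos (θ := Real.pi / 4) ⟨by linarith, le_rfl⟩
    have h2 := deckMx_eq_sin (θ := Real.pi / 4) ⟨le_rfl, by linarith⟩
    have h3 := (deckMx_pos (Real.pi / 4)).ne'
    simp only [hNe, deckPt_one]
    rw [← h1, ← h2, div_mul_cancel₀ _ h3]
  · simp only [mul_one, mul_zero]
    rw [← hNF, zero_add]

/-- clamp to `[-5/2, 5/2]` -/
def deckC5 (r : ℝ) : ℝ := max (-(5 / 2)) (min (5 / 2) r)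

/-- the point of the neck -/
def deckNk (x : ℝ × ℝ × ℝ) : E := !₂[deckC5 x.1, x.2.1, x.2.2]

theorem deckNk_cont : Continuous deckNk := by
  unfold deckNk deckC5
  refine (PiLp.continuous_toLp 2 _).comp (continuous_pi fun i => ?_)
  fin_cases i
  · show Continuous fun x : ℝ × ℝ × ℝ => max (-(5 / 2)) (min (5 / 2) x.1)
    fun_prop
  · exact continuous_fst.comp continuous_snd
  · exact continuous_snd.comp continuous_snd

theorem deckNk_mem (P : Prof) (x : ℝ × ℝ × ℝ) : deckNk x ∈ P.O 1 := by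
  rw [P.O_one]
  show |deckC5 x.1| < 3
  have h1 : -(5 / 2) ≤ deckC5 x.1 := le_max_left _ _
  have h2 : deckC5 x.1 ≤ 5 / 2 := max_le (by norm_num) (min_le_left _ _)
  rw [abs_lt]; constructor <;> linarith

/-- Recipe: `f z = π 1 (clamp (z 0), z 1, z 2)` (clamp to `[-5/2,5/2]`), `N : E → E` a lift;
`exists_deck_on` gives `fv`, `fw` with `N (z + 2π e₁) = fv (N z)`, `N (z + 2πε e₂) = fw (N z)`.
First block: `n (θ,z) = N (-5/2, z, εθ)`, `s1 = ρ(-5/2)`, `p = π 0`, `T = 2π`, `F = fv`, `Bd = fw`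
(`R_PV`, `eq_iff`).  Second block: `n (θ,z) = N (5/2, θ, z - εθ)`, `s1 = H(5/2)`, `p = π 2`,
`T = 2πε`, `F = fw`, `Bd = fv * fw⁻¹`. -/
theorem Prof.deck_model (P : Prof) {π : Fin 3 → E → M} {ι : M → Fin 3}
    {φ : M → OpenPartialHomeomorph M E} (hG : Glued P.O P.R π ι φ) (he : IsCoveringMap e)
    (hs : Function.Surjective e) :
    ∃ fv fw A B C D : Equiv.Perm E, (∀ g ∈ [fv, fw, A, B, C, D], Deck e g) ∧
      fv * fw = fw * fv ∧ A * fv = fv * A ∧ B * fv = fv * B ∧ fw = B * A⁻¹ * B⁻¹ * A ∧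
      C * fw = fw * C ∧ D * fw = fw * D ∧ fv * fw⁻¹ = D * C⁻¹ * D⁻¹ * C ∧
      ∃ ℓ : ℝ → E, Continuous ℓ ∧ (∀ t, e (ℓ t) = π 2 (P.fib t)) ∧ ℓ 1 = fw (ℓ 0) := by
  have hpi := Real.pi_pos
  have hε := P.hε
  have hf : Continuous fun x => π 1 (deckNk x) :=
    (hG.cont 1).comp_continuous deckNk_cont (deckNk_mem P)
  obtain ⟨e₀, he₀⟩ := hs (π 1 (deckNk 0))
  obtain ⟨N, hN, -, hNe⟩ := deck_lift he hf 0 e₀ he₀
  obtain ⟨fv, hfv, hv⟩ := exists_deck_on he (Y := ℝ × ℝ × ℝ) (S := univ) isPreconnected_univ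
    (f := N) (f' := fun x => N (x.1, x.2.1 + 2 * Real.pi, x.2.2)) hN.continuousOn (by fun_prop)
    (by
      rintro ⟨r, x, y⟩ -
      simp only [hNe]
      refine (hG.eq_iff 1 _ 1 _ (deckNk_mem P _) (deckNk_mem P _)).2 ?_
      rw [P.R11]
      exact ⟨deckNk_mem P _, deckNk_mem P _, by simp [deckNk], 1, 0, by simp [deckNk],
        by simp [deckNk]⟩)
  obtain ⟨fw, hfw, hw⟩ := exists_deck_on he (Y := ℝ × ℝ × ℝ) (S := univ) isPreconnected_univ
    (f := N) (f' := fun x => N (x.1, x.2.1, x.2.2 + 2 * Real.pi * P.ε)) hN.continuousOn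
    (by fun_prop)
    (by
      rintro ⟨r, x, y⟩ -
      simp only [hNe]
      refine (hG.eq_iff 1 _ 1 _ (deckNk_mem P _) (deckNk_mem P _)).2 ?_
      rw [P.R11]
      exact ⟨deckNk_mem P _, deckNk_mem P _, by simp [deckNk], 0, 1, by simp [deckNk],
        by simp [deckNk]⟩)
  have hv' : ∀ r x y, N (r, x + 2 * Real.pi, y) = fv (N (r, x, y)) :=
    fun r x y => hv (r, x, y) (mem_univ _)
  have hw' : ∀ r x y, N (r, x, y + 2 * Real.pi * P.ε) = fw (N (r, x, y)) :=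
    fun r x y => hw (r, x, y) (mem_univ _)
  have hcomm : fv * fw = fw * fv := by
    refine Deck.ext he (hfv.mul hfw) (hfw.mul hfv) (a := N (0, 0, 0)) ?_
    rw [Equiv.Perm.mul_apply, Equiv.Perm.mul_apply, ← hw', ← hv', ← hv', ← hw']
  have hinv0 : ∀ z ∈ Holes P.Λ (P.ρ (-2)), ∀ z' ∈ Holes P.Λ (P.ρ (-2)),
      Lat P.Λ (2 * Real.pi) (z' - z) → π 0 z = π 0 z' := fun z hz z' hz' h =>
    (hG.eq_iff 0 z 0 z' hz hz').2 ((P.R00 z z').2 ⟨hz, hz', h⟩)
  have hinv2 : ∀ z ∈ Holes P.Λ (P.H 2), ∀ z' ∈ Holes P.Λ (P.H 2),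
      Lat P.Λ (2 * Real.pi * P.ε) (z' - z) → π 2 z = π 2 z' := fun z hz z' hz' h =>
    (hG.eq_iff 2 z 2 z' hz hz').2 ((P.R22 z z').2 ⟨hz, hz', h⟩)
  have c1 : deckC5 (-(5 / 2)) = -(5 / 2) := by norm_num [deckC5]
  have c2 : deckC5 (5 / 2) = 5 / 2 := by norm_num [deckC5]
  -- first block
  obtain ⟨A, B, hA, hB, hAv, hBv, hAB, -⟩ := deck_piece he (Λ := P.Λ) (s := P.ρ (-2))
    (s1 := P.ρ (-(5 / 2))) (T := 2 * Real.pi) (P.ρ_pos _).le
    (by rw [P.ρ_lin _ (by norm_num), P.ρ_lin _ (by norm_num)]; linarith)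
    (by
      have h1 := P.Λρ
      have h2 : P.ρ (-(5 / 2)) ≤ P.ρ (-3) := P.ρ_anti (by norm_num)
      linarith)
    (p := π 0) (hG.cont 0) hinv0 (n := fun x => N (-(5 / 2), x.2, P.ε * x.1)) (by fun_prop)
    (by
      intro θ z
      simp only [hNe]
      have h := P.R_PV (z := deckNk (-(5 / 2), z, P.ε * θ))
        (by show -3 < deckC5 (-(5 / 2)); rw [c1]; norm_num)
        (by show deckC5 (-(5 / 2)) < -2; rw [c1]; norm_num)
      rw [(hG.eq_iff 1 _ 0 _ h.1 h.2.1).2 h]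
      congr 1
      simp [Prof.PV, deckNk, c1, mul_div_cancel_left₀ θ hε.ne'])
    hfv hfw (fun θ z => hv' _ _ _)
    (by
      intro θ z
      simp only
      rw [← hw']
      congr 3
      ring)
  -- second block
  obtain ⟨C, D, hC, hD, hCw, hDw, hCD, ℓ, hℓ, hℓe, hℓ1⟩ := deck_piece he (Λ := P.Λ) (s := P.H 2)
    (s1 := P.H (5 / 2)) (T := 2 * Real.pi * P.ε) (P.H_pos _).le
    (by rw [P.H_lin _ (by norm_num), P.H_lin _ (by norm_num)]; linarith)
    (by
      have h1 := P.ΛH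
      have h2 : P.H (5 / 2) ≤ P.H 3 := P.H_mono (by norm_num)
      linarith)
    (p := π 2) (hG.cont 2) hinv2 (n := fun x => N (5 / 2, x.1, x.2 - P.ε * x.1)) (by fun_prop)
    (by
      intro θ z
      simp only [hNe]
      have h := P.R_PW (z := deckNk (5 / 2, θ, z - P.ε * θ))
        (by show 2 < deckC5 (5 / 2); rw [c2]; norm_num)
        (by show deckC5 (5 / 2) < 3; rw [c2]; norm_num)
      rw [(hG.eq_iff 1 _ 2 _ h.1 h.2.1).2 h]
      congr 1
      simp [Prof.PW, deckNk, c2])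
    hfw (hfv.mul (hfw.inv he))
    (by
      intro θ z
      simp only
      rw [← hw']
      congr 3
      ring)
    (by
      intro θ z
      simp only
      have h1 : z - P.ε * θ = (z - P.ε * (θ + 2 * Real.pi)) + 2 * Real.pi * P.ε := by ring
      rw [hv', Equiv.Perm.mul_apply, h1, hw', deck_inv_apply])
  refine ⟨fv, fw, A, B, C, D, ?_, hcomm, hAv, hBv, hAB, hCw, hDw, hCD, ℓ, hℓ, hℓe, hℓ1⟩
  intro g hg
  simp only [List.mem_cons, List.not_mem_nil, or_false] at hg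
  rcases hg with rfl | rfl | rfl | rfl | rfl | rfl <;> assumption

end

end Crest.Agent.R244
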