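import Mathlib
import Crest.Prelude.Def_Geodesic

/-!
# Row 244 (S0377): definitions and overview

Owner: helper47.  `M` is the graph manifold glued from three open pieces of `E = ℝ³`:
`O 0` = (flat plane minus lattice discs) × ℝ with coordinates `(u₁,u₂,x)`, the neck `O 1 = {|r|<3}`
with coordinates `(r,x,y)`, and `O 2` = (flat plane minus lattice discs) × ℝ with coordinates
`(w₁,w₂,y+εx)`.  The neck metric is `dr² + g_r`, `g_r` the inverse of `h_r = [[α,γ],[γ,β]]`.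
* No conjugate points: outside the zone `|r| ≤ δ` the metric has `K ≤ 0`; through the zone explicit
  quadratic forms are monotone along Jacobi fields (`Neck.lean`, `Glob.lean`, `NCP.lean`).
* No metric with `K ≤ 0`: `exp` is a covering (`Cover.lean`), the cover satisfies the CN inequality
  (`Cat.lean`), and the deck group relations (`Deck.lean`) force the fibre `f_w` to have stable
  length zero (`Grp.lean`), while it is a non-trivial deck transformation (`Final.lean`).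
All geometry is done for an abstract metric atlas `MA` (charts + bilinear forms + Christoffel maps).
-/

open scoped ContDiff Topology Manifold
open Set Filter
open Crest.GeometryTopology.CoordMetric

noncomputable section

namespace Crest.Agent.R244

abbrev E : Type := EuclideanSpace ℝ (Fin 3)
abbrev Bil : Type := E →L[ℝ] E →L[ℝ] ℝ
abbrev Con : Type := E →L[ℝ] E →L[ℝ] E

/-! ## One chart -/

/-- the bilinear form of a coordinate metric field -/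
def bil (g : MetricField 3) (y : E) : Bil :=
  ∑ i, ∑ j, g y i j • (EuclideanSpace.proj i : E →L[ℝ] ℝ).smulRight
    (EuclideanSpace.proj j : E →L[ℝ] ℝ)

/-- the Christoffel symbols of a coordinate metric field as a bilinear map -/
def chr (g : MetricField 3) (y : E) : Con :=
  ∑ k, ∑ i, ∑ j, christoffel g y k i j • (EuclideanSpace.proj i : E →L[ℝ] ℝ).smulRight
    ((EuclideanSpace.proj j : E →L[ℝ] ℝ).smulRight (EuclideanSpace.single k (1 : ℝ) : E))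

/-- a smooth metric `b` on the open set `U` with its Levi-Civita connection `Γ` -/
structure LM (U : Set E) (b : E → Bil) (Γ : E → Con) : Prop where
  isOpen : IsOpen U
  b_smooth : ContDiffOn ℝ ∞ b U
  Γ_smooth : ContDiffOn ℝ ∞ Γ U
  symm : ∀ y ∈ U, ∀ u v, b y u v = b y v u
  pos : ∀ y ∈ U, ∀ u, u ≠ 0 → 0 < b y u u
  Γ_symm : ∀ y ∈ U, ∀ u v, Γ y u v = Γ y v u
  compat : ∀ y ∈ U, ∀ u v w, 2 * b y (Γ y u v) w
    = fderiv ℝ b y u v w + fderiv ℝ b y v u w - fderiv ℝ b y w u v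

/-- geodesic equation at one parameter -/
def GeoAt (Γ : E → Con) (y : ℝ → E) (t : ℝ) : Prop :=
  ContDiffAt ℝ 2 y t ∧ deriv (deriv y) t = -Γ (y t) (deriv y t) (deriv y t)

/-- linearised geodesic equation (= Jacobi equation) at one parameter -/
def JacAt (Γ : E → Con) (y Z : ℝ → E) (t : ℝ) : Prop :=
  ContDiffAt ℝ 2 Z t ∧ deriv (deriv Z) t
    = -fderiv ℝ Γ (y t) (Z t) (deriv y t) (deriv y t) - (2 : ℝ) • Γ (y t) (deriv y t) (deriv Z t)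

/-- curvature `R(u,v)w` -/
def Rm (Γ : E → Con) (y u v w : E) : E :=
  fderiv ℝ Γ y u v w - fderiv ℝ Γ y v u w + Γ y u (Γ y v w) - Γ y v (Γ y u w)

/-- covariant derivative of `Z` along `y` -/
def cov (Γ : E → Con) (y Z : ℝ → E) (t : ℝ) : E := deriv Z t + Γ (y t) (deriv y t) (Z t)

/-- the geodesic spray -/
def spray (Γ : E → Con) (z : E × E) : E × E := (z.2, -Γ z.1 z.2 z.2)

/-- `τ` is a smooth local isometry from `b` to `b'` near `y` -/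
def IsomAt (b b' : E → Bil) (τ : E → E) (y : E) : Prop :=
  ∀ᶠ z in 𝓝 y, ContDiffAt ℝ ∞ τ z ∧
    ∀ u v, b z u v = b' (τ z) (fderiv ℝ τ z u) (fderiv ℝ τ z v)

/-! ## Metric atlases -/

/-- a chart, a metric and a connection at every point, with smooth isometric transitions -/
structure MA (M : Type) [TopologicalSpace M] where
  φ : M → OpenPartialHomeomorph M E
  b : M → E → Bil
  Γ : M → E → Con
  mem : ∀ x, x ∈ (φ x).source
  lm : ∀ x, LM (φ x).target (b x) (Γ x)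
  isom : ∀ x x' q, q ∈ (φ x).source → q ∈ (φ x').source →
    IsomAt (b x) (b x') (φ x' ∘ (φ x).symm) (φ x q)

namespace MA

variable {M : Type} [TopologicalSpace M] (𝒜 : MA M)

/-- derivative at `q` of the transition from the chart at `x` to the chart at `x'` -/
def dtr (x x' q : M) : E →L[ℝ] E := fderiv ℝ (𝒜.φ x' ∘ (𝒜.φ x).symm) (𝒜.φ x q)

/-- inner product at `x` of vectors given in the chart at `x` -/
def ip (x : M) (u v : E) : ℝ := 𝒜.b x (𝒜.φ x x) u v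

def IsGeoOn (c : ℝ → M) (I : Set ℝ) : Prop :=
  ContinuousOn c I ∧ ∀ x, ∀ t ∈ I, c t ∈ (𝒜.φ x).source → GeoAt (𝒜.Γ x) (𝒜.φ x ∘ c) t

def IsGeo (c : ℝ → M) : Prop := 𝒜.IsGeoOn c univ

/-- velocity, in the chart at `c t` -/
def vel (c : ℝ → M) (t : ℝ) : E := deriv (𝒜.φ (c t) ∘ c) t

/-- a field along `c` (`J t` given in the chart at `c t`) expressed in the chart at `x` -/
def rep (c : ℝ → M) (J : ℝ → E) (x : M) (t : ℝ) : E := 𝒜.dtr (c t) x (c t) (J t)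

def IsJac (c : ℝ → M) (J : ℝ → E) : Prop :=
  ∀ x t, c t ∈ (𝒜.φ x).source → JacAt (𝒜.Γ x) (𝒜.φ x ∘ c) (𝒜.rep c J x) t

/-- covariant derivative of `J`, in the chart at `c t` -/
def DJ (c : ℝ → M) (J : ℝ → E) (t : ℝ) : E :=
  cov (𝒜.Γ (c t)) (𝒜.φ (c t) ∘ c) (𝒜.rep c J (c t)) t

def NPC : Prop := ∀ x u v, 𝒜.ip x (Rm (𝒜.Γ x) (𝒜.φ x x) u v v) u ≤ 0

def NCP : Prop := ∀ c J, 𝒜.IsGeo c → 𝒜.IsJac c J → ∀ a b : ℝ, a ≠ b → J a = 0 → J b = 0 →
  ∀ t, J t = 0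

/-- the family of all geodesics issuing from `x` -/
structure Fam (x : M) (γ : E → ℝ → M) : Prop where
  geo : ∀ v, 𝒜.IsGeo (γ v)
  zero : ∀ v, γ v 0 = x
  vel : ∀ v, 𝒜.vel (γ v) 0 = v

/-- `e` is a local diffeomorphism satisfying the Gauss-lemma inequality -/
def ExpOK (x : M) (e : E → M) : Prop :=
  Continuous e ∧ ∀ v x', e v ∈ (𝒜.φ x').source → ∃ A : E ≃L[ℝ] E,
    HasStrictFDerivAt (𝒜.φ x' ∘ e) (A : E →L[ℝ] E) v ∧
      ∀ w, 𝒜.ip x v w ^ 2 ≤ 𝒜.ip x v v * 𝒜.b x' (𝒜.φ x' (e v)) (A w) (A w)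

/-- `e` expands tangent vectors -/
def Expanding (x : M) (e : E → M) : Prop :=
  ∀ v x', e v ∈ (𝒜.φ x').source → ∀ w, 𝒜.ip x w w
    ≤ 𝒜.b x' (𝒜.φ x' (e v)) (fderiv ℝ (𝒜.φ x' ∘ e) v w) (fderiv ℝ (𝒜.φ x' ∘ e) v w)

end MA

/-! ## Gluing data -/

section etale

variable (O : Fin 3 → Set E) (G : Fin 3 → MetricField 3) (R : Fin 3 × E → Fin 3 × E → Prop)

/-- near `d` the relation contains the graph of an orientation preserving local isometry -/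
def Loc (d d' : Fin 3 × E) : Prop :=
  ∃ τ : E → E, τ d.2 = d'.2 ∧ IsomAt (bil (G d.1)) (bil (G d'.1)) τ d.2 ∧
    ∀ᶠ z in 𝓝 d.2, R (d.1, z) (d'.1, τ z) ∧ 0 < LinearMap.det (fderiv ℝ τ z : E →ₗ[ℝ] E)

structure Etale : Prop where
  riem : ∀ i, IsRiemannianOn (G i) (O i)
  dom : ∀ d d', R d d' → d.2 ∈ O d.1 ∧ d'.2 ∈ O d'.1
  refl : ∀ d, d.2 ∈ O d.1 → R d d
  symm : ∀ d d', R d d' → R d' d
  trans : ∀ d d' d'', R d d' → R d' d'' → R d d''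
  loc : ∀ d d', R d d' → Loc G R d d' ∨ Loc G R d' d
  inj : ∀ i, ∀ y ∈ O i, ∀ᶠ p : E × E in 𝓝 (y, y), R (i, p.1) (i, p.2) → p.1 = p.2
  sep : ∀ d d' : Fin 3 × E, d.2 ∈ O d.1 → d'.2 ∈ O d'.1 → ¬ R d d' →
    ∀ᶠ p : E × E in 𝓝 (d.2, d'.2), ¬ R (d.1, p.1) (d'.1, p.2)
  cpt : ∃ K : Fin 3 → Set E, (∀ i, IsCompact (K i) ∧ K i ⊆ O i) ∧
    ∀ d : Fin 3 × E, d.2 ∈ O d.1 → ∃ i, ∃ y ∈ K i, R d (i, y)
  conn1 : IsConnected (O 1)
  conn : ∀ d : Fin 3 × E, d.2 ∈ O d.1 →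
    ∃ i y y' z, R d (i, y) ∧ JoinedIn (O i) y y' ∧ R (i, y') (1, z)

/-- `M` is the quotient, with parametrisations `π i` and charts `φ x` inverse to `π (ι x)` -/
structure Glued {M : Type} [TopologicalSpace M] (π : Fin 3 → E → M) (ι : M → Fin 3)
    (φ : M → OpenPartialHomeomorph M E) : Prop where
  cont : ∀ i, ContinuousOn (π i) (O i)
  eq_iff : ∀ i y j y', y ∈ O i → y' ∈ O j → (π i y = π j y' ↔ R (i, y) (j, y'))
  mem : ∀ x, x ∈ (φ x).source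
  chart : ∀ x, ∀ y ∈ (φ x).target, y ∈ O (ι x) ∧ (φ x).symm y = π (ι x) y

end etale

/-! ## The profile of the neck -/

/-- `p ↦ a p₁² + 2 c p₁ p₂ + b p₂²` -/
def qf (a c b p q : ℝ) : ℝ := a * p ^ 2 + 2 * c * p * q + b * q ^ 2

/-- All data and properties of the neck metric.  `V(r,p,q) = qf (α r) (γ r) (β r) p q` is the dual
metric, `ẋ = α p + γ q`, `ẏ = γ p + β q`. -/
structure Prof where
  ε : ℝ
  δ : ℝ
  δ' : ℝ
  Λ : ℝ
  c1 : ℝ
  c2 : ℝ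
  α : ℝ → ℝ
  γ : ℝ → ℝ
  β : ℝ → ℝ
  ρ : ℝ → ℝ
  H : ℝ → ℝ
  hε : 0 < ε
  hδ : 0 < δ
  hδδ : δ < δ'
  hδ2 : δ' < 2
  α_smooth : ContDiff ℝ ∞ α
  γ_smooth : ContDiff ℝ ∞ γ
  β_smooth : ContDiff ℝ ∞ β
  ρ_smooth : ContDiff ℝ ∞ ρ
  H_smooth : ContDiff ℝ ∞ H
  α_pos : ∀ r, 0 < α r
  D_pos : ∀ r, 0 < α r * β r - γ r ^ 2
  ρ_pos : ∀ r, 0 < ρ r
  H_pos : ∀ r, 0 < H r
  ρ_anti : Antitone ρ
  H_mono : Monotone H
  ρ_lin : ∀ r ≤ -2, ρ r = c1 - r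
  H_lin : ∀ r ≥ 2, H r = c2 + r
  Λρ : 2 * ρ (-3) < Λ
  ΛH : 2 * H 3 < Λ
  left0 : ∀ r ≤ -δ, α r = 1 ∧ γ r = 0 ∧ β r = ε ^ 2 / ρ r ^ 2
  left1 : ∀ r ≤ -δ, deriv α r = 0 ∧ deriv γ r = 0 ∧ 0 ≤ deriv β r
  left2 : ∀ r ≤ -δ, deriv (deriv α) r = 0 ∧ deriv (deriv γ) r = 0 ∧
    2 * β r * deriv (deriv β) r ≤ 3 * deriv β r ^ 2
  right0 : ∀ r ≥ δ, α r = 1 / H r ^ 2 ∧ γ r = -ε * α r ∧ β r = 1 + ε ^ 2 * α r
  right1 : ∀ r ≥ δ, deriv γ r = -ε * deriv α r ∧ deriv β r = ε ^ 2 * deriv α r ∧ deriv α r ≤ 0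
  right2 : ∀ r ≥ δ, deriv (deriv γ) r = -ε * deriv (deriv α) r ∧
    deriv (deriv β) r = ε ^ 2 * deriv (deriv α) r ∧
    2 * α r * deriv (deriv α) r ≤ 3 * deriv α r ^ 2
  conc : ∀ r ∈ Icc (-δ') δ', ∀ p q,
    qf (deriv (deriv α) r) (deriv (deriv γ) r) (deriv (deriv β) r) p q ≤ 0
  condY : ∀ r ∈ Icc (-δ') δ', ∀ p q, 0 < qf (deriv α r) (deriv γ r) (deriv β r) p q →
    γ r * p + β r * q ≠ 0 ∧
    0 ≤ -(1 / 2) * qf (deriv (deriv α) r) (deriv (deriv γ) r) (deriv (deriv β) r) p q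
          * (γ r * p + β r * q) ^ 2
        + qf (deriv α r) (deriv γ r) (deriv β r) p q * (deriv γ r * p + deriv β r * q)
          * (γ r * p + β r * q)
        - qf (deriv α r) (deriv γ r) (deriv β r) p q ^ 2 * β r / 4
  condX : ∀ r ∈ Icc (-δ') δ', ∀ p q, qf (deriv α r) (deriv γ r) (deriv β r) p q < 0 →
    α r * p + γ r * q ≠ 0 ∧
    0 ≤ -(1 / 2) * qf (deriv (deriv α) r) (deriv (deriv γ) r) (deriv (deriv β) r) p q
          * (α r * p + γ r * q) ^ 2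
        + qf (deriv α r) (deriv γ r) (deriv β r) p q * (deriv α r * p + deriv γ r * q)
          * (α r * p + γ r * q)
        - qf (deriv α r) (deriv γ r) (deriv β r) p q ^ 2 * α r / 4

/-- the lattice `Λℤ × Λℤ × Tℤ` -/
def Lat (Λ T : ℝ) (z : E) : Prop := ∃ n m k : ℤ, z 0 = Λ * n ∧ z 1 = Λ * m ∧ z 2 = T * k

/-- the complement of the closed lattice discs of radius `s` (times a line) -/
def Holes (Λ s : ℝ) : Set E := {z | ∀ n m : ℤ, s ^ 2 < (z 0 - Λ * n) ^ 2 + (z 1 - Λ * m) ^ 2}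

namespace Prof

variable (P : Prof)

def D (r : ℝ) : ℝ := P.α r * P.β r - P.γ r ^ 2

def V1 (r p q : ℝ) : ℝ := qf (deriv P.α r) (deriv P.γ r) (deriv P.β r) p q

def V2 (r p q : ℝ) : ℝ := qf (deriv (deriv P.α) r) (deriv (deriv P.γ) r) (deriv (deriv P.β) r) p q

/-- the lattice of the neck -/
def LatN (z : E) : Prop :=
  z 0 = 0 ∧ ∃ m k : ℤ, z 1 = 2 * Real.pi * m ∧ z 2 = 2 * Real.pi * P.ε * k

def O : Fin 3 → Set E := ![Holes P.Λ (P.ρ (-2)), {z | |z 0| < 3}, Holes P.Λ (P.H 2)]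

def GN : MetricField 3 := fun z =>
  !![1, 0, 0;
     0, P.β (z 0) / P.D (z 0), -P.γ (z 0) / P.D (z 0);
     0, -P.γ (z 0) / P.D (z 0), P.α (z 0) / P.D (z 0)]

def G : Fin 3 → MetricField 3 := ![fun _ => 1, P.GN, fun _ => 1]

def PV (z : E) : E :=
  !₂[P.ρ (z 0) * Real.cos (z 2 / P.ε), P.ρ (z 0) * Real.sin (z 2 / P.ε), z 1]

def PW (z : E) : E :=
  !₂[P.H (z 0) * Real.cos (z 1), P.H (z 0) * Real.sin (z 1), z 2 + P.ε * z 1]

def R0 (i j : Fin 3) (z z' : E) : Prop :=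
  ![![Lat P.Λ (2 * Real.pi) (z' - z), Lat P.Λ (2 * Real.pi) (z - P.PV z'), False],
    ![Lat P.Λ (2 * Real.pi) (z' - P.PV z), P.LatN (z' - z),
      Lat P.Λ (2 * Real.pi * P.ε) (z' - P.PW z)],
    ![False, Lat P.Λ (2 * Real.pi * P.ε) (z - P.PW z'),
      Lat P.Λ (2 * Real.pi * P.ε) (z' - z)]] i j

def R (d d' : Fin 3 × E) : Prop := d.2 ∈ P.O d.1 ∧ d'.2 ∈ P.O d'.1 ∧ P.R0 d.1 d'.1 d.2 d'.2

/-- the fibre of the second block through the corner of the fundamental square -/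
def fib (t : ℝ) : E := !₂[P.Λ / 2, P.Λ / 2, 2 * Real.pi * P.ε * t]

end Prof

/-- The state of a geodesic and of a Jacobi field in the neck, in Hamiltonian variables:
`r`, `v = ṙ`, momenta `p, q`; `ρ = δr`, `σ = δṙ`, `ξ = δx`, `ζ = δy`, `π = δp`, `κ = δq`. -/
structure St where
  r : ℝ
  v : ℝ
  p : ℝ
  q : ℝ
  ρ : ℝ
  σ : ℝ
  ξ : ℝ
  ζ : ℝ
  π : ℝ
  κ : ℝ

namespace Prof

variable (P : Prof)

/-- the geodesic and Jacobi equations of the neck at time `t` -/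
structure OdeAt (s : ℝ → St) (t : ℝ) : Prop where
  r : HasDerivAt (fun u => (s u).r) (s t).v t
  v : HasDerivAt (fun u => (s u).v) (-(1 / 2) * P.V1 (s t).r (s t).p (s t).q) t
  p : HasDerivAt (fun u => (s u).p) 0 t
  q : HasDerivAt (fun u => (s u).q) 0 t
  ρ : HasDerivAt (fun u => (s u).ρ) (s t).σ t
  σ : HasDerivAt (fun u => (s u).σ) (-(1 / 2) * P.V2 (s t).r (s t).p (s t).q * (s t).ρ
    - ((deriv P.α (s t).r * (s t).p + deriv P.γ (s t).r * (s t).q) * (s t).π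
      + (deriv P.γ (s t).r * (s t).p + deriv P.β (s t).r * (s t).q) * (s t).κ)) t
  ξ : HasDerivAt (fun u => (s u).ξ) (P.α (s t).r * (s t).π + P.γ (s t).r * (s t).κ
    + (deriv P.α (s t).r * (s t).p + deriv P.γ (s t).r * (s t).q) * (s t).ρ) t
  ζ : HasDerivAt (fun u => (s u).ζ) (P.γ (s t).r * (s t).π + P.β (s t).r * (s t).κ
    + (deriv P.γ (s t).r * (s t).p + deriv P.β (s t).r * (s t).q) * (s t).ρ) t
  π : HasDerivAt (fun u => (s u).π) 0 t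
  κ : HasDerivAt (fun u => (s u).κ) 0 t

/-- variation of the energy, `= ⟨DJ, ċ⟩` -/
def dH (s : St) : ℝ := s.v * s.σ + 1 / 2 * P.V1 s.r s.p s.q * s.ρ
  + (P.α s.r * s.p + P.γ s.r * s.q) * s.π + (P.γ s.r * s.p + P.β s.r * s.q) * s.κ

/-- `|J|²` -/
def nJ (s : St) : ℝ :=
  s.ρ ^ 2 + (P.β s.r * s.ξ ^ 2 - 2 * P.γ s.r * s.ξ * s.ζ + P.α s.r * s.ζ ^ 2) / P.D s.r

/-- `⟨J, ċ⟩` -/
def mJ (s : St) : ℝ := s.ρ * s.v + s.ξ * s.p + s.ζ * s.q

/-- `⟨J, DJ⟩`; here `(η₁, η₂)` is the covector of `(ξ, ζ)` -/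
def Qn (s : St) : ℝ :=
  let η₁ := (P.β s.r * s.ξ - P.γ s.r * s.ζ) / P.D s.r
  let η₂ := (P.α s.r * s.ζ - P.γ s.r * s.ξ) / P.D s.r
  s.ρ * s.σ + s.ξ * s.π + s.ζ * s.κ
    + s.ρ * ((deriv P.α s.r * s.p + deriv P.γ s.r * s.q) * η₁
      + (deriv P.γ s.r * s.p + deriv P.β s.r * s.q) * η₂)
    - 1 / 2 * s.v * P.V1 s.r η₁ η₂

/-- the state of a coordinate curve `y` and a field `Z` along it -/
def st (y Z : ℝ → E) (t : ℝ) : St where
  r := y t 0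
  v := deriv y t 0
  p := bil P.GN (y t) (deriv y t) (EuclideanSpace.single 1 1)
  q := bil P.GN (y t) (deriv y t) (EuclideanSpace.single 2 1)
  ρ := Z t 0
  σ := deriv Z t 0
  ξ := Z t 1
  ζ := Z t 2
  π := bil P.GN (y t) (deriv Z t) (EuclideanSpace.single 1 1)
    + fderiv ℝ (bil P.GN) (y t) (Z t) (deriv y t) (EuclideanSpace.single 1 1)
  κ := bil P.GN (y t) (deriv Z t) (EuclideanSpace.single 2 1)
    + fderiv ℝ (bil P.GN) (y t) (Z t) (deriv y t) (EuclideanSpace.single 2 1)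

end Prof

/-- `J = 0` -/
def St.Z0 (s : St) : Prop := s.ρ = 0 ∧ s.ξ = 0 ∧ s.ζ = 0

/-- `J = 0` and `J' = 0` -/
def St.Deg (s : St) : Prop := s.Z0 ∧ s.σ = 0 ∧ s.π = 0 ∧ s.κ = 0

/-- metric axioms, midpoints and the CN inequality of Bruhat–Tits -/
structure CN {X : Type} (d : X → X → ℝ) : Prop where
  nonneg : ∀ a b, 0 ≤ d a b
  self : ∀ a, d a a = 0
  symm : ∀ a b, d a b = d b a
  tri : ∀ a b c, d a c ≤ d a b + d b c
  mid : ∀ b c, ∃ m, d b m = d b c / 2 ∧ d m c = d b c / 2 ∧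
    ∀ z, 2 * d z m ^ 2 + d b c ^ 2 / 2 ≤ d z b ^ 2 + d z c ^ 2

/-- deck transformation -/
def Deck {X M : Type} [TopologicalSpace X] (e : X → M) (D : Equiv.Perm X) : Prop :=
  Continuous D ∧ ∀ a, e (D a) = e a

end Crest.Agent.R244
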