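import Crest.Agent.R244.Defs

/-! # R244: the group-theoretic obstruction -/

open scoped ContDiff Topology Manifold
open Set Filter
open Crest.GeometryTopology.CoordMetric

noncomputable section

namespace Crest.Agent.R244

set_option linter.unusedSectionVars false
set_option linter.unusedVariables false

/-- quadrilateral inequality (CN at the midpoint of `y, p`, for `z` and `q`) -/
theorem CN.quad {X : Type} {d : X → X → ℝ} (h : CN d) (y z p q : X) :
    d y p ^ 2 + d z q ^ 2 ≤ d y z ^ 2 + d z p ^ 2 + d p q ^ 2 + d q y ^ 2 := by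
  obtain ⟨m, -, -, hm⟩ := h.mid y p
  have h1 := hm z
  have h2 := hm q
  have h3 := h.tri z m q
  rw [h.symm m q] at h3
  rw [h.symm z y] at h1
  rw [h.symm q p] at h2
  have h4 : d z q ^ 2 ≤ (d z m + d q m) ^ 2 := pow_le_pow_left₀ (h.nonneg _ _) h3 2
  nlinarith [sq_nonneg (d z m - d q m)]

section aux

variable {X : Type} {d : X → X → ℝ}

/-- isometries of `d` -/
def GrpIso (d : X → X → ℝ) (g : Equiv.Perm X) : Prop := ∀ a b, d (g a) (g b) = d a b

lemma GrpIso.mul {g k : Equiv.Perm X} (hg : GrpIso d g) (hk : GrpIso d k) : GrpIso d (g * k) :=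
  fun a b => by rw [Equiv.Perm.mul_apply, Equiv.Perm.mul_apply, hg, hk]

lemma GrpIso.inv {g : Equiv.Perm X} (hg : GrpIso d g) : GrpIso d g⁻¹ :=
  fun a b => by rw [← hg]; simp

lemma GrpIso.pow {g : Equiv.Perm X} (hg : GrpIso d g) (n : ℕ) : GrpIso d (g ^ n) := by
  induction n with
  | zero => intro a b; simp
  | succ n ih => rw [pow_succ]; exact ih.mul hg

lemma grp_disp_sq (h : CN d) {g : Equiv.Perm X} (hg : GrpIso d g) {r : ℝ}
    (hr : ∀ a, r ≤ d a (g a)) (a : X) : 2 * r ≤ d a ((g ^ 2) a) := by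
  obtain ⟨m, -, h2, hm⟩ := h.mid a (g a)
  have e1 := hm (g⁻¹ m)
  have e2 := hm (g (g a))
  rw [← hg (g⁻¹ m) m, ← hg (g⁻¹ m) a, ← hg (g⁻¹ m) (g a)] at e1
  simp only [Equiv.Perm.coe_inv, Equiv.apply_symm_apply] at e1
  rw [hg (g a) a, h.symm (g a) a, h.symm (g (g a)) m, h.symm (g (g a)) a] at e2
  rw [h2] at e1
  have e3 : (2 * d m (g m)) ^ 2 ≤ d a (g (g a)) ^ 2 := by nlinarith
  have e4 : 2 * d m (g m) ≤ d a (g (g a)) := le_of_sq_le_sq e3 (h.nonneg _ _)
  have e5 := hr m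
  rw [pow_two, Equiv.Perm.mul_apply]
  linarith

lemma grp_disp_pow (h : CN d) {g : Equiv.Perm X} (hg : GrpIso d g) {r : ℝ}
    (hr : ∀ a, r ≤ d a (g a)) (j : ℕ) (a : X) : 2 ^ j * r ≤ d a ((g ^ 2 ^ j) a) := by
  induction j generalizing a with
  | zero => simpa using hr a
  | succ j ih =>
    have := grp_disp_sq h (hg.pow (2 ^ j)) ih a
    rw [← pow_mul, ← pow_succ] at this
    rw [pow_succ]
    linarith

/-- the sequence that defines the stable length -/
def grpSeq (d : X → X → ℝ) (x : X) (g : Equiv.Perm X) (j : ℕ) : ℝ := d x ((g ^ 2 ^ j) x) / 2 ^ j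

/-- the stable length -/
def grpN (d : X → X → ℝ) (x : X) (g : Equiv.Perm X) : ℝ := ⨅ j, grpSeq d x g j

lemma grpSeq_anti (h : CN d) (x : X) {g : Equiv.Perm X} (hg : GrpIso d g) :
    Antitone (grpSeq d x g) := by
  refine antitone_nat_of_succ_le fun j => ?_
  unfold grpSeq
  have h1 := h.tri x ((g ^ 2 ^ j) x) ((g ^ 2 ^ j) ((g ^ 2 ^ j) x))
  rw [hg.pow, ← Equiv.Perm.mul_apply, ← pow_add, ← two_mul, ← pow_succ'] at h1
  rw [div_le_div_iff₀ (by positivity) (by positivity), pow_succ (2 : ℝ)]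
  have : (0 : ℝ) < 2 ^ j := by positivity
  nlinarith

lemma grpSeq_tendsto (h : CN d) (x : X) {g : Equiv.Perm X} (hg : GrpIso d g) :
    Tendsto (grpSeq d x g) atTop (𝓝 (grpN d x g)) :=
  tendsto_atTop_ciInf (grpSeq_anti h x hg)
    ⟨0, by rintro _ ⟨j, rfl⟩; exact div_nonneg (h.nonneg _ _) (by positivity)⟩

lemma grpN_sq (h : CN d) (x : X) {g : Equiv.Perm X} (hg : GrpIso d g) :
    grpN d x (g ^ 2) = 2 * grpN d x g := by
  have h1 := grpSeq_tendsto h x (hg.pow 2)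
  have h2 := ((grpSeq_tendsto h x hg).comp (tendsto_add_atTop_nat 1)).const_mul 2
  refine tendsto_nhds_unique h1 (h2.congr fun j => ?_)
  simp only [Function.comp, grpSeq]
  rw [← pow_mul, ← pow_succ', pow_succ (2 : ℝ)]
  field_simp

lemma grpN_inv (h : CN d) (x : X) {g : Equiv.Perm X} (hg : GrpIso d g) :
    grpN d x g⁻¹ = grpN d x g := by
  unfold grpN
  congr 1
  funext j
  unfold grpSeq
  rw [inv_pow, ← hg.pow (2 ^ j) x, h.symm]
  simp

lemma grpN_one (h : CN d) (x : X) : grpN d x 1 = 0 := by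
  simp [grpN, grpSeq, h.self]

lemma grpN_ge (h : CN d) (x : X) {g : Equiv.Perm X} (hg : GrpIso d g) {r : ℝ}
    (hr : ∀ a, r ≤ d a (g a)) : r ≤ grpN d x g := by
  refine le_ciInf fun j => ?_
  unfold grpSeq
  rw [le_div_iff₀ (by positivity), mul_comm]
  exact grp_disp_pow h hg hr j x

lemma grp_par_le (h : CN d) (x : X) {g k : Equiv.Perm X} (hg : GrpIso d g) (hk : GrpIso d k)
    (hc : Commute g k) :
    grpN d x (g * k) ^ 2 + grpN d x (g * k⁻¹) ^ 2 ≤ 2 * grpN d x g ^ 2 + 2 * grpN d x k ^ 2 := by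
  refine le_of_tendsto_of_tendsto'
    (((grpSeq_tendsto h x (hg.mul hk)).pow 2).add ((grpSeq_tendsto h x (hg.mul hk.inv)).pow 2))
    ((((grpSeq_tendsto h x hg).pow 2).const_mul 2).add
      (((grpSeq_tendsto h x hk).pow 2).const_mul 2)) fun j => ?_
  unfold grpSeq
  set n := 2 ^ j
  have hq := h.quad x ((g ^ n) x) ((g ^ n) ((k ^ n) x)) ((k ^ n) x)
  have hcn : Commute (g ^ n) (k ^ n) := hc.pow_pow n n
  have e0 : (g ^ n) ((k ^ n) x) = (k ^ n) ((g ^ n) x) := by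
    rw [← Equiv.Perm.mul_apply, hcn.eq, Equiv.Perm.mul_apply]
  have e1 : d ((g ^ n) ((k ^ n) x)) ((k ^ n) x) = d x ((g ^ n) x) := by
    rw [e0, hk.pow, h.symm]
  have e2 : d ((g ^ n) x) ((k ^ n) x) = d x (((g * k⁻¹) ^ n) x) := by
    rw [hc.inv_right.mul_pow, inv_pow, hcn.inv_right.eq, ← hk.pow n x, h.symm]
    simp
  rw [hg.pow n x, e1, e2, h.symm ((k ^ n) x) x, ← Equiv.Perm.mul_apply, ← hc.mul_pow] at hq
  simp only [div_pow, ← mul_div_assoc, ← add_div]
  refine div_le_div_of_nonneg_right ?_ (by positivity)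
  linarith

lemma grp_par (h : CN d) (x : X) {g k : Equiv.Perm X} (hg : GrpIso d g) (hk : GrpIso d k)
    (hc : Commute g k) :
    grpN d x (g * k) ^ 2 + grpN d x (g * k⁻¹) ^ 2 = 2 * grpN d x g ^ 2 + 2 * grpN d x k ^ 2 := by
  refine le_antisymm (grp_par_le h x hg hk hc) ?_
  have hc' : Commute (g * k) (g * k⁻¹) :=
    Commute.mul_left ((Commute.refl g).mul_right hc.inv_right)
      (hc.symm.mul_right (Commute.refl k).inv_right)
  have h1 := grp_par_le h x (hg.mul hk) (hg.mul hk.inv) hc'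
  have e1 : g * k * (g * k⁻¹) = g ^ 2 := by
    rw [hc.inv_right.eq, pow_two]; group
  have e2 : g * k * (g * k⁻¹)⁻¹ = k ^ 2 := by
    rw [hc.inv_right.eq, hc.eq, pow_two]
    rw [mul_inv_rev, inv_inv]; group
  rw [e1, e2, grpN_sq h x hg, grpN_sq h x hk] at h1
  linarith

/-- bounded affine sequences are constant -/
lemma grp_affine {e : ℕ → ℝ} (h : ∀ m, e (m + 2) + e m = 2 * e (m + 1)) {C : ℝ}
    (hC : ∀ m, |e m| ≤ C) : e 1 = e 0 := by
  have h1 : ∀ m, e (m + 1) - e m = e 1 - e 0 := by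
    intro m
    induction m with
    | zero => rfl
    | succ m ih => linarith [h m]
  have h2 : ∀ m : ℕ, e m = e 0 + m * (e 1 - e 0) := by
    intro m
    induction m with
    | zero => simp
    | succ m ih => push_cast; linarith [h1 m]
  by_contra hne
  have hpos : 0 < |e 1 - e 0| := abs_pos.2 (sub_ne_zero.2 hne)
  obtain ⟨m, hm⟩ := exists_nat_gt (2 * C / |e 1 - e 0|)
  rw [div_lt_iff₀ hpos] at hm
  have h3 : |(m : ℝ) * (e 1 - e 0)| ≤ 2 * C := by
    have : (m : ℝ) * (e 1 - e 0) = e m - e 0 := by linarith [h2 m]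
    rw [this]
    linarith [abs_sub (e m) (e 0), hC m, hC 0]
  rw [abs_mul, Nat.abs_cast] at h3
  linarith

lemma grp_orth (h : CN d) (x : X) {f g : Equiv.Perm X} (hf : GrpIso d f) (hg : GrpIso d g)
    (hc : Commute f g) {C : ℝ} (hC : ∀ m : ℕ, |grpN d x (f ^ m * g) ^ 2 - grpN d x (f ^ m) ^ 2| ≤ C) :
    grpN d x (f * g) ^ 2 = grpN d x f ^ 2 + grpN d x g ^ 2 := by
  have key := grp_affine (e := fun m => grpN d x (f ^ m * g) ^ 2 - grpN d x (f ^ m) ^ 2)
    (fun m => ?_) hC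
  · simp only [pow_one, pow_zero, one_mul, grpN_one h] at key
    linarith
  · have h1 := grp_par h x ((hf.pow (m + 1)).mul hg) hf
      (((Commute.refl f).pow_left _).mul_left hc.symm)
    have h2 := grp_par h x (hf.pow (m + 1)) hf ((Commute.refl f).pow_left _)
    have e1 : f ^ (m + 1) * g * f = f ^ (m + 2) * g := by
      rw [mul_assoc, ← hc.eq, ← mul_assoc, ← pow_succ]
    have e2 : f ^ (m + 1) * g * f⁻¹ = f ^ m * g := by
      rw [mul_assoc, ← hc.inv_left.eq, pow_succ]; group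
    have e3 : f ^ (m + 1) * f⁻¹ = f ^ m := by group
    rw [e1, e2] at h1
    rw [← pow_succ, e3] at h2
    linarith

/-- the cocycle -/
def grpC (d : X → X → ℝ) (x : X) (F k : Equiv.Perm X) : ℝ := d x ((F * k) x) ^ 2 - d x (F x) ^ 2

lemma grpC_mul (h : CN d) (x : X) {F k l : Equiv.Perm X} (hF : GrpIso d F) (hk : GrpIso d k)
    (hc : Commute F k) :
    |grpC d x F (k * l) - grpC d x F k - grpC d x F l| ≤ d x (k x) ^ 2 + d x (l x) ^ 2 := by
  have q1 := h.quad (k⁻¹ x) x (F (l x)) (F x)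
  have q2 := h.quad (k⁻¹ x) x (F x) (F (l x))
  have e0 : ∀ a, k (F a) = F (k a) := fun a => by
    rw [← Equiv.Perm.mul_apply, ← hc.eq, Equiv.Perm.mul_apply]
  have e1 : ∀ a, d (k⁻¹ x) a = d x (k a) := fun a => by rw [← hk]; simp
  simp only [h.symm _ (k⁻¹ x), e1, e0, hF x, hF (l x), h.symm (l x) x] at q1 q2
  simp only [grpC, Equiv.Perm.mul_apply]
  rw [abs_le]
  constructor <;> linarith

lemma grpC_one (x : X) (F : Equiv.Perm X) : grpC d x F 1 = 0 := by simp [grpC]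

lemma grp_comm_bound (h : CN d) (x : X) {f A B : Equiv.Perm X} (hf : GrpIso d f)
    (hA : GrpIso d A) (hB : GrpIso d B) (cA : Commute f A) (cB : Commute f B) :
    ∃ C, ∀ m : ℕ, |grpN d x (f ^ m * (B * A⁻¹ * B⁻¹ * A)) ^ 2 - grpN d x (f ^ m) ^ 2| ≤ C := by
  set g := B * A⁻¹ * B⁻¹ * A with hgdef
  have hg : GrpIso d g := ((hB.mul hA.inv).mul hB.inv).mul hA
  have cg : Commute f g := ((cB.mul_right cA.inv_right).mul_right cB.inv_right).mul_right cA
  obtain ⟨C₀, hC₀⟩ : ∃ C₀, ∀ n : ℕ, |grpC d x (f ^ n) g| ≤ C₀ := by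
    refine ⟨(d x ((B * A⁻¹ * B⁻¹) x) ^ 2 + d x (A x) ^ 2) + (d x ((B * A⁻¹) x) ^ 2 + d x (B⁻¹ x) ^ 2)
      + (d x (B x) ^ 2 + d x (A⁻¹ x) ^ 2) + (d x (A x) ^ 2 + d x (A⁻¹ x) ^ 2)
      + (d x (B x) ^ 2 + d x (B⁻¹ x) ^ 2), fun n => ?_⟩
    have a1 := grpC_mul h x (l := A) (hf.pow n) ((hB.mul hA.inv).mul hB.inv)
      (((cB.mul_right cA.inv_right).mul_right cB.inv_right).pow_left n)
    have a2 := grpC_mul h x (l := B⁻¹) (hf.pow n) (hB.mul hA.inv)
      ((cB.mul_right cA.inv_right).pow_left n)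
    have a3 := grpC_mul h x (l := A⁻¹) (hf.pow n) hB (cB.pow_left n)
    have a4 := grpC_mul h x (l := A⁻¹) (hf.pow n) hA (cA.pow_left n)
    have a5 := grpC_mul h x (l := B⁻¹) (hf.pow n) hB (cB.pow_left n)
    rw [mul_inv_cancel, grpC_one] at a4 a5
    rw [abs_le] at a1 a2 a3 a4 a5 ⊢
    constructor <;> linarith [a1.1, a1.2, a2.1, a2.2, a3.1, a3.2, a4.1, a4.2, a5.1, a5.2]
  set C := max C₀ (d x (g x) ^ 2) with hC
  have hpow : ∀ n j : ℕ, |grpC d x (f ^ n) (g ^ 2 ^ j)| ≤ C * (2 ^ j) ^ 2 := by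
    intro n j
    induction j with
    | zero =>
      simp only [pow_zero, pow_one, one_pow, mul_one]
      exact (hC₀ n).trans (le_max_left _ _)
    | succ j ih =>
      have a1 := grpC_mul h x (l := g ^ 2 ^ j) (hf.pow n) (hg.pow (2 ^ j)) (cg.pow_pow n _)
      rw [← pow_add, ← two_mul, ← pow_succ'] at a1
      have a2 : grpSeq d x g j ≤ grpSeq d x g 0 := grpSeq_anti h x hg (Nat.zero_le j)
      simp only [grpSeq, pow_zero, pow_one, div_one] at a2
      rw [div_le_iff₀ (by positivity)] at a2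
      have a3 : d x ((g ^ 2 ^ j) x) ^ 2 ≤ C * (2 ^ j) ^ 2 := by
        refine (pow_le_pow_left₀ (h.nonneg _ _) a2 2).trans ?_
        rw [mul_pow]
        exact mul_le_mul_of_nonneg_right (le_max_right _ _) (by positivity)
      have a4 : C * (2 ^ (j + 1)) ^ 2 = 4 * (C * (2 ^ j) ^ 2) := by ring
      rw [a4]
      rw [abs_le] at a1 ih ⊢
      constructor <;> linarith [a1.1, a1.2, ih.1, ih.2]
  refine ⟨C, fun m => ?_⟩
  refine le_of_tendsto' (((grpSeq_tendsto h x ((hf.pow m).mul hg)).pow 2).sub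
    ((grpSeq_tendsto h x (hf.pow m)).pow 2)).abs fun j => ?_
  have := hpow (m * 2 ^ j) j
  unfold grpSeq
  rw [(cg.pow_left m).mul_pow, ← pow_mul, div_pow, div_pow, ← sub_div, abs_div,
    abs_of_pos (a := ((2 : ℝ) ^ j) ^ 2) (by positivity), div_le_iff₀ (by positivity)]
  exact this

end aux

/-- Recipe.  Isometries form a subgroup `Γ`; fix `x`.  `N g = inf_j d x (g^(2^j) x) / 2^j` (the
sequence is antitone, so it is the limit); `N (g²) = 2 N g`, `N g⁻¹ = N g`.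
(1) If all displacements of `g` are `≥ r` then those of `g²` are `≥ 2r`: for `m = mid a (g a)`,
two CN inequalities give `d m (g m) ≤ d a (g² a)/2`.  Hence `N g ≥ r`.
(2) `Q (i,j) = N (fv^i fw^j)²` on `ℤ²`: `quad` at `x, g^n x, (gh)^n x, h^n x` gives
`Q(u+v) + Q(u-v) ≤ 2Q u + 2Q v`; applied to `u+v, u-v` with `Q (2u) = 4 Q u` it is an equality; so `Q`
is a quadratic form `a i² + 2 b i j + c j²`.
(3) If `f` commutes with `A, B` and `g = B A⁻¹ B⁻¹ A`, then `|N (f^m g)² - N (f^m)²| ≤ C` for all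
`m : ℕ`: put `c_n k = d x (f^n k x)² - d x (f^n x)²` for `k` commuting with `f`; `quad` gives
`|c_n (k l) - c_n k - c_n l| ≤ d x (k x)² + d x (l x)²`, so `|c_n g| ≤ C₀` uniformly in `n` (also
`c_n 1 = 0`), and `|c_n (g^(2^j))| ≤ C 4^j` by doubling; take `n = m 2^j`, divide by `4^j`.
(4) From `fw`: `b = 0`; from `fv fw⁻¹` with `f = fw`: `a + 2b(m-1) + c(1-2m)` bounded, so `c = 0`. -/
theorem grp {X : Type} [Nonempty X] {d : X → X → ℝ} (h : CN d) (fv fw A B C D : Equiv.Perm X)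
    (hiso : ∀ g ∈ [fv, fw, A, B, C, D], ∀ a b, d (g a) (g b) = d a b)
    (hc : fv * fw = fw * fv) (hA : A * fv = fv * A) (hB : B * fv = fv * B)
    (hv : fw = B * A⁻¹ * B⁻¹ * A) (hC : C * fw = fw * C) (hD : D * fw = fw * D)
    (hw : fv * fw⁻¹ = D * C⁻¹ * D⁻¹ * C) (r : ℝ) (hr : 0 < r) : ∃ a, d a (fw a) < r := by
  by_contra hne
  push Not at hne
  obtain ⟨x⟩ := ‹Nonempty X›
  have iv : GrpIso d fv := hiso fv (by simp)
  have iw : GrpIso d fw := hiso fw (by simp)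
  have iA : GrpIso d A := hiso A (by simp)
  have iB : GrpIso d B := hiso B (by simp)
  have iC : GrpIso d C := hiso C (by simp)
  have iD : GrpIso d D := hiso D (by simp)
  have cvw : Commute fv fw := hc
  obtain ⟨C₁, h₁⟩ := grp_comm_bound h x iv iA iB hA.symm hB.symm
  rw [← hv] at h₁
  obtain ⟨C₂, h₂⟩ := grp_comm_bound h x iw iC iD hC.symm hD.symm
  rw [← hw] at h₂
  have e1 := grp_orth h x iv iw cvw h₁
  have e2 := grp_orth h x iw (iv.mul iw.inv)
    (cvw.symm.mul_right (Commute.refl fw).inv_right) h₂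
  have e3 := grp_par h x iv iw cvw
  have e4 : fw * (fv * fw⁻¹) = fv := by rw [← mul_assoc, ← hc]; group
  rw [e4] at e2
  have e5 := grpN_ge h x iw hne
  nlinarith

end Crest.Agent.R244
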