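import Crest.Agent.R244.Geo1
import Crest.Agent.R244.Data1

/-! # R244: charts of the model -/

open scoped ContDiff Topology Manifold
open Set Filter
open Crest.GeometryTopology.CoordMetric

noncomputable section

namespace Crest.Agent.R244

set_option linter.unusedSectionVars false
set_option linter.unusedVariables false

/-- a metric atlas on the glued manifold carrying the model metric -/
structure Model (P : Prof) {M : Type} [TopologicalSpace M] (𝒜 : MA M) (π : Fin 3 → E → M)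
    (ι : M → Fin 3) : Prop where
  glued : Glued P.O P.R π ι 𝒜.φ
  hb : ∀ x, ∀ y ∈ (𝒜.φ x).target, 𝒜.b x y = bil (P.G (ι x)) y

/-- a constant metric has vanishing Christoffel symbols (`compat`, `pos`) -/
theorem LM.flat {U : Set E} {b : E → Bil} {Γ : E → Con} (h : LM U b Γ) {b0 : Bil}
    (hb : ∀ y ∈ U, b y = b0) {y : E} (hy : y ∈ U) : Γ y = 0 ∧ fderiv ℝ Γ y = 0 := by
  have key : ∀ z ∈ U, Γ z = 0 := by
    intro z hz
    have h1 : b =ᶠ[𝓝 z] fun _ => b0 := Filter.mem_of_superset (h.isOpen.mem_nhds hz) hb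
    have h2 : fderiv ℝ b z = 0 := by rw [h1.fderiv_eq, fderiv_fun_const]; rfl
    ext1 u
    ext1 v
    by_contra hne
    have h3 := h.compat z hz u v (Γ z u v)
    have h4 := h.pos z hz _ hne
    rw [h2] at h3
    simp only [zero_apply, add_zero, sub_zero] at h3
    linarith
  refine ⟨key y hy, ?_⟩
  have h1 : Γ =ᶠ[𝓝 y] fun _ => 0 := Filter.mem_of_superset (h.isOpen.mem_nhds hy) key
  rw [h1.fderiv_eq, fderiv_fun_const]
  rfl

theorem model_latN_sub {P : Prof} {z z' : E} (h : P.LatN z) (h' : P.LatN z') : P.LatN (z - z') := by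
  obtain ⟨h0, m, k, h1, h2⟩ := h
  obtain ⟨h0', m', k', h1', h2'⟩ := h'
  refine ⟨?_, m - m', k - k', ?_, ?_⟩
  · rw [PiLp.sub_apply, h0, h0', sub_zero]
  · rw [PiLp.sub_apply, h1, h1']; push_cast; ring
  · rw [PiLp.sub_apply, h2, h2']; push_cast; ring

namespace Model

variable {P : Prof} {M : Type} [TopologicalSpace M] {𝒜 : MA M} {π : Fin 3 → E → M}
  {ι : M → Fin 3}

theorem rel (h : Model P 𝒜 π ι) {x x' q : M} (hq : q ∈ (𝒜.φ x).source)
    (hq' : q ∈ (𝒜.φ x').source) : P.R (ι x, 𝒜.φ x q) (ι x', 𝒜.φ x' q) := by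
  obtain ⟨h1, h2⟩ := h.glued.chart x _ ((𝒜.φ x).map_source hq)
  obtain ⟨h3, h4⟩ := h.glued.chart x' _ ((𝒜.φ x').map_source hq')
  rw [← h.glued.eq_iff _ _ _ _ h1 h3, ← h2, ← h4, (𝒜.φ x).left_inv hq, (𝒜.φ x').left_inv hq']

/-- The clamped neck coordinate.  Recipe: `F i y = ![-2, max (-2) (min 2 (y 0)), 2] i` is invariant
under `R` (`lt_of_R10`, `lt_of_R12`, `R_symm`); `r̂ q = F (ι q) (φ q q)`; it equals `F (ι x) ∘ φ x` on
the source of `φ x`, hence is continuous. -/
theorem exists_rhat (h : Model P 𝒜 π ι) : ∃ rh : M → ℝ, Continuous rh ∧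
    ∀ x, ∀ q ∈ (𝒜.φ x).source, (ι x = 1 → rh q = max (-2) (min 2 (𝒜.φ x q 0))) ∧
      (ι x ≠ 1 → |rh q| = 2) := by
  let F : Fin 3 → E → ℝ := fun i y => ![-2, max (-2) (min 2 (y 0)), 2] i
  have hF : ∀ i, Continuous (F i) := by
    intro i
    fin_cases i
    · exact continuous_const
    · exact continuous_const.max (continuous_const.min (by fun_prop))
    · exact continuous_const
  have h10 : ∀ z u, P.R (1, z) (0, u) → F 1 z = F 0 u := fun z u hr => by
    have := P.lt_of_R10 hr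
    change max (-2) (min 2 (z 0)) = -2
    rw [min_eq_right (by linarith), max_eq_left this.le]
  have h12 : ∀ z u, P.R (1, z) (2, u) → F 1 z = F 2 u := fun z u hr => by
    have := P.lt_of_R12 hr
    change max (-2) (min 2 (z 0)) = 2
    rw [min_eq_left this.le, max_eq_right (by norm_num)]
  have hinv : ∀ i j y y', P.R (i, y) (j, y') → F i y = F j y' := by
    intro i j y y' hr
    fin_cases i <;> fin_cases j
    · rfl
    · exact (h10 _ _ (P.R_symm _ _ hr)).symm
    · exact absurd hr (P.R02 _ _)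
    · exact h10 _ _ hr
    · have h0 : y' 0 - y 0 = 0 := ((P.R11 _ _).1 hr).2.2.1
      change max (-2) (min 2 (y 0)) = max (-2) (min 2 (y' 0))
      rw [sub_eq_zero.1 h0]
    · exact h12 _ _ hr
    · exact absurd hr (P.R20 _ _)
    · exact (h12 _ _ (P.R_symm _ _ hr)).symm
    · rfl
  have hloc : ∀ x, ∀ q ∈ (𝒜.φ x).source, F (ι q) (𝒜.φ q q) = F (ι x) (𝒜.φ x q) :=
    fun x q hq => hinv _ _ _ _ (h.rel (𝒜.mem q) hq)
  refine ⟨fun q => F (ι q) (𝒜.φ q q), continuous_iff_continuousAt.2 fun x => ?_, fun x q hq => ?_⟩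
  · refine ((hF (ι x)).continuousAt.comp ((𝒜.φ x).continuousAt (𝒜.mem x))).congr ?_
    filter_upwards [(𝒜.φ x).open_source.mem_nhds (𝒜.mem x)] with q hq
    exact (hloc x q hq).symm
  · simp only
    rw [hloc x q hq]
    generalize ι x = i
    fin_cases i
    · exact ⟨fun h => absurd h (by decide), fun _ => by simp [F]⟩
    · exact ⟨fun _ => rfl, fun h => absurd rfl h⟩
    · exact ⟨fun h => absurd h (by decide), fun _ => by simp [F]⟩

/-- transitions between neck charts are locally translations (`rel`, `latN_eventually_eq_zero`) -/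
theorem transl (h : Model P 𝒜 π ι) {x x' q : M} (hx : ι x = 1) (hx' : ι x' = 1)
    (hq : q ∈ (𝒜.φ x).source) (hq' : q ∈ (𝒜.φ x').source) :
    ∃ l : E, l 0 = 0 ∧ (𝒜.φ x' ∘ (𝒜.φ x).symm) =ᶠ[𝓝 (𝒜.φ x q)] fun z => z + l := by
  have hlat : ∀ p, p ∈ (𝒜.φ x).source → p ∈ (𝒜.φ x').source →
      P.LatN (𝒜.φ x' p - 𝒜.φ x p) := by
    intro p hp hp'
    have := h.rel hp hp'
    rw [hx, hx'] at this
    exact this.2.2
  refine ⟨𝒜.φ x' q - 𝒜.φ x q, (hlat q hq hq').1, ?_⟩
  have ht := (𝒜.φ x).map_source hq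
  have h1 : ∀ᶠ z in 𝓝 (𝒜.φ x q), (𝒜.φ x).symm z ∈ (𝒜.φ x').source := by
    refine ((𝒜.φ x).continuousAt_symm ht).eventually ?_
    rw [(𝒜.φ x).left_inv hq]
    exact (𝒜.φ x').open_source.mem_nhds hq'
  have h2 : Tendsto (fun z => (𝒜.φ x' ∘ (𝒜.φ x).symm) z - z - (𝒜.φ x' q - 𝒜.φ x q))
      (𝓝 (𝒜.φ x q)) (𝓝 0) := by
    have := ((MA.geo1_tr_diff hq hq').continuousAt.tendsto.sub tendsto_id).sub_const
      (𝒜.φ x' q - 𝒜.φ x q)
    rwa [MA.geo1_tr_apply hq, sub_self] at this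
  filter_upwards [h1, (𝒜.φ x).open_target.mem_nhds ht, h2.eventually P.latN_eventually_eq_zero]
    with z hz hz' hz''
  have h3 := hlat _ ((𝒜.φ x).map_target hz') hz
  rw [(𝒜.φ x).right_inv hz'] at h3
  have h4 := hz'' (model_latN_sub h3 (hlat q hq hq'))
  rw [sub_sub, sub_eq_zero] at h4
  exact h4

theorem flat (h : Model P 𝒜 π ι) {x : M} (hx : ι x ≠ 1) {y : E} (hy : y ∈ (𝒜.φ x).target) :
    𝒜.Γ x y = 0 ∧ fderiv ℝ (𝒜.Γ x) y = 0 := by
  refine (𝒜.lm x).flat (b0 := bil (fun _ => (1 : Matrix (Fin 3) (Fin 3) ℝ)) 0) (fun z hz => ?_) hy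
  rw [h.hb x z hz]
  revert hx
  generalize ι x = i
  intro hx
  fin_cases i
  · rfl
  · exact absurd rfl hx
  · rfl

/-- Recipe: `c t = π 2 (fib t)`, `fib t ∈ O 2` (`mem_holes`).  If `c t ∈ source (φ x)` then
`R (2, fib t) (ι x, φ x (c t))`, so `ι x = 2` (`R20`; for `ι x = 1`, `fib t - PW z ∈ Lat` is impossible
as `|PW z 0| ≤ H 3 < Λ/2`), and `φ x ∘ c = fib + l` near `t` (`Lat.eventually_eq_zero`); `flat`. -/
theorem fibre (h : Model P 𝒜 π ι) :
    𝒜.IsGeo (fun t => π 2 (P.fib t)) ∧ 𝒜.vel (fun t => π 2 (P.fib t)) 0 ≠ 0 := by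
  have hΛ := P.Λ_pos
  have hT : 0 < 2 * Real.pi * P.ε := mul_pos (mul_pos two_pos Real.pi_pos) P.hε
  have hH : 2 * P.H 2 < P.Λ := by
    have := P.H_mono (show (2 : ℝ) ≤ 3 by norm_num)
    have := P.ΛH
    linarith
  have hO : ∀ t, P.fib t ∈ P.O 2 := by
    intro t
    have h0 : P.fib t 0 = P.Λ / 2 := rfl
    have h1 : P.fib t 1 = P.Λ / 2 := rfl
    have hp := P.H_pos 2
    refine mem_holes hp.le hH ?_ ?_ ?_
    · rw [h0, abs_of_pos (by linarith)]
    · rw [h1, abs_of_pos (by linarith)]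
    · rw [h0, h1]; nlinarith
  set v : E := !₂[0, 0, 2 * Real.pi * P.ε] with hv
  have hfib : ∀ t, P.fib t = P.fib 0 + t • v := by
    intro t
    ext i
    fin_cases i <;> simp [Prof.fib, hv, mul_comm]
  have hder : ∀ (l : E) t, HasDerivAt (fun s => P.fib s + l) v t := by
    intro l t
    have := (((hasDerivAt_id t).smul_const v).const_add (P.fib 0)).add_const l
    rw [one_smul] at this
    refine this.congr_of_eventuallyEq (Eventually.of_forall fun s => ?_)
    simp only [id]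
    rw [← hfib]
  have hfc : Continuous P.fib := by
    rw [show P.fib = fun t => P.fib 0 + t • v from funext hfib]
    fun_prop
  have hc : Continuous fun t => π 2 (P.fib t) := (h.glued.cont 2).comp_continuous hfc hO
  have hrel : ∀ x t, π 2 (P.fib t) ∈ (𝒜.φ x).source →
      P.R (2, P.fib t) (ι x, 𝒜.φ x (π 2 (P.fib t))) := by
    intro x t ht
    obtain ⟨h1, h2⟩ := h.glued.chart x _ ((𝒜.φ x).map_source ht)
    rw [← h.glued.eq_iff _ _ _ _ (hO t) h1, ← h2, (𝒜.φ x).left_inv ht]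
  have hι : ∀ x t, π 2 (P.fib t) ∈ (𝒜.φ x).source → ι x = 2 := by
    intro x t ht
    have hr := hrel x t ht
    revert hr
    generalize ι x = i
    generalize 𝒜.φ x (π 2 (P.fib t)) = z
    intro hr
    fin_cases i
    · exact absurd hr (P.R20 _ _)
    · exfalso
      obtain ⟨-, hz, n, m, k, h0, -, -⟩ := (P.R21 _ _).1 hr
      have hz3 : z 0 ≤ 3 := (abs_lt.1 hz).2.le
      have e : P.Λ / 2 - P.H (z 0) * Real.cos (z 1) = P.Λ * n := h0
      have h1 := P.H_mono hz3
      have h2 := P.ΛH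
      have h3 := P.H_pos (z 0)
      have h4 := Real.cos_le_one (z 1)
      have h5 := Real.neg_one_le_cos (z 1)
      have h6 : (0 : ℝ) < n := by
        by_contra hn
        push Not at hn
        nlinarith
      have h7 : (n : ℝ) < 1 := by
        by_contra hn
        push Not at hn
        nlinarith
      have h8 : (0 : ℤ) < n := by exact_mod_cast h6
      have h9 : n < (1 : ℤ) := by exact_mod_cast h7
      omega
    · rfl
  have hloc : ∀ x t, π 2 (P.fib t) ∈ (𝒜.φ x).source → ∃ l : E,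
      (𝒜.φ x ∘ fun t => π 2 (P.fib t)) =ᶠ[𝓝 t] fun s => P.fib s + l := by
    intro x t ht
    have hlat : ∀ s, π 2 (P.fib s) ∈ (𝒜.φ x).source →
        Lat P.Λ (2 * Real.pi * P.ε) (𝒜.φ x (π 2 (P.fib s)) - P.fib s) := by
      intro s hs
      have := hrel x s hs
      rw [hι x s hs] at this
      exact this.2.2
    refine ⟨𝒜.φ x (π 2 (P.fib t)) - P.fib t, ?_⟩
    have h2 : Tendsto (fun s => 𝒜.φ x (π 2 (P.fib s)) - P.fib s - (𝒜.φ x (π 2 (P.fib t)) - P.fib t))
        (𝓝 t) (𝓝 0) := by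
      have h3 : ContinuousAt (fun s => 𝒜.φ x (π 2 (P.fib s))) t :=
        ContinuousAt.comp (f := fun s => π 2 (P.fib s)) ((𝒜.φ x).continuousAt ht) hc.continuousAt
      have := (h3.sub hfc.continuousAt).tendsto.sub_const (𝒜.φ x (π 2 (P.fib t)) - P.fib t)
      simpa using this
    filter_upwards [hc.continuousAt.eventually ((𝒜.φ x).open_source.mem_nhds ht),
      h2.eventually (Lat.eventually_eq_zero hΛ hT)] with s hs hs'
    have h4 := hs' ((hlat s hs).sub (hlat t ht))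
    rw [sub_sub, sub_eq_zero] at h4
    exact h4
  have hd : ∀ l : E, deriv (fun s => P.fib s + l) = fun _ => v := fun l =>
    funext fun t => (hder l t).deriv
  refine ⟨⟨hc.continuousOn, fun x t _ ht => ?_⟩, ?_⟩
  · obtain ⟨l, hl⟩ := hloc x t ht
    have hne : ι x ≠ 1 := by rw [hι x t ht]; decide
    refine ⟨ContDiffAt.congr_of_eventuallyEq ?_ hl, ?_⟩
    · rw [show P.fib = fun t => P.fib 0 + t • v from funext hfib]
      fun_prop
    · rw [hl.deriv.deriv_eq, hd, deriv_const,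
        show 𝒜.Γ x ((𝒜.φ x ∘ fun t => π 2 (P.fib t)) t) = 0 from
          (h.flat hne ((𝒜.φ x).map_source ht)).1]
      simp
  · obtain ⟨l, hl⟩ := hloc (π 2 (P.fib 0)) 0 (𝒜.mem _)
    rw [MA.vel, hl.deriv_eq, hd]
    intro h0
    have : v 2 = 0 := by rw [show v = 0 from h0]; rfl
    exact hT.ne' this

end Model

end Crest.Agent.R244
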