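import Crest.Agent.R244.NeckCross

/-! # R244: every passage through the zone; the global argument -/

open scoped ContDiff Topology Manifold
open Set Filter
open Crest.GeometryTopology.CoordMetric

noncomputable section

namespace Crest.Agent.R244

set_option linter.unusedSectionVars false
set_option linter.unusedVariables false

/-- Gronwall in both directions -/
theorem neck_gronwall {f f' : ℝ → ℝ × ℝ} {t1 t2 t0 K : ℝ} (h0 : t0 ∈ Icc t1 t2)
    (hf : ∀ t ∈ Icc t1 t2, HasDerivAt f (f' t) t) (hb : ∀ t ∈ Icc t1 t2, ‖f' t‖ ≤ K * ‖f t‖)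
    (hz : f t0 = 0) : ∀ t ∈ Icc t1 t2, f t = 0 := by
  intro t ht
  rcases le_total t0 t with h | h
  · have hs : Icc t0 t ⊆ Icc t1 t2 := Icc_subset_Icc h0.1 ht.2
    exact eq_zero_of_abs_deriv_le_mul_abs_self_of_eq_zero_right (f := f) (f' := f') (K := K)
      (fun u hu => (hf u (hs hu)).continuousAt.continuousWithinAt)
      (fun u hu => (hf u (hs (Ico_subset_Icc_self hu))).hasDerivWithinAt) hz
      (fun u hu => hb u (hs (Ico_subset_Icc_self hu))) t (right_mem_Icc.2 h)
  · have hs : ∀ u ∈ Icc (-t0) (-t), -u ∈ Icc t1 t2 := fun u hu =>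
      ⟨by linarith [hu.2, ht.1], by linarith [hu.1, h0.2]⟩
    have hd : ∀ u ∈ Icc (-t0) (-t), HasDerivAt (fun u => f (-u)) (-f' (-u)) u := fun u hu => by
      have := (hf _ (hs u hu)).scomp u (hasDerivAt_neg u)
      rwa [neg_one_smul] at this
    have := eq_zero_of_abs_deriv_le_mul_abs_self_of_eq_zero_right (f := fun u => f (-u))
      (f' := fun u => -f' (-u)) (K := K) (a := -t0) (b := -t)
      (fun u hu => (hd u hu).continuousAt.continuousWithinAt)
      (fun u hu => (hd u (Ico_subset_Icc_self hu)).hasDerivWithinAt) (by simpa using hz)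
      (fun u hu => by rw [norm_neg]; exact hb _ (hs u (Ico_subset_Icc_self hu))) (-t)
      (right_mem_Icc.2 (neg_le_neg h))
    simpa using this

/-- a turning motion stays on the side of the turning point -/
theorem neck_turn {V W r : ℝ → ℝ} {t1 t2 t0 d : ℝ} (hV : ∀ x, HasDerivAt V (W x) x)
    (hW : Continuous W) (hA : AntitoneOn W (Icc (-d) d)) (hr : ContinuousOn r (Icc t1 t2))
    (hz : ∀ t ∈ Icc t1 t2, r t ∈ Icc (-d) d) (h0 : t0 ∈ Icc t1 t2)
    (hE : ∀ t ∈ Icc t1 t2, V (r t) ≤ V (r t0)) (hpos : 0 < W (r t0)) :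
    ∀ t ∈ Icc t1 t2, 0 < W (r t) := by
  intro t ht
  by_contra hneg
  push Not at hneg
  obtain ⟨u, hu, h1⟩ := isPreconnected_Icc.intermediate_value ht h0
    (hW.comp_continuousOn hr)
    (⟨by linarith, by linarith⟩ : W (r t0) / 2 ∈ Icc (W (r t)) (W (r t0)))
  simp only [Function.comp] at h1
  have h2 : r t0 < r u := by
    by_contra h
    push Not at h
    have := hA (hz u hu) (hz t0 h0) h
    linarith
  obtain ⟨c, hc, h3⟩ := exists_hasDerivAt_eq_slope V W h2
    (fun x _ => (hV x).continuousAt.continuousWithinAt) fun x _ => hV x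
  have h4 : W (r u) ≤ W c :=
    hA ⟨(hz t0 h0).1.trans hc.1.le, hc.2.le.trans (hz u hu).2⟩ (hz u hu) hc.2.le
  have h5 : (V (r u) - V (r t0)) / (r u - r t0) ≤ 0 :=
    div_nonpos_of_nonpos_of_nonneg (sub_nonpos.2 (hE u hu)) (sub_nonneg.2 h2.le)
  linarith

/-- the four kinds of motion in a concave potential -/
theorem neck_cases {V W r v : ℝ → ℝ} {t1 t2 d : ℝ} (hV : ∀ x, HasDerivAt V (W x) x)
    (hW : ContDiff ℝ 1 W) (hW' : ∀ x ∈ Icc (-d) d, deriv W x ≤ 0)
    (hr : ∀ t ∈ Icc t1 t2, HasDerivAt r (v t) t)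
    (hv : ∀ t ∈ Icc t1 t2, HasDerivAt v (-(1 / 2) * W (r t)) t)
    (hz : ∀ t ∈ Icc t1 t2, |r t| ≤ d) :
    (∀ t ∈ Icc t1 t2, v t ≠ 0) ∨ (∀ t ∈ Icc t1 t2, 0 < W (r t)) ∨
      (∀ t ∈ Icc t1 t2, W (r t) < 0) ∨ ∀ t ∈ Icc t1 t2, v t = 0 ∧ W (r t) = 0 := by
  by_cases h : ∀ t ∈ Icc t1 t2, v t ≠ 0
  · exact Or.inl h
  right
  push Not at h
  obtain ⟨t0, h0, hv0⟩ := h
  have hz' : ∀ t ∈ Icc t1 t2, r t ∈ Icc (-d) d := fun t ht => abs_le.1 (hz t ht)
  have hrc : ContinuousOn r (Icc t1 t2) := fun t ht => (hr t ht).continuousAt.continuousWithinAt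
  have hA : AntitoneOn W (Icc (-d) d) :=
    antitoneOn_of_deriv_nonpos (convex_Icc _ _) hW.continuous.continuousOn
      (hW.differentiable one_ne_zero).differentiableOn fun x hx => hW' x (interior_subset hx)
  have hd : ∀ t ∈ Icc t1 t2, HasDerivAt (fun t => v t ^ 2 + V (r t)) 0 t := fun t ht => by
    have := ((hv t ht).pow 2).add ((hV (r t)).comp t (hr t ht))
    refine this.congr_deriv ?_
    simp only [Nat.cast_ofNat, Nat.add_one_sub_one, pow_one]
    ring
  have hc := constant_of_has_deriv_right_zero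
    (fun t ht => (hd t ht).continuousAt.continuousWithinAt)
    (fun t ht => (hd t (Ico_subset_Icc_self ht)).hasDerivWithinAt)
  have hE : ∀ t ∈ Icc t1 t2, V (r t) ≤ V (r t0) := fun t ht => by
    have h1 := hc t ht
    have h2 := hc t0 h0
    rw [hv0] at h2
    nlinarith [sq_nonneg (v t)]
  rcases lt_trichotomy 0 (W (r t0)) with hp | hp | hp
  · exact Or.inl (neck_turn hV hW.continuous hA hrc hz' h0 hE hp)
  · refine Or.inr (Or.inr ?_)
    obtain ⟨L, hL⟩ := (hW.locallyLipschitz.locallyLipschitzOn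
      (s := Icc (-d) d)).exists_lipschitzOnWith_of_compact isCompact_Icc
    have key := neck_gronwall (f := fun t => (r t - r t0, v t))
      (f' := fun t => (v t, -(1 / 2) * W (r t))) (K := L + 1) h0
      (fun t ht => ((hr t ht).sub_const _).prodMk (hv t ht)) (fun t ht => by
        have h1 := hL.dist_le_mul _ (hz' t ht) _ (hz' t0 h0)
        rw [← hp, Real.dist_eq, Real.dist_eq, sub_zero] at h1
        have h2 : |r t - r t0| ≤ ‖(r t - r t0, v t)‖ := norm_fst_le (r t - r t0, v t)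
        have h3 : |v t| ≤ ‖(r t - r t0, v t)‖ := norm_snd_le (r t - r t0, v t)
        have h4 := L.2
        have h5 := norm_nonneg (r t - r t0, v t)
        have h6 : (L : ℝ) * |r t - r t0| ≤ L * ‖(r t - r t0, v t)‖ :=
          mul_le_mul_of_nonneg_left h2 h4
        have h7 := abs_nonneg (W (r t))
        refine norm_prod_le_iff.2 ⟨?_, ?_⟩
        · change |v t| ≤ _
          nlinarith
        · change |-(1 / 2) * W (r t)| ≤ _
          rw [abs_mul, abs_neg, abs_of_pos (by norm_num : (0 : ℝ) < 1 / 2)]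
          nlinarith) (by simp [hv0])
    intro t ht
    have h1 := key t ht
    rw [Prod.mk_eq_zero, sub_eq_zero] at h1
    exact ⟨h1.2, by rw [h1.1, ← hp]⟩
  · refine Or.inr (Or.inl fun t ht => ?_)
    have := neck_turn (V := fun x => V (-x)) (W := fun x => -W (-x)) (r := fun t => -r t) (d := d)
      (fun x => by
        have := (hV (-x)).scomp x (hasDerivAt_neg x)
        rwa [neg_one_smul] at this)
      (hW.continuous.comp continuous_neg).neg
      (fun x hx y hy hxy => neg_le_neg (hA ⟨by linarith [hy.2], by linarith [hy.1]⟩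
        ⟨by linarith [hx.2], by linarith [hx.1]⟩ (neg_le_neg hxy))) hrc.neg
      (fun t ht => ⟨by linarith [(hz' t ht).2], by linarith [(hz' t ht).1]⟩) h0
      (by simpa using hE) (by simpa using hp) t ht
    simpa using this

theorem neck_hasDerivAt_qf {a c b : ℝ → ℝ} {x : ℝ} (ha : DifferentiableAt ℝ a x)
    (hc : DifferentiableAt ℝ c x) (hb : DifferentiableAt ℝ b x) (p q : ℝ) :
    HasDerivAt (fun x => qf (a x) (c x) (b x) p q)
      (qf (deriv a x) (deriv c x) (deriv b x) p q) x := by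
  unfold qf
  exact ((ha.hasDerivAt.mul_const _).add
    (((hc.hasDerivAt.const_mul 2).mul_const p).mul_const q)).add (hb.hasDerivAt.mul_const _)

namespace Prof

variable {P : Prof} {s : ℝ → St} {t1 t2 : ℝ}

/-- Recipe: `p`, `q` are constant on `[t1,t2]` (`constant_of_has_deriv_right_zero`), `V r = qf .. p q`
has `V' = V1`, `V'' = V2 ≤ 0` on `[-δ',δ']` (so `V1` is antitone there), and `v² + V(r)` is constant.
If `v` never vanishes: `cross`.  Else `v t0 = 0`, `r0 = r t0`, `V (r t) ≤ V r0` for all `t`.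
* `V1 r0 > 0`: `V > V r0` on some `(r0, r0+η)`, so `r t ≤ r0` for all `t` (IVT), hence
  `V1 (r t) ≥ V1 r0 > 0`: `turnY`.  `V1 r0 < 0`: `turnX`.
* `V1 r0 = 0`: `(r, v)` and the constant `(r0, 0)` solve `(r,v)' = (v, -V1 r/2)`, Lipschitz on
  `[-δ',δ'] × ℝ` (`ODE_solution_unique_of_mem_Icc_right/left`, or Gronwall on `(r-r0)² + v²` with
  `|V1 r| ≤ L |r - r0|`): `equil`. -/
theorem Pass.concl (h : P.Pass s t1 t2) : P.Concl s t2 := by
  have hp : ∀ t ∈ Icc t1 t2, (s t).p = (s t1).p := constant_of_has_deriv_right_zero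
    (fun t ht => (h.ode t ht).p.continuousAt.continuousWithinAt)
    (fun t ht => (h.ode t (Ico_subset_Icc_self ht)).p.hasDerivWithinAt)
  have hq : ∀ t ∈ Icc t1 t2, (s t).q = (s t1).q := constant_of_has_deriv_right_zero
    (fun t ht => (h.ode t ht).q.continuousAt.continuousWithinAt)
    (fun t ht => (h.ode t (Ico_subset_Icc_self ht)).q.hasDerivWithinAt)
  have hα := (contDiff_infty_iff_deriv.1 P.α_smooth).2
  have hγ := (contDiff_infty_iff_deriv.1 P.γ_smooth).2
  have hβ := (contDiff_infty_iff_deriv.1 P.β_smooth).2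
  have hd : ∀ {f : ℝ → ℝ}, ContDiff ℝ ∞ f → ∀ x, DifferentiableAt ℝ f x := fun hf x =>
    hf.differentiable (by simp) x
  have hW : ContDiff ℝ 1 fun x => P.V1 x (s t1).p (s t1).q := by
    have h1 : ContDiff ℝ ∞ fun x => P.V1 x (s t1).p (s t1).q := by
      unfold V1 qf
      fun_prop
    exact h1.of_le (by simp)
  rcases neck_cases (V := fun x => qf (P.α x) (P.γ x) (P.β x) (s t1).p (s t1).q)
    (W := fun x => P.V1 x (s t1).p (s t1).q) (r := fun t => (s t).r) (v := fun t => (s t).v)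
    (d := P.δ') (fun x => neck_hasDerivAt_qf (hd P.α_smooth x) (hd P.γ_smooth x)
      (hd P.β_smooth x) _ _) hW (fun x hx => by
        have := (neck_hasDerivAt_qf (hd hα x) (hd hγ x) (hd hβ x) (s t1).p (s t1).q).deriv
        unfold V1
        rw [this]
        exact P.conc x hx _ _) (fun t ht => (h.ode t ht).r)
    (fun t ht => by have := (h.ode t ht).v; rwa [hp t ht, hq t ht] at this) h.zone with
    h1 | h1 | h1 | h1
  · exact h.cross h1
  · exact h.turnY fun t ht => by rw [hp t ht, hq t ht]; exact h1 t ht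
  · exact h.turnX fun t ht => by rw [hp t ht, hq t ht]; exact h1 t ht
  · exact h.equil fun t ht => by rw [hp t ht, hq t ht]; exact h1 t ht

end Prof

/-- Recipe.  Step: let `t > a` and suppose `(*) δ' ≤ |r s| → 0 ≤ Q s` for all `s ∈ [a,t)`; then
`¬ Z t` and `(*)` holds at `t`.  Indeed let `T = {s ∈ [a,t) | δ' ≤ |r s|}`.  If `T = ∅`: `hP a t`.  If
`t1 = sSup T < t`: `δ' ≤ |r t1|`, `|r| < δ'` on `(t1,t)`, so `|r t1| = δ'`, `0 ≤ Q t1`: `hP t1 t`.  If
`sSup T = t`: `0 ≤ Q t` by continuity, `δ' ≤ |r t|`, and `Z t` would give `Q t = 0 < Q'`, so `Q < 0`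
just before `t`, contradiction.  `(*)` on `[a,∞)`: let `t*` be the infimum of the bad set; `δ' ≤ |r t*|`,
`0 ≤ Q t*` (`hZ` if `t* = a`, else the step), and `Q` is monotone near `t*` by `hO`. -/
theorem glob {r Q : ℝ → ℝ} {Z : ℝ → Prop} {δ δ' : ℝ} (hδ : δ < δ') (hr : Continuous r)
    (hQ : Continuous Q) (hZ : ∀ t, Z t → Q t = 0)
    (hO : ∀ t, δ < |r t| → ∃ Q', HasDerivAt Q Q' t ∧ 0 ≤ Q' ∧ (Z t → 0 < Q'))
    (hP : ∀ t1 t2, t1 < t2 → (∀ t ∈ Icc t1 t2, |r t| ≤ δ') →
      (Z t1 ∨ (|r t1| = δ' ∧ 0 ≤ Q t1)) → ¬ Z t2 ∧ (δ ≤ |r t2| → 0 ≤ Q t2))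
    {a b : ℝ} (hab : a < b) (ha : Z a) : ¬ Z b := by
  have hcl : IsClosed {s | δ' ≤ |r s|} := isClosed_le continuous_const hr.abs
  have hcl' : IsClosed {s | |r s| ≤ δ'} := isClosed_le hr.abs continuous_const
  have hclQ : IsClosed {s | 0 ≤ Q s} := isClosed_le continuous_const hQ
  have hin : ∀ t1 t, t1 < t → (∀ s ∈ Ioo t1 t, |r s| < δ') → ∀ s ∈ Icc t1 t, |r s| ≤ δ' := by
    intro t1 t h h1
    rw [← closure_Ioo h.ne]
    exact closure_minimal (fun s hs => (h1 s hs).le) hcl'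
  have step : ∀ t, a < t → (∀ s ∈ Ico a t, δ' ≤ |r s| → 0 ≤ Q s) →
      ¬ Z t ∧ (δ' ≤ |r t| → 0 ≤ Q t) := by
    intro t hat hg
    set T := {s ∈ Ico a t | δ' ≤ |r s|} with hT
    rcases T.eq_empty_or_nonempty with he | hne
    · have h1 := hP a t hat (hin a t hat fun s hs => by
        by_contra h
        have : s ∈ T := ⟨Ioo_subset_Ico_self hs, not_lt.1 h⟩
        rw [he] at this
        exact this) (Or.inl ha)
      exact ⟨h1.1, fun h => h1.2 (hδ.le.trans h)⟩
    have hbd : BddAbove T := ⟨t, fun s hs => hs.1.2.le⟩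
    have hmem : sSup T ∈ closure T := csSup_mem_closure hne hbd
    have h1 : δ' ≤ |r (sSup T)| := closure_minimal (fun s hs => hs.2) hcl hmem
    have h2 : 0 ≤ Q (sSup T) := closure_minimal (fun s hs => hg s hs.1 hs.2) hclQ hmem
    have h3 : sSup T ≤ t := csSup_le hne fun s hs => hs.1.2.le
    rcases h3.lt_or_eq with h3 | h3
    · obtain ⟨s0, hs0⟩ := hne
      have h4 : a ≤ sSup T := hs0.1.1.trans (le_csSup hbd hs0)
      have h5 := hin _ t h3 fun s hs => by
        by_contra h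
        exact absurd (le_csSup hbd (⟨⟨h4.trans hs.1.le, hs.2⟩, not_lt.1 h⟩ : s ∈ T))
          (not_le.2 hs.1)
      have h6 := hP _ t h3 h5 (Or.inr ⟨le_antisymm (h5 _ (left_mem_Icc.2 h3.le)) h1, h2⟩)
      exact ⟨h6.1, fun h => h6.2 (hδ.le.trans h)⟩
    · rw [h3] at h1 h2 hmem
      refine ⟨fun hz => ?_, fun _ => h2⟩
      obtain ⟨Q', hd, -, hpos⟩ := hO t (hδ.trans_le h1)
      have h4 : ∀ᶠ s in 𝓝[≠] t, 0 < slope Q t s :=
        (hasDerivAt_iff_tendsto_slope.1 hd).eventually (lt_mem_nhds (hpos hz))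
      obtain ⟨s, hs, h5⟩ := ((mem_closure_iff_frequently.1 hmem).and_eventually
        (eventually_nhdsWithin_iff.1 h4)).exists
      have h6 := h5 hs.1.2.ne
      rw [slope_def_field, hZ t hz, sub_zero] at h6
      have h7 := hg s hs.1 hs.2
      have h8 : Q s / (s - t) ≤ 0 := div_nonpos_of_nonneg_of_nonpos h7 (sub_nonpos.2 hs.1.2.le)
      linarith
  have good : ∀ s, a ≤ s → δ' ≤ |r s| → 0 ≤ Q s := by
    by_contra hcon
    set B := {s | a ≤ s ∧ δ' ≤ |r s| ∧ Q s < 0} with hB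
    have hne : B.Nonempty := by
      push Not at hcon
      exact hcon
    have hbd : BddBelow B := ⟨a, fun s hs => hs.1⟩
    have hmem : sInf B ∈ closure B := csInf_mem_closure hne hbd
    have h1 : δ' ≤ |r (sInf B)| := closure_minimal (fun s hs => hs.2.1) hcl hmem
    have h2 : a ≤ sInf B := le_csInf hne fun s hs => hs.1
    have h3 : 0 ≤ Q (sInf B) := by
      rcases h2.eq_or_lt with h2 | h2
      · rw [← h2, hZ a ha]
      · refine (step _ h2 fun s hs h => ?_).2 h1
        by_contra h'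
        exact absurd (csInf_le hbd (⟨hs.1, h, not_le.1 h'⟩ : s ∈ B)) (not_le.2 hs.2)
    have h4 : ∀ᶠ s in 𝓝 (sInf B), δ < |r s| :=
      hr.abs.continuousAt.eventually (lt_mem_nhds (hδ.trans_le h1))
    obtain ⟨η, hη, h5⟩ := Metric.eventually_nhds_iff_ball.1 h4
    obtain ⟨s, hs, h6⟩ := ((mem_closure_iff_frequently.1 hmem).and_eventually
      (Metric.ball_mem_nhds _ hη)).exists
    have h7 : MonotoneOn Q (Metric.ball (sInf B) η) :=
      monotoneOn_of_deriv_nonneg (convex_ball _ _) hQ.continuousOn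
        (fun u hu => by
          obtain ⟨Q', hd, -⟩ := hO u (h5 u (interior_subset hu))
          exact hd.differentiableAt.differentiableWithinAt)
        (fun u hu => by
          obtain ⟨Q', hd, h, -⟩ := hO u (h5 u (interior_subset hu))
          rwa [hd.deriv])
    have h8 := h7 (Metric.mem_ball_self hη) h6 (csInf_le hbd hs)
    linarith [hs.2.2]
  exact (step b hab fun s hs => good s hs.1).1

end Crest.Agent.R244
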