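import Crest.Agent.R244.Defs

/-! # R244: the neck equations, basic identities and the outer zone -/

open scoped ContDiff Topology Manifold
open Set Filter
open Crest.GeometryTopology.CoordMetric

noncomputable section

namespace Crest.Agent.R244

set_option linter.unusedSectionVars false
set_option linter.unusedVariables false

/-- the canonical form `δx · δp` -/
def St.Qc (s : St) : ℝ := s.ρ * s.σ + s.ξ * s.π + s.ζ * s.κ

theorem NeckBase_comp {f r : ℝ → ℝ} {v t : ℝ} (hf : ContDiff ℝ ∞ f) (hr : HasDerivAt r v t) :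
    HasDerivAt (fun s => f (r s)) (deriv f (r t) * v) t :=
  ((contDiff_infty_iff_deriv.1 hf).1 (r t)).hasDerivAt.comp t hr

/-- a function with non-negative derivative -/
theorem mono_conclude {f f' : ℝ → ℝ} {t1 t2 : ℝ} (h12 : t1 < t2)
    (hf : ∀ t ∈ Icc t1 t2, HasDerivAt f (f' t) t) (hpos : ∀ t ∈ Icc t1 t2, 0 ≤ f' t)
    (h1 : 0 ≤ f t1) : 0 ≤ f t2 ∧ (f t2 = 0 → f' t2 = 0) := by
  have hm : MonotoneOn f (Icc t1 t2) := by
    refine monotoneOn_of_hasDerivWithinAt_nonneg (f' := f') (convex_Icc _ _)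
      (fun t ht => (hf t ht).continuousAt.continuousWithinAt)
      (fun t ht => (hf t (interior_subset ht)).hasDerivWithinAt)
      (fun t ht => hpos t (interior_subset ht))
  have a1 : t1 ∈ Icc t1 t2 := left_mem_Icc.2 h12.le
  have a2 : t2 ∈ Icc t1 t2 := right_mem_Icc.2 h12.le
  refine ⟨h1.trans (hm a1 a2 h12.le), fun h0 => ?_⟩
  have hz : ∀ t ∈ Icc t1 t2, f t = 0 := fun t ht =>
    le_antisymm (h0 ▸ hm ht a2 ht.2) (h1.trans (hm a1 ht ht.1))
  have d1 : HasDerivWithinAt f (f' t2) (Icc t1 t2) t2 := (hf t2 a2).hasDerivWithinAt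
  have d2 : HasDerivWithinAt f 0 (Icc t1 t2) t2 :=
    (hasDerivWithinAt_const t2 (Icc t1 t2) (0 : ℝ)).congr hz h0
  exact (uniqueDiffOn_Icc h12 t2 a2).eq_deriv _ d1 d2

/-- `⟨J, DJ⟩'` in `dr² + dξ² + dζ²/f(r)` (the identity is `field_simp; ring`) -/
theorem warped {f r v q ρ σ ζ κ ξ π : ℝ → ℝ} {t : ℝ} (hf : ContDiff ℝ ∞ f) (hpos : 0 < f (r t))
    (hr : HasDerivAt r (v t) t) (hv : HasDerivAt v (-(1 / 2) * deriv f (r t) * q t ^ 2) t)
    (hq : HasDerivAt q 0 t) (hρ : HasDerivAt ρ (σ t) t)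
    (hσ : HasDerivAt σ (-(1 / 2) * deriv (deriv f) (r t) * q t ^ 2 * ρ t
      - deriv f (r t) * q t * κ t) t)
    (hζ : HasDerivAt ζ (f (r t) * κ t + deriv f (r t) * q t * ρ t) t) (hκ : HasDerivAt κ 0 t)
    (hξ : HasDerivAt ξ (π t) t) (hπ : HasDerivAt π 0 t) :
    HasDerivAt (fun s => ρ s * σ s + ξ s * π s + ζ s * κ s
        + ρ s * deriv f (r s) * q s * ζ s / f (r s)
        - 1 / 2 * v s * deriv f (r s) * ζ s ^ 2 / f (r s) ^ 2)
      ((σ t + 1 / 2 * deriv f (r t) / f (r t) * q t * ζ t) ^ 2 + π t ^ 2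
        + (f (r t) * κ t + 1 / 2 * deriv f (r t) * q t * ρ t
            - 1 / 2 * deriv f (r t) / f (r t) * v t * ζ t) ^ 2 / f (r t)
        + (3 * deriv f (r t) ^ 2 - 2 * f (r t) * deriv (deriv f) (r t)) / (4 * f (r t) ^ 3)
          * (ρ t * f (r t) * q t - v t * ζ t) ^ 2) t := by
  have hf1 := NeckBase_comp hf hr
  have hf2 := NeckBase_comp (contDiff_infty_iff_deriv.1 hf).2 hr
  have hne := hpos.ne'
  refine HasDerivAt.congr_deriv
    (((((hρ.fun_mul hσ).fun_add (hξ.fun_mul hπ)).fun_add (hζ.fun_mul hκ)).fun_add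
      ((((hρ.fun_mul hf2).fun_mul hq).fun_mul hζ).fun_div hf1 hne)).fun_sub
      ((((hv.const_mul (1 / 2)).fun_mul hf2).fun_mul (hζ.fun_pow 2)).fun_div (hf1.fun_pow 2)
        (pow_ne_zero 2 hne))) ?_
  norm_num
  field_simp
  ring

namespace Prof

variable (P : Prof)

/-- the state of `J - u ċ` -/
def shift (u : ℝ) (s : St) : St :=
  { s with
    ρ := s.ρ - u * s.v
    σ := s.σ + 1 / 2 * u * P.V1 s.r s.p s.q
    ξ := s.ξ - u * (P.α s.r * s.p + P.γ s.r * s.q)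
    ζ := s.ζ - u * (P.γ s.r * s.p + P.β s.r * s.q) }

theorem Qn_shift (u : ℝ) (s : St) : P.Qn (P.shift u s) = P.Qn s - u * P.dH s := by
  have := (P.D_pos s.r).ne'
  simp only [Prof.Qn, shift, Prof.dH, Prof.V1, qf, Prof.D]
  field_simp
  ring

theorem dH_shift (u : ℝ) (s : St) : P.dH (P.shift u s) = P.dH s := by
  simp only [shift, Prof.dH]
  ring

theorem β_pos (r : ℝ) : 0 < P.β r := by
  have h1 := P.D_pos r; have h2 := P.α_pos r
  by_contra h; push Not at h; nlinarith [sq_nonneg (P.γ r)]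

/-- `h` is positive definite -/
theorem qf_pos (r p q : ℝ) (h : ¬ (p = 0 ∧ q = 0)) : 0 < qf (P.α r) (P.γ r) (P.β r) p q := by
  have h1 := P.D_pos r
  have h2 := P.α_pos r
  have e : P.α r * qf (P.α r) (P.γ r) (P.β r) p q =
      (P.α r * p + P.γ r * q) ^ 2 + (P.α r * P.β r - P.γ r ^ 2) * q ^ 2 := by
    simp only [qf]; ring
  refine (mul_pos_iff_of_pos_left h2).1 ?_
  rw [e]
  by_cases hq : q = 0
  · have hp : p ≠ 0 := fun hp => h ⟨hp, hq⟩
    subst hq
    simp only [mul_zero, add_zero]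
    positivity
  · positivity

theorem qf_nonneg (r p q : ℝ) : 0 ≤ qf (P.α r) (P.γ r) (P.β r) p q := by
  by_cases h : p = 0 ∧ q = 0
  · simp [qf, h.1, h.2]
  · exact (P.qf_pos r p q h).le

/-- in the left zone -/
theorem Qn_left (s : St) (h : s.r ≤ -P.δ) : P.Qn s = s.Qc
    + s.ρ * deriv P.β s.r * s.q * s.ζ / P.β s.r
    - 1 / 2 * s.v * deriv P.β s.r * s.ζ ^ 2 / P.β s.r ^ 2 := by
  obtain ⟨a0, b0, -⟩ := P.left0 _ h
  obtain ⟨a1, b1, -⟩ := P.left1 _ h
  have := (P.β_pos s.r).ne'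
  have hD : P.D s.r = P.β s.r := by
    simp only [Prof.D, a0, b0]; ring
  simp only [Prof.Qn, St.Qc, Prof.V1, qf, hD, a0, b0, a1, b1]
  field_simp
  ring

/-- in the right zone (`η₁ - ε η₂ = ξ/α`, `D = α`) -/
theorem Qn_right (s : St) (h : P.δ ≤ s.r) : P.Qn s = s.Qc
    + s.ρ * deriv P.α s.r * (s.p - P.ε * s.q) * s.ξ / P.α s.r
    - 1 / 2 * s.v * deriv P.α s.r * s.ξ ^ 2 / P.α s.r ^ 2 := by
  obtain ⟨-, b0, c0⟩ := P.right0 _ h
  obtain ⟨b1, c1, -⟩ := P.right1 _ h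
  have := (P.α_pos s.r).ne'
  have hD : P.D s.r = P.α s.r := by
    simp only [Prof.D, b0, c0]; ring
  simp only [Prof.Qn, St.Qc, Prof.V1, qf, hD, b0, c0, b1, c1]
  field_simp
  ring

theorem V1_left (r p q : ℝ) (h : r ≤ -P.δ) : P.V1 r p q = deriv P.β r * q ^ 2 := by
  obtain ⟨a1, b1, -⟩ := P.left1 _ h
  simp [Prof.V1, qf, a1, b1]

theorem V1_right (r p q : ℝ) (h : P.δ ≤ r) : P.V1 r p q = deriv P.α r * (p - P.ε * q) ^ 2 := by
  obtain ⟨b1, c1, -⟩ := P.right1 _ h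
  simp only [Prof.V1, qf, b1, c1]
  ring

theorem Qn_of_Z0 {s : St} (h : s.Z0) : P.Qn s = 0 := by
  obtain ⟨h1, h2, h3⟩ := h
  simp [Prof.Qn, h1, h2, h3, Prof.V1, qf]

variable {P} {s : ℝ → St} {t t1 t2 : ℝ}

theorem OdeAt.congr {s' : ℝ → St} (h : P.OdeAt s t) (h' : s' =ᶠ[𝓝 t] s) : P.OdeAt s' t := by
  have e : s' t = s t := h'.eq_of_nhds
  have k : ∀ (g : St → ℝ) (d : ℝ), HasDerivAt (fun u => g (s u)) d t →
      HasDerivAt (fun u => g (s' u)) d t := fun g d hd =>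
    hd.congr_of_eventuallyEq (h'.fun_comp g)
  constructor <;> try rw [e]
  exacts [k St.r _ h.r, k St.v _ h.v, k St.p _ h.p, k St.q _ h.q, k St.ρ _ h.ρ, k St.σ _ h.σ,
    k St.ξ _ h.ξ, k St.ζ _ h.ζ, k St.π _ h.π, k St.κ _ h.κ]

theorem OdeAt.continuousAt_Qn (h : P.OdeAt s t) : ContinuousAt (fun τ => P.Qn (s τ)) t := by
  have hr := h.r.continuousAt
  have hv := h.v.continuousAt
  have hp := h.p.continuousAt
  have hq := h.q.continuousAt
  have hρ := h.ρ.continuousAt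
  have hσ := h.σ.continuousAt
  have hξ := h.ξ.continuousAt
  have hζ := h.ζ.continuousAt
  have hπ := h.π.continuousAt
  have hκ := h.κ.continuousAt
  have a0 := (NeckBase_comp P.α_smooth h.r).continuousAt
  have b0 := (NeckBase_comp P.β_smooth h.r).continuousAt
  have c0 := (NeckBase_comp P.γ_smooth h.r).continuousAt
  have a1 := (NeckBase_comp (contDiff_infty_iff_deriv.1 P.α_smooth).2 h.r).continuousAt
  have b1 := (NeckBase_comp (contDiff_infty_iff_deriv.1 P.β_smooth).2 h.r).continuousAt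
  have c1 := (NeckBase_comp (contDiff_infty_iff_deriv.1 P.γ_smooth).2 h.r).continuousAt
  have hD : ContinuousAt (fun τ => P.D (s τ).r) t := (a0.mul b0).sub (c0.pow 2)
  have hD0 : P.D (s t).r ≠ 0 := (P.D_pos _).ne'
  have e1 : ContinuousAt
      (fun τ => (P.β (s τ).r * (s τ).ξ - P.γ (s τ).r * (s τ).ζ) / P.D (s τ).r) t :=
    ((b0.mul hξ).sub (c0.mul hζ)).div hD hD0
  have e2 : ContinuousAt
      (fun τ => (P.α (s τ).r * (s τ).ζ - P.γ (s τ).r * (s τ).ξ) / P.D (s τ).r) t :=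
    ((a0.mul hζ).sub (c0.mul hξ)).div hD hD0
  simp only [Prof.Qn, Prof.V1, qf]
  exact ((((hρ.mul hσ).add (hξ.mul hπ)).add (hζ.mul hκ)).add
    (hρ.mul ((((a1.mul hp).add (c1.mul hq)).mul e1).add
      (((c1.mul hp).add (b1.mul hq)).mul e2)))).sub
    ((continuousAt_const.mul hv).mul (((a1.mul (e1.pow 2)).add
      (((continuousAt_const.mul c1).mul e1).mul e2)).add (b1.mul (e2.pow 2))))

/-- Derivative of the canonical form of `J - u(τ) ċ`.  (Product rule; `V1` and `ẋ, ẏ` are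
differentiated through `HasDerivAt.comp`; the difference of the two sides is a multiple of `dH`:
`linear_combination`.) -/
theorem OdeAt.shift_deriv (h : P.OdeAt s t) (hH : P.dH (s t) = 0) {u : ℝ → ℝ} {u' : ℝ}
    (hu : HasDerivAt u u' t) :
    HasDerivAt (fun τ => (P.shift (u τ) (s τ)).Qc)
      ((P.shift (u t) (s t)).σ ^ 2
        - 1 / 2 * P.V2 (s t).r (s t).p (s t).q * (P.shift (u t) (s t)).ρ ^ 2
        + qf (P.α (s t).r) (P.γ (s t).r) (P.β (s t).r) (s t).π (s t).κ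
        + u' * P.V1 (s t).r (s t).p (s t).q * (P.shift (u t) (s t)).ρ) t := by
  have a0 := NeckBase_comp P.α_smooth h.r
  have b0 := NeckBase_comp P.β_smooth h.r
  have c0 := NeckBase_comp P.γ_smooth h.r
  have a1 := NeckBase_comp (contDiff_infty_iff_deriv.1 P.α_smooth).2 h.r
  have b1 := NeckBase_comp (contDiff_infty_iff_deriv.1 P.β_smooth).2 h.r
  have c1 := NeckBase_comp (contDiff_infty_iff_deriv.1 P.γ_smooth).2 h.r
  have hV : HasDerivAt (fun τ => P.V1 (s τ).r (s τ).p (s τ).q)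
      (P.V2 (s t).r (s t).p (s t).q * (s t).v) t := by
    refine HasDerivAt.congr_deriv (((a1.fun_mul (h.p.fun_pow 2)).fun_add
      (((c1.const_mul 2).fun_mul h.p).fun_mul h.q)).fun_add (b1.fun_mul (h.q.fun_pow 2))) ?_
    simp only [Prof.V2, qf]
    ring
  refine HasDerivAt.congr_deriv
    ((((h.ρ.fun_sub (hu.fun_mul h.v)).fun_mul
      (h.σ.fun_add ((hu.const_mul (1 / 2)).fun_mul hV))).fun_add
      ((h.ξ.fun_sub (hu.fun_mul ((a0.fun_mul h.p).fun_add (c0.fun_mul h.q)))).fun_mul h.π)).fun_add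
      ((h.ζ.fun_sub (hu.fun_mul ((c0.fun_mul h.p).fun_add (b0.fun_mul h.q)))).fun_mul h.κ)) ?_
  simp only [Prof.dH] at hH
  simp only [shift, qf]
  linear_combination (-u') * hH

/-- Outer zone.  Recipe: near `t`, `r` stays on the same side, so `Qn ∘ s` is eventually the
expression of `Qn_left` / `Qn_right`.  Left: `warped` with `f = β`.  Right: `warped` with `f = α`,
`q := p - εq`, `ζ := ξ`, `κ := π - εκ`, `ξ := ζ + εξ`, `π := κ`. -/
theorem OdeAt.outer (h : P.OdeAt s t) (hr : P.δ < |(s t).r|) :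
    ∃ Q', HasDerivAt (fun τ => P.Qn (s τ)) Q' t ∧ 0 ≤ Q' ∧
      ((s t).Z0 → ¬ (s t).Deg → 0 < Q') := by
  rcases lt_abs.1 hr with hr | hr
  · obtain ⟨-, b0, c0⟩ := P.right0 _ hr.le
    obtain ⟨b1, c1, -⟩ := P.right1 _ hr.le
    obtain ⟨b2, c2, hc⟩ := P.right2 _ hr.le
    have hα := P.α_pos (s t).r
    have hw := warped (f := P.α) (r := fun τ => (s τ).r) (v := fun τ => (s τ).v)
      (q := fun τ => (s τ).p - P.ε * (s τ).q) (ρ := fun τ => (s τ).ρ) (σ := fun τ => (s τ).σ)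
      (ζ := fun τ => (s τ).ξ) (κ := fun τ => (s τ).π - P.ε * (s τ).κ)
      (ξ := fun τ => (s τ).ζ + P.ε * (s τ).ξ) (π := fun τ => (s τ).κ) (t := t)
      P.α_smooth hα h.r
      (h.v.congr_deriv (by rw [P.V1_right _ _ _ hr.le]; ring))
      ((h.p.fun_sub (h.q.const_mul P.ε)).congr_deriv (by ring)) h.ρ
      (h.σ.congr_deriv (by simp only [Prof.V2, qf, b1, c1, b2, c2]; ring))
      (h.ξ.congr_deriv (by simp only [b0, b1]; ring))
      ((h.π.fun_sub (h.κ.const_mul P.ε)).congr_deriv (by ring))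
      ((h.ζ.fun_add (h.ξ.const_mul P.ε)).congr_deriv (by simp only [b0, c0, b1, c1]; ring)) h.κ
    refine ⟨_, hw.congr_of_eventuallyEq ?_, ?_, ?_⟩
    · filter_upwards [h.r.continuousAt.eventually (lt_mem_nhds hr)] with τ hτ
      rw [P.Qn_right _ hτ.le, St.Qc]
      ring
    · have : 0 ≤ 3 * deriv P.α (s t).r ^ 2 - 2 * P.α (s t).r * deriv (deriv P.α) (s t).r := by
        linarith
      positivity
    · rintro ⟨z1, z2, z3⟩ hn
      simp only [z1, z2, z3, mul_zero, zero_mul, add_zero, sub_zero, sub_self]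
      by_cases k1 : (s t).σ = 0
      · by_cases k2 : (s t).κ = 0
        · have k3 : (s t).π ≠ 0 := fun k3 => hn ⟨⟨z1, z2, z3⟩, k1, k3, k2⟩
          simp only [k2, mul_zero, sub_zero]
          positivity
        · positivity
      · positivity
  · have hr' : (s t).r < -P.δ := by linarith
    obtain ⟨a0, b0, -⟩ := P.left0 _ hr'.le
    obtain ⟨a1, b1, -⟩ := P.left1 _ hr'.le
    obtain ⟨a2, b2, hc⟩ := P.left2 _ hr'.le
    have hβ := P.β_pos (s t).r
    have hw := warped (f := P.β) (r := fun τ => (s τ).r) (v := fun τ => (s τ).v)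
      (q := fun τ => (s τ).q) (ρ := fun τ => (s τ).ρ) (σ := fun τ => (s τ).σ)
      (ζ := fun τ => (s τ).ζ) (κ := fun τ => (s τ).κ)
      (ξ := fun τ => (s τ).ξ) (π := fun τ => (s τ).π) (t := t)
      P.β_smooth hβ h.r
      (h.v.congr_deriv (by rw [P.V1_left _ _ _ hr'.le]; ring)) h.q h.ρ
      (h.σ.congr_deriv (by simp only [Prof.V2, qf, a1, b1, a2, b2]; ring))
      (h.ζ.congr_deriv (by simp only [b0, b1]; ring)) h.κ
      (h.ξ.congr_deriv (by simp only [a0, b0, a1, b1]; ring)) h.π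
    refine ⟨_, hw.congr_of_eventuallyEq ?_, ?_, ?_⟩
    · filter_upwards [h.r.continuousAt.eventually (gt_mem_nhds hr')] with τ hτ
      rw [P.Qn_left _ hτ.le, St.Qc]
    · have : 0 ≤ 3 * deriv P.β (s t).r ^ 2 - 2 * P.β (s t).r * deriv (deriv P.β) (s t).r := by
        linarith
      positivity
    · rintro ⟨z1, z2, z3⟩ hn
      simp only [z1, z2, z3, mul_zero, zero_mul, add_zero, sub_zero, sub_self]
      by_cases k1 : (s t).σ = 0
      · by_cases k2 : (s t).π = 0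
        · have k3 : (s t).κ ≠ 0 := fun k3 => hn ⟨⟨z1, z2, z3⟩, k1, k2, k3⟩
          positivity
        · positivity
      · positivity

variable (P s t1 t2) in
/-- a passage through the zone `|r| ≤ δ'` -/
structure Pass : Prop where
  lt : t1 < t2
  ode : ∀ t ∈ Icc t1 t2, P.OdeAt s t
  zone : ∀ t ∈ Icc t1 t2, |(s t).r| ≤ P.δ'
  dH : ∀ t ∈ Icc t1 t2, P.dH (s t) = 0
  ndeg : ∀ t ∈ Icc t1 t2, ¬ (s t).Deg
  start : (s t1).Z0 ∨ (|(s t1).r| = P.δ' ∧ 0 ≤ P.Qn (s t1))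

variable (P s t2) in
/-- the conclusion for a passage -/
def Concl : Prop := ¬ (s t2).Z0 ∧ (P.δ ≤ |(s t2).r| → 0 ≤ P.Qn (s t2))

end Prof

end Crest.Agent.R244
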