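import Crest.Agent.R244.Form
import Crest.Agent.R244.Data1
import Crest.Agent.R244.NeckBase

/-! # R244: from the coordinate equations to the neck equations -/

open scoped ContDiff Topology Manifold
open Set Filter
open Crest.GeometryTopology.CoordMetric

noncomputable section

namespace Crest.Agent.R244

set_option linter.unusedSectionVars false
set_option linter.unusedVariables false

namespace Prof

variable (P : Prof) {U : Set E} {b : E → Bil} {Γ : E → Con} {y y' Z Z' : ℝ → E} {t : ℝ}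

/-- first component of the covector of `(u₁, u₂)` -/
def neckE1 (r : ℝ) (u : E) : ℝ := (P.β r * u 1 - P.γ r * u 2) / P.D r

/-- second component of the covector of `(u₁, u₂)` -/
def neckE2 (r : ℝ) (u : E) : ℝ := (P.α r * u 2 - P.γ r * u 1) / P.D r

/-- `h'(g u, g w)` -/
def neckG (r : ℝ) (u w : E) : ℝ :=
  deriv P.α r * P.neckE1 r u * P.neckE1 r w
    + deriv P.γ r * (P.neckE1 r u * P.neckE2 r w + P.neckE2 r u * P.neckE1 r w)
    + deriv P.β r * P.neckE2 r u * P.neckE2 r w

lemma neck_bil0 (z u : E) : bil P.GN z u (EuclideanSpace.single 0 1) = u 0 := by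
  simp [bil_GN]

lemma neck_bil1 (z u : E) : bil P.GN z u (EuclideanSpace.single 1 1) = P.neckE1 (z 0) u := by
  simp [bil_GN, neckE1]

lemma neck_bil2 (z u : E) : bil P.GN z u (EuclideanSpace.single 2 1) = P.neckE2 (z 0) u := by
  simp only [bil_GN, neckE2]
  simp
  ring

lemma neck_fderiv {f : ℝ → ℝ} {f' : ℝ} {z : E} (hf : HasDerivAt f f' (z 0)) (a : E) :
    fderiv ℝ (fun z : E => f (z 0)) z a = a 0 * f' := by
  have h := hf.hasFDerivAt.comp z (EuclideanSpace.proj (0 : Fin 3) : E →L[ℝ] ℝ).hasFDerivAt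
  have h' : HasFDerivAt (fun z : E => f (z 0)) _ z := h
  rw [h'.fderiv]
  simp

lemma neck_d1 {f : ℝ → ℝ} (hf : ContDiff ℝ ∞ f) (r : ℝ) : HasDerivAt f (deriv f r) r :=
  (hf.differentiable (by simp) r).hasDerivAt

lemma neck_d2 {f : ℝ → ℝ} (hf : ContDiff ℝ ∞ f) (r : ℝ) :
    HasDerivAt (deriv f) (deriv (deriv f) r) r :=
  neck_d1 (contDiff_infty_iff_deriv.1 hf).2 r

lemma neck_dD (r : ℝ) : HasDerivAt P.D
    (deriv P.α r * P.β r + P.α r * deriv P.β r - 2 * P.γ r * deriv P.γ r) r := by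
  have h := ((neck_d1 P.α_smooth r).fun_mul (neck_d1 P.β_smooth r)).fun_sub
    ((neck_d1 P.γ_smooth r).fun_pow 2)
  refine HasDerivAt.congr_deriv h ?_
  simp

lemma neck_dE1 (r : ℝ) (u : E) : HasDerivAt (fun r => P.neckE1 r u)
    (-(P.β r * (deriv P.α r * P.neckE1 r u + deriv P.γ r * P.neckE2 r u)
      - P.γ r * (deriv P.γ r * P.neckE1 r u + deriv P.β r * P.neckE2 r u)) / P.D r) r := by
  have hD : P.D r ≠ 0 := (P.D_pos r).ne'
  have h := (((neck_d1 P.β_smooth r).mul_const (u 1)).fun_sub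
    ((neck_d1 P.γ_smooth r).mul_const (u 2))).fun_div (P.neck_dD r) hD
  refine HasDerivAt.congr_deriv h ?_
  simp only [neckE1, neckE2]
  field_simp
  simp only [D]
  ring

lemma neck_dE2 (r : ℝ) (u : E) : HasDerivAt (fun r => P.neckE2 r u)
    (-(P.α r * (deriv P.γ r * P.neckE1 r u + deriv P.β r * P.neckE2 r u)
      - P.γ r * (deriv P.α r * P.neckE1 r u + deriv P.γ r * P.neckE2 r u)) / P.D r) r := by
  have hD : P.D r ≠ 0 := (P.D_pos r).ne'
  have h := (((neck_d1 P.α_smooth r).mul_const (u 2)).fun_sub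
    ((neck_d1 P.γ_smooth r).mul_const (u 1))).fun_div (P.neck_dD r) hD
  refine HasDerivAt.congr_deriv h ?_
  simp only [neckE1, neckE2]
  field_simp
  simp only [D]
  ring

lemma neck_fderiv_bil (z a u w : E) :
    fderiv ℝ (bil P.GN) z a u w = -(a 0 * P.neckG (z 0) u w) := by
  have hD : P.D (z 0) ≠ 0 := (P.D_pos _).ne'
  rw [coord_fderiv_apply2 (coord_diffAt P.riem_GN (coord_bil_smooth P.riem_GN) (mem_univ z))]
  have e : (fun z => bil P.GN z u w) =
      fun z : E => u 0 * w 0 + (P.neckE1 (z 0) u * w 1 + P.neckE2 (z 0) u * w 2) := by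
    funext z
    simp only [bil_GN, neckE1, neckE2]
    ring
  rw [e, neck_fderiv (f := fun r => u 0 * w 0 + (P.neckE1 r u * w 1 + P.neckE2 r u * w 2))
    ((((P.neck_dE1 (z 0) u).mul_const (w 1)).fun_add
      ((P.neck_dE2 (z 0) u).mul_const (w 2))).const_add _)]
  simp only [neckG]
  generalize P.neckE1 (z 0) u = p
  generalize P.neckE2 (z 0) u = q
  simp only [neckE1, neckE2]
  field_simp
  ring

lemma neck_lm (h : LM U b Γ) (hb : ∀ z ∈ U, b z = bil P.GN z) : LM U (bil P.GN) Γ where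
  isOpen := h.isOpen
  b_smooth := h.b_smooth.congr fun z hz => (hb z hz).symm
  Γ_smooth := h.Γ_smooth
  symm := fun z hz u v => by rw [← hb z hz]; exact h.symm z hz u v
  pos := fun z hz u hu => by rw [← hb z hz]; exact h.pos z hz u hu
  Γ_symm := h.Γ_symm
  compat := fun z hz u v w => by
    have e : b =ᶠ[𝓝 z] bil P.GN := eventually_of_mem (h.isOpen.mem_nhds hz) hb
    rw [← hb z hz, ← e.fderiv_eq]
    exact h.compat z hz u v w

lemma neck_st (t : ℝ) : P.st y Z t =
    { r := y t 0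
      v := deriv y t 0
      p := P.neckE1 (y t 0) (deriv y t)
      q := P.neckE2 (y t 0) (deriv y t)
      ρ := Z t 0
      σ := deriv Z t 0
      ξ := Z t 1
      ζ := Z t 2
      π := P.neckE1 (y t 0) (deriv Z t)
        - Z t 0 * P.neckG (y t 0) (deriv y t) (EuclideanSpace.single 1 1)
      κ := P.neckE2 (y t 0) (deriv Z t)
        - Z t 0 * P.neckG (y t 0) (deriv y t) (EuclideanSpace.single 2 1) } := by
  simp only [st, neck_bil1, neck_bil2, neck_fderiv_bil, sub_eq_add_neg]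

lemma neckG_zero (r : ℝ) (u : E) : P.neckG r u (EuclideanSpace.single 0 1) = 0 := by
  simp [neckG, neckE1, neckE2]

lemma neckG_one (r : ℝ) (u : E) : P.neckG r u (EuclideanSpace.single 1 1) =
    (P.β r * (deriv P.α r * P.neckE1 r u + deriv P.γ r * P.neckE2 r u)
      - P.γ r * (deriv P.γ r * P.neckE1 r u + deriv P.β r * P.neckE2 r u)) / P.D r := by
  simp only [neckG]
  generalize P.neckE1 r u = p
  generalize P.neckE2 r u = q
  simp [neckE1, neckE2]
  ring

lemma neckG_two (r : ℝ) (u : E) : P.neckG r u (EuclideanSpace.single 2 1) =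
    (P.α r * (deriv P.γ r * P.neckE1 r u + deriv P.β r * P.neckE2 r u)
      - P.γ r * (deriv P.α r * P.neckE1 r u + deriv P.γ r * P.neckE2 r u)) / P.D r := by
  simp only [neckG]
  generalize P.neckE1 r u = p
  generalize P.neckE2 r u = q
  simp [neckE1, neckE2]
  ring

lemma neck_coord {f : ℝ → E} {f' : E} (hf : HasDerivAt f f' t) (i : Fin 3) :
    HasDerivAt (fun s => f s i) (f' i) t :=
  (EuclideanSpace.proj i : E →L[ℝ] ℝ).hasFDerivAt.comp_hasDerivAt t hf

lemma neck_inv1 (r : ℝ) (u : E) : P.α r * P.neckE1 r u + P.γ r * P.neckE2 r u = u 1 := by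
  have hD : P.D r ≠ 0 := (P.D_pos r).ne'
  simp only [neckE1, neckE2]
  field_simp
  simp only [D]
  ring

lemma neck_inv2 (r : ℝ) (u : E) : P.γ r * P.neckE1 r u + P.β r * P.neckE2 r u = u 2 := by
  have hD : P.D r ≠ 0 := (P.D_pos r).ne'
  simp only [neckE1, neckE2]
  field_simp
  simp only [D]
  ring

/-- `g'` in terms of `h'`: the derivative of `bil GN` (only through the coordinate `z 0`).  With
`(η₁,η₂) = g (u₁,u₂)`, `(θ₁,θ₂) = g (w₁,w₂)` it is `-a₀ h'(η,θ)`. -/
theorem fderiv_bil_GN (z a u w : E) : fderiv ℝ (bil P.GN) z a u w =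
    -(a 0 * (deriv P.α (z 0) * bil P.GN z u (EuclideanSpace.single 1 1)
              * bil P.GN z w (EuclideanSpace.single 1 1)
            + deriv P.γ (z 0) * (bil P.GN z u (EuclideanSpace.single 1 1)
              * bil P.GN z w (EuclideanSpace.single 2 1)
              + bil P.GN z u (EuclideanSpace.single 2 1) * bil P.GN z w (EuclideanSpace.single 1 1))
            + deriv P.β (z 0) * bil P.GN z u (EuclideanSpace.single 2 1)
              * bil P.GN z w (EuclideanSpace.single 2 1))) := by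
  simp only [neck_fderiv_bil, neck_bil1, neck_bil2, neckG]

/-- Recipe: replace `b` by `bil GN` (`LM U (bil GN) Γ`, they agree on the open `U`).  `p, q, π, κ`:
`GeoAt.momentum`, `JacAt.momentum` with `w = e₁, e₂` (`fderiv_bil_GN`, `w 0 = 0`).  `v`, `σ`: the
same with `w = e₀` (`bil GN z u e₀ = u 0`); for `σ` differentiate `fderiv_bil_GN` once more:
`g''(ẋ,ẋ)/2 = -V2/2 + (h'P)ᵀ g (h'P)`.  `r, ρ, ξ, ζ`: coordinates of `HasDerivAt`; the identities
`ẋ = hP`, `δẋ = h δP + ρ h'P` are `field_simp; ring` after `bil_GN`. -/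
theorem odeAt (h : LM U b Γ) (hb : ∀ z ∈ U, b z = bil P.GN z) (hy : y t ∈ U)
    (hg : GeoAt Γ y t) (hJ : JacAt Γ y Z t) : P.OdeAt (P.st y Z) t := by
  have hL := P.neck_lm h hb
  have hD : P.D (y t 0) ≠ 0 := (P.D_pos _).ne'
  have dy := local_d1 hg.1
  have dZ := local_d1 hJ.1
  refine ⟨neck_coord dy 0, ?_, ?_, ?_, neck_coord dZ 0, ?_, ?_, ?_, ?_, ?_⟩
  · have := GeoAt.momentum hL hy hg (EuclideanSpace.single 0 1)
    simp only [neck_bil0, neck_fderiv_bil] at this
    refine HasDerivAt.congr_deriv this ?_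
    simp only [neck_st, V1, qf, neckG]
    simp
    ring
  · have := GeoAt.momentum hL hy hg (EuclideanSpace.single 1 1)
    rw [neck_fderiv_bil] at this
    refine HasDerivAt.congr_deriv this ?_
    simp
  · have := GeoAt.momentum hL hy hg (EuclideanSpace.single 2 1)
    rw [neck_fderiv_bil] at this
    refine HasDerivAt.congr_deriv this ?_
    simp
  · have := JacAt.momentum hL hy hg hJ (EuclideanSpace.single 0 1)
    simp only [neck_bil0, neck_fderiv_bil, neckG_zero, mul_zero, neg_zero, add_zero,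
      PiLp.single_apply, if_true, one_mul] at this
    have d1 := P.neck_dE1 (y t 0) (deriv y t)
    have d2 := P.neck_dE2 (y t 0) (deriv y t)
    have dG : HasDerivAt (fun r => -P.neckG r (deriv y t) (deriv y t)) _ (y t 0) :=
      (((((neck_d2 P.α_smooth _).fun_mul d1).fun_mul d1).fun_add
        ((neck_d2 P.γ_smooth _).fun_mul ((d1.fun_mul d2).fun_add (d2.fun_mul d1)))).fun_add
        (((neck_d2 P.β_smooth _).fun_mul d2).fun_mul d2)).fun_neg
    rw [neck_fderiv dG] at this
    refine HasDerivAt.congr_deriv this ?_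
    simp only [neck_st, V2, qf, neckG_one, neckG_two]
    simp only [neckG]
    field_simp
    ring
  · refine HasDerivAt.congr_deriv (neck_coord dZ 1) ?_
    rw [← P.neck_inv1 (y t 0) (deriv Z t)]
    simp only [neck_st, neckG_one, neckG_two]
    field_simp
    simp only [D]
    ring
  · refine HasDerivAt.congr_deriv (neck_coord dZ 2) ?_
    rw [← P.neck_inv2 (y t 0) (deriv Z t)]
    simp only [neck_st, neckG_one, neckG_two]
    field_simp
    simp only [D]
    ring
  · have := JacAt.momentum hL hy hg hJ (EuclideanSpace.single 1 1)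
    refine HasDerivAt.congr_deriv this ?_
    simp [neck_fderiv_bil]
  · have := JacAt.momentum hL hy hg hJ (EuclideanSpace.single 2 1)
    refine HasDerivAt.congr_deriv this ?_
    simp [neck_fderiv_bil]

/-- `compat`: `2 b(Γ(ẏ,Z),Z) = Db(ẏ)(Z,Z)` -/
theorem st_Qn (h : LM U b Γ) (hb : ∀ z ∈ U, b z = bil P.GN z) (hy : y t ∈ U) :
    b (y t) (Z t) (cov Γ y Z t) = P.Qn (P.st y Z t) := by
  have hL := P.neck_lm h hb
  have hD : P.D (y t 0) ≠ 0 := (P.D_pos _).ne'
  have h1 := hL.compat _ hy (deriv y t) (Z t) (Z t)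
  rw [hb _ hy, cov, map_add, hL.symm _ hy (Z t) (Γ _ _ _)]
  have h2 : bil P.GN (y t) (Γ (y t) (deriv y t) (Z t)) (Z t) =
      -(deriv y t 0 * P.neckG (y t 0) (Z t) (Z t)) / 2 := by
    rw [← neck_fderiv_bil]; linarith
  rw [h2, bil_GN]
  simp only [neck_st, Qn, V1, qf, neckG_one, neckG_two]
  simp only [neckG]
  generalize P.neckE1 (y t 0) (deriv y t) = p
  generalize P.neckE2 (y t 0) (deriv y t) = q
  simp only [neckE1, neckE2]
  field_simp
  ring

/-- `compat`: `2 b(Γ(ẏ,Z),ẏ) = Db(Z)(ẏ,ẏ)` -/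
theorem st_dH (h : LM U b Γ) (hb : ∀ z ∈ U, b z = bil P.GN z) (hy : y t ∈ U) :
    b (y t) (cov Γ y Z t) (deriv y t) = P.dH (P.st y Z t) := by
  have hL := P.neck_lm h hb
  have hD : P.D (y t 0) ≠ 0 := (P.D_pos _).ne'
  have h1 := hL.compat _ hy (deriv y t) (Z t) (deriv y t)
  rw [hb _ hy, cov, map_add, add_apply]
  have h2 : bil P.GN (y t) (Γ (y t) (deriv y t) (Z t)) (deriv y t) =
      -(Z t 0 * P.neckG (y t 0) (deriv y t) (deriv y t)) / 2 := by
    simp only [neck_fderiv_bil, neckG] at h1 ⊢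
    linarith
  have h3 : bil P.GN (y t) (deriv Z t) (deriv y t) = deriv Z t 0 * deriv y t 0
      + P.neckE1 (y t 0) (deriv Z t) * deriv y t 1 + P.neckE2 (y t 0) (deriv Z t) * deriv y t 2 := by
    simp only [bil_GN, neckE1, neckE2]
    ring
  rw [h2, h3, ← P.neck_inv1 (y t 0) (deriv y t), ← P.neck_inv2 (y t 0) (deriv y t)]
  simp only [neck_st, dH, V1, qf, neckG_one, neckG_two]
  simp only [neckG]
  field_simp
  simp only [D]
  ring

theorem st_Z0 : (P.st y Z t).Z0 ↔ Z t = 0 := by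
  constructor
  · rintro ⟨h0, h1, h2⟩
    ext i
    fin_cases i
    exacts [h0, h1, h2]
  · intro h
    simp [St.Z0, st, h]

theorem st_Deg (h : (P.st y Z t).Deg) : Z t = 0 ∧ deriv Z t = 0 := by
  obtain ⟨h0, h1, h2, h3⟩ := h
  have hZ := P.st_Z0.1 h0
  refine ⟨hZ, ?_⟩
  simp only [neck_st, hZ, PiLp.zero_apply, zero_mul, sub_zero] at h1 h2 h3
  have e1 := P.neck_inv1 (y t 0) (deriv Z t)
  have e2 := P.neck_inv2 (y t 0) (deriv Z t)
  rw [h2, h3, mul_zero, mul_zero, add_zero] at e1 e2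
  ext i
  fin_cases i
  exacts [h1, e1.symm, e2.symm]

theorem st_congr {l : E} (hl : l 0 = 0) (hy : y' =ᶠ[𝓝 t] fun s => y s + l) (hZ : Z' =ᶠ[𝓝 t] Z) :
    P.st y' Z' t = P.st y Z t := by
  have h1 : y' t 0 = y t 0 := by simp [hy.self_of_nhds, hl]
  have h2 : deriv y' t = deriv y t := by rw [hy.deriv_eq, deriv_add_const]
  simp only [neck_st, h1, h2, hZ.self_of_nhds, hZ.deriv_eq]

end Prof

end Crest.Agent.R244
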