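import Crest.Agent.R244.Jac
import Crest.Agent.R244.Model
import Crest.Agent.R244.NeckOde
import Crest.Agent.R244.Neck

/-! # R244: the model has no conjugate points -/

open scoped ContDiff Topology Manifold
open Set Filter
open Crest.GeometryTopology.CoordMetric

noncomputable section

namespace Crest.Agent.R244

set_option linter.unusedSectionVars false
set_option linter.unusedVariables false

namespace Model

variable {P : Prof} {M : Type} [TopologicalSpace M] {𝒜 : MA M} {π : Fin 3 → E → M}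
  {ι : M → Fin 3} {c : ℝ → M} {J : ℝ → E}

theorem hb_neck (h : Model P 𝒜 π ι) {x : M} (hx : ι x = 1) :
    ∀ z ∈ (𝒜.φ x).target, 𝒜.b x z = bil P.GN z := fun z hz => by
  rw [h.hb x z hz, hx]
  rfl

/-- the state at time `t`, in the chart at `c t` -/
def state (P : Prof) (𝒜 : MA M) (c : ℝ → M) (J : ℝ → E) (t : ℝ) : St :=
  P.st (𝒜.φ (c t) ∘ c) (𝒜.rep c J (c t)) t

/-- the state does not depend on the neck chart (`transl`, `chart_eventuallyEq`,
`rep_eventuallyEq`, `st_congr`) -/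
theorem state_eq (h : Model P 𝒜 π ι) (hc : Continuous c) {x : M} {t : ℝ} (hx : ι x = 1)
    (ht : ι (c t) = 1) (hs : c t ∈ (𝒜.φ x).source) :
    state P 𝒜 c J t = P.st (𝒜.φ x ∘ c) (𝒜.rep c J x) t := by
  obtain ⟨l, hl, hτ⟩ := h.transl hx ht hs (𝒜.mem (c t))
  have hy : Tendsto (𝒜.φ x ∘ c) (𝓝 t) (𝓝 (𝒜.φ x (c t))) :=
    ((𝒜.φ x).continuousAt hs).comp hc.continuousAt
  refine P.st_congr hl ?_ ?_
  · refine (MA.chart_eventuallyEq (x' := c t) hc.continuousAt hs).trans ?_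
    exact hy.eventually hτ
  · refine (MA.rep_eventuallyEq J hc.continuousAt hs (𝒜.mem (c t))).trans ?_
    filter_upwards [hy.eventually (hτ.fderiv (𝕜 := ℝ))] with s hs'
    rw [hs', fderiv_add_const, fderiv_fun_id]
    rfl

/-- `ip_eq`, `rep_DJ`, `st_Qn` -/
theorem Q_eq (h : Model P 𝒜 π ι) (hc : 𝒜.IsGeo c) (hJ : 𝒜.IsJac c J) {x : M} {t : ℝ}
    (hx : ι x = 1) (hs : c t ∈ (𝒜.φ x).source) :
    𝒜.ip (c t) (J t) (𝒜.DJ c J t) = P.Qn (P.st (𝒜.φ x ∘ c) (𝒜.rep c J x) t) := by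
  rw [MA.ip_eq J (𝒜.DJ c J) hs, MA.rep_DJ hc hJ hs]
  exact P.st_Qn (𝒜.lm x) (h.hb_neck hx) (MA.Jac_tgt hs)

/-- Recipe: suppose `J a = J b = 0`, `a < b`, `J ≢ 0`.  Then `J t = 0 → DJ t ≠ 0` (`IsJac.eq_zero`) and
`⟨DJ, ċ⟩ = 0` (`m_affine`).  `glob` with `r = rh ∘ c`, `Q t = ip (J t) (DJ t)`, `Z t = (J t = 0)`.
`hO`: chart `x = c t`; if `ι x ≠ 1`, `hasDerivAt_Q` and `flat` (`Rm = 0`); if `ι x = 1`, `Q_eq` near `t`,
`odeAt`, `OdeAt.outer`, `st_Z0`, `st_Deg` (`δ < |clamp y₀|` gives `δ < |y₀|`).  `hP`: `|rh| ≤ δ' < 2`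
forces `ι (c t) = 1` near `[t1,t2]` and `rh = y₀`; `Pass P (state ..) t1 t2` by `state_eq`,
`OdeAt.congr`, `st_dH`; `Pass.concl`. -/
theorem ncp (h : Model P 𝒜 π ι) : 𝒜.NCP := by
  suffices key : ∀ c J, 𝒜.IsGeo c → 𝒜.IsJac c J → ∀ a b : ℝ, a < b → J a = 0 → J b = 0 →
      ∀ t, J t = 0 by
    intro c J hc hJ a b hab ha hb
    rcases lt_or_gt_of_ne hab with h' | h'
    · exact key c J hc hJ a b h' ha hb
    · exact key c J hc hJ b a h' hb ha
  intro c J hc hJ a b hab ha hb t0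
  by_contra ht0
  have hcc : Continuous c := continuousOn_univ.1 hc.1
  have hnd : ∀ t, J t = 0 → 𝒜.DJ c J t ≠ 0 := fun t h0 h1 => ht0 (hJ.eq_zero hc h0 h1 t0)
  have hip0 : ∀ x u, 𝒜.ip x 0 u = 0 := fun x u => by
    unfold MA.ip; rw [map_zero]; rfl
  have hm : ∀ t, 𝒜.ip (c t) (𝒜.DJ c J t) (𝒜.vel c t) = 0 := by
    intro t
    have h1 := (hJ.m_affine hc a).2
    have h2 := (hJ.m_affine hc b).2
    rw [ha, hip0] at h1
    rw [hb, hip0] at h2
    rw [(hJ.m_affine hc t).1]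
    have h3 : (b - a) * 𝒜.ip (c 0) (𝒜.DJ c J 0) (𝒜.vel c 0) = 0 := by linarith
    exact (mul_eq_zero.1 h3).resolve_left (sub_pos.2 hab).ne'
  have hZ0 : ∀ t, (state P 𝒜 c J t).Z0 ↔ J t = 0 := fun t => by
    rw [state, P.st_Z0, MA.rep_self]
  have hdeg : ∀ t, ¬ (state P 𝒜 c J t).Deg := by
    intro t hd
    obtain ⟨h1, h2⟩ := P.st_Deg hd
    refine hnd t ((hZ0 t).1 hd.1) ?_
    rw [MA.DJ, cov, h1, h2, map_zero, add_zero]
  have hode : ∀ t, ι (c t) = 1 →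
      P.OdeAt (P.st (𝒜.φ (c t) ∘ c) (𝒜.rep c J (c t))) t := fun t ht =>
    P.odeAt (𝒜.lm (c t)) (h.hb_neck ht) (MA.Jac_tgt (𝒜.mem _)) (MA.Jac_geo hc (𝒜.mem _))
      (hJ _ t (𝒜.mem _))
  have hQs : ∀ t, ι (c t) = 1 → 𝒜.ip (c t) (J t) (𝒜.DJ c J t) = P.Qn (state P 𝒜 c J t) :=
    fun t ht => h.Q_eq hc hJ ht (𝒜.mem _)
  obtain ⟨rh, hrc, hrh⟩ := h.exists_rhat
  have hin : ∀ t, |rh (c t)| < 2 → ι (c t) = 1 ∧ (state P 𝒜 c J t).r = rh (c t) := by
    intro t ht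
    have h1 : ι (c t) = 1 := by
      by_contra hne
      exact ht.ne ((hrh _ _ (𝒜.mem _)).2 hne)
    refine ⟨h1, ?_⟩
    have h2 := (hrh _ _ (𝒜.mem (c t))).1 h1
    change 𝒜.φ (c t) (c t) 0 = rh (c t)
    rw [h2] at ht ⊢
    obtain ⟨h3, h4⟩ := abs_lt.1 ht
    rcases le_total 2 (𝒜.φ (c t) (c t) 0) with h5 | h5
    · rw [min_eq_left h5, max_eq_right (by norm_num)] at h4
      exact absurd h4 (lt_irrefl _)
    · rw [min_eq_right h5] at h3 ⊢
      rcases le_total (-2) (𝒜.φ (c t) (c t) 0) with h6 | h6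
      · rw [max_eq_right h6]
      · rw [max_eq_left h6] at h3
        exact absurd h3 (lt_irrefl _)
  refine glob (r := fun t => rh (c t)) (Q := fun t => 𝒜.ip (c t) (J t) (𝒜.DJ c J t))
    (Z := fun t => J t = 0) P.hδδ (hrc.comp hcc)
    (continuous_iff_continuousAt.2 fun t => (hJ.hasDerivAt_Q hc t).continuousAt)
    (fun t ht => by simp only [ht, hip0]) (fun t ht => ?_) (fun t1 t2 h12 hzone hstart => ?_) hab ha hb
  · by_cases hι : ι (c t) = 1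
    · have h2 := (hrh _ _ (𝒜.mem (c t))).1 hι
      have hr : P.δ < |(P.st (𝒜.φ (c t) ∘ c) (𝒜.rep c J (c t)) t).r| := by
        change P.δ < |𝒜.φ (c t) (c t) 0|
        refine ht.trans_le ?_
        rw [h2, abs_le]
        have h3 := le_abs_self (𝒜.φ (c t) (c t) 0)
        have h4 := neg_abs_le (𝒜.φ (c t) (c t) 0)
        have h5 := abs_nonneg (𝒜.φ (c t) (c t) 0)
        refine ⟨le_max_of_le_right (le_min (by linarith) h4),
          max_le (by linarith) ((min_le_right _ _).trans h3)⟩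
      obtain ⟨Q', h3, h4, h5⟩ := (hode t hι).outer hr
      refine ⟨Q', h3.congr_of_eventuallyEq ?_, h4, fun hz => h5 ((hZ0 t).2 hz) (hdeg t)⟩
      filter_upwards [MA.Jac_ev hc (𝒜.mem (c t))] with u hu
      exact h.Q_eq hc hJ hι hu
    · have h1 := hJ.hasDerivAt_Q hc t
      obtain ⟨h2, h3⟩ := h.flat hι ((𝒜.φ (c t)).map_source (𝒜.mem _))
      have h4 : Rm (𝒜.Γ (c t)) (𝒜.φ (c t) (c t)) (J t) (𝒜.vel c t) (𝒜.vel c t) = 0 := by
        simp [Rm, h2, h3]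
      rw [h4, hip0, sub_zero] at h1
      exact ⟨_, h1, MA.ip_nonneg _ _, fun hz => MA.ip_pos _ (hnd t hz)⟩
  · have hlt : ∀ t ∈ Icc t1 t2, |rh (c t)| < 2 := fun t ht => (hzone t ht).trans_lt P.hδ2
    have h1 := hin t1 (hlt t1 (left_mem_Icc.2 h12.le))
    have h2 := hin t2 (hlt t2 (right_mem_Icc.2 h12.le))
    have hP : P.Pass (state P 𝒜 c J) t1 t2 := by
      refine ⟨h12, fun t ht => ?_, fun t ht => ?_, fun t ht => ?_, fun t _ => hdeg t, ?_⟩
      · have hι := (hin t (hlt t ht)).1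
        refine (hode t hι).congr ?_
        have hev : ∀ᶠ u in 𝓝 t, |rh (c u)| < 2 :=
          ((hrc.comp hcc).abs.continuousAt (x := t)).eventually (gt_mem_nhds (hlt t ht))
        filter_upwards [hev, MA.Jac_ev hc (𝒜.mem (c t))] with u hu hu'
        exact h.state_eq hcc hι (hin u hu).1 hu'
      · rw [(hin t (hlt t ht)).2]
        exact hzone t ht
      · rw [state, ← P.st_dH (𝒜.lm (c t)) (h.hb_neck (hin t (hlt t ht)).1) (MA.Jac_tgt (𝒜.mem _))]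
        exact hm t
      · rcases hstart with h3 | ⟨h3, h4⟩
        · exact Or.inl ((hZ0 t1).2 h3)
        · exact Or.inr ⟨by rw [h1.2]; exact h3, by rw [← hQs t1 h1.1]; exact h4⟩
    obtain ⟨h3, h4⟩ := hP.concl
    refine ⟨fun hz => h3 ((hZ0 t2).2 hz), fun hr => ?_⟩
    rw [hQs t2 h2.1]
    exact h4 (by rw [h2.2]; exact hr)

end Model

end Crest.Agent.R244
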