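import Crest.Agent.R244.Cat
import Crest.Agent.R244.Grp
import Crest.Agent.R244.Deck
import Crest.Agent.R244.NCP

/-! # R244: no metric of non-positive curvature -/

open scoped ContDiff Topology Manifold
open Set Filter
open Crest.GeometryTopology.CoordMetric

noncomputable section

namespace Crest.Agent.R244

set_option linter.unusedSectionVars false
set_option linter.unusedVariables false

theorem not_npc {P : Prof} {M : Type} [TopologicalSpace M] [T2Space M] [CompactSpace M]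
    [ConnectedSpace M] {𝒜₀ : MA M} {π : Fin 3 → E → M} {ι : M → Fin 3} (h : Model P 𝒜₀ π ι)
    (𝒜 : MA M) : ¬ 𝒜.NPC := by
  intro hK
  obtain ⟨e, d, he, hs, hd, hdeck, r, hr, hdisp⟩ := MA.cat hK
  obtain ⟨fv, fw, A, B, C, D, hD, h1, h2, h3, h4, h5, h6, h7, ℓ, hℓ, hℓe, hℓ1⟩ :=
    P.deck_model h.glued he hs
  obtain ⟨a, ha⟩ := grp hd fv fw A B C D (fun g hg => hdeck g (hD g hg)) h1 h2 h3 h4 h5 h6 h7 r hr
  have hfw : Deck e fw := hD fw (by simp)
  have hfix : fw a = a := by
    by_contra hne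
    have := hdisp a (fw a) (hfw.2 a).symm (Ne.symm hne)
    linarith
  have hone : fw = 1 := Deck.ext he hfw Deck.one (a := a) (by simpa using hfix)
  have hloop : ℓ 1 = ℓ 0 := by rw [hℓ1, hone]; rfl
  obtain ⟨hgeo, hvel⟩ := h.fibre
  set c : ℝ → M := fun t => π 2 (P.fib t) with hc
  obtain ⟨γ, hγ⟩ := 𝒜₀.exists_fam (c 0)
  have hex := (hγ.expOK_of_NCP h.ncp).isCoveringMap.1
  set v := 𝒜₀.vel c 0 with hv
  have hγc : ∀ t, γ v t = c t := fun t =>
    MA.IsGeoOn.unique isOpen_univ isPreconnected_univ (hγ.geo v) hgeo (mem_univ 0) (hγ.zero v)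
      (hγ.vel v) (mem_univ t)
  have hray : ∀ t : ℝ, γ (t • v) 1 = c t := fun t => by
    rw [hγ.scale v t 1, mul_one, hγc]
  have h00 : (fun v => γ v 1) 0 = (⟨e, he.continuous⟩ : C(E, M)) (ℓ 0) := by
    have := hray 0
    rw [zero_smul] at this
    simpa [this] using (hℓe 0).symm
  obtain ⟨F, ⟨hF0, hF⟩, -⟩ :=
    hex.existsUnique_continuousMap_lifts (⟨e, he.continuous⟩ : C(E, M)) (ℓ 0) 0 h00
  have hEq : (fun t : ℝ => F (ℓ t)) = fun t : ℝ => t • v := by
    refine hex.eq_of_comp_eq (F.continuous.comp hℓ) (by fun_prop) ?_ 0 (by simp [hF0])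
    funext t
    have := congrFun hF (ℓ t)
    simp only [Function.comp, ContinuousMap.coe_mk] at this ⊢
    rw [this, hray, hℓe]
  have e1 := congrFun hEq 1
  have e0 := congrFun hEq 0
  simp only [one_smul, zero_smul] at e1 e0
  rw [hloop, e0] at e1
  exact hvel e1.symm

end Crest.Agent.R244
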