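import Crest.Agent.R244.Local

/-! # R244: derivative formulas along geodesics in one chart -/

open scoped ContDiff Topology Manifold
open Set Filter
open Crest.GeometryTopology.CoordMetric

noncomputable section

namespace Crest.Agent.R244

set_option linter.unusedSectionVars false
set_option linter.unusedVariables false

variable {U : Set E} {b : E → Bil} {Γ : E → Con} {y Z W : ℝ → E} {t : ℝ}

lemma form_comp_fst (F : Type) [NormedAddCommGroup F] [NormedSpace ℝ F] {c : E → F} {z : E × E}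
    (hc : DifferentiableAt ℝ c z.1) : HasFDerivAt (fun z : E × E => c z.1)
      ((fderiv ℝ c z.1).comp (ContinuousLinearMap.fst ℝ E E)) z :=
  hc.hasFDerivAt.comp z hasFDerivAt_fst

lemma form_comp_curve (F : Type) [NormedAddCommGroup F] [NormedSpace ℝ F] {c : E → F}
    (hc : DifferentiableAt ℝ c (y t)) (hy : DifferentiableAt ℝ y t) :
    HasDerivAt (fun s => c (y s)) (fderiv ℝ c (y t) (deriv y t)) t :=
  hc.hasFDerivAt.comp_hasDerivAt t hy.hasDerivAt

lemma form_smul (F : Type) [NormedAddCommGroup F] [NormedSpace ℝ F] {c : E → F} {y : E}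
    (hc : DifferentiableAt ℝ c y) (a : ℝ) : DifferentiableAt ℝ (fun z => a • c z) y ∧
      fderiv ℝ (fun z => a • c z) y = a • fderiv ℝ c y :=
  ⟨hc.const_smul a, fderiv_fun_const_smul hc a⟩

lemma form_two_le : (2 : WithTop ℕ∞) ≤ ∞ := WithTop.coe_le_coe.2 le_top

lemma form_b_cd (h : LM U b Γ) {y : E} (hy : y ∈ U) : ContDiffAt ℝ ∞ b y :=
  h.b_smooth.contDiffAt (h.isOpen.mem_nhds hy)

lemma form_Γ_cd (h : LM U b Γ) {y : E} (hy : y ∈ U) : ContDiffAt ℝ ∞ Γ y :=
  h.Γ_smooth.contDiffAt (h.isOpen.mem_nhds hy)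

lemma form_b_diff (h : LM U b Γ) {y : E} (hy : y ∈ U) : DifferentiableAt ℝ b y :=
  (form_b_cd h hy).differentiableAt (by simp)

lemma form_Γ_diff (h : LM U b Γ) {y : E} (hy : y ∈ U) : DifferentiableAt ℝ Γ y :=
  (form_Γ_cd h hy).differentiableAt (by simp)

lemma form_fderiv_apply {F : Type} [NormedAddCommGroup F] [NormedSpace ℝ F]
    {c : E → E →L[ℝ] E →L[ℝ] F} {y : E} (hc : DifferentiableAt ℝ c y) (u v w : E) :
    fderiv ℝ (fun z => c z v w) y u = fderiv ℝ c y u v w := by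
  have h1 := ((hc.hasFDerivAt.clm_apply (hasFDerivAt_const v y)).clm_apply
    (hasFDerivAt_const w y)).fderiv
  rw [h1]
  simp

lemma form_fderiv_symm {F : Type} [NormedAddCommGroup F] [NormedSpace ℝ F]
    {c : E → E →L[ℝ] E →L[ℝ] F} {y : E} (hc : DifferentiableAt ℝ c y)
    (hs : ∀ᶠ z in 𝓝 y, ∀ v w, c z v w = c z w v) (u v w : E) :
    fderiv ℝ c y u v w = fderiv ℝ c y u w v := by
  rw [← form_fderiv_apply hc, ← form_fderiv_apply hc]
  congr 1
  exact Filter.EventuallyEq.fderiv_eq (hs.mono fun z hz => hz v w)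

lemma form_Db_symm (h : LM U b Γ) {y : E} (hy : y ∈ U) (u v w : E) :
    fderiv ℝ b y u v w = fderiv ℝ b y u w v :=
  form_fderiv_symm (form_b_diff h hy)
    (Filter.mem_of_superset (h.isOpen.mem_nhds hy) fun z hz => h.symm z hz) u v w

lemma form_DΓ_symm (h : LM U b Γ) {y : E} (hy : y ∈ U) (u v w : E) :
    fderiv ℝ Γ y u v w = fderiv ℝ Γ y u w v :=
  form_fderiv_symm (form_Γ_diff h hy)
    (Filter.mem_of_superset (h.isOpen.mem_nhds hy) fun z hz => h.Γ_symm z hz) u v w

lemma form_diff {f : ℝ → E} (hf : ContDiffAt ℝ 2 f t) :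
    DifferentiableAt ℝ f t ∧ DifferentiableAt ℝ (deriv f) t :=
  ⟨hf.differentiableAt (by simp),
    (hf.derivWithin (m := 1) (by norm_num)).differentiableAt (by simp)⟩

/-- derivative of `(y, u) ↦ c y u u` -/
lemma form_fderiv_quad {c : E → Bil} {z : E × E} (hc : DifferentiableAt ℝ c z.1) (ζ : E × E) :
    fderiv ℝ (fun z : E × E => c z.1 z.2 z.2) z ζ =
      fderiv ℝ c z.1 ζ.1 z.2 z.2 + c z.1 ζ.2 z.2 + c z.1 z.2 ζ.2 := by
  have h0 := form_comp_fst Bil hc
  rw [((h0.clm_apply hasFDerivAt_snd).clm_apply hasFDerivAt_snd).fderiv]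
  simp
  ring

/-- derivative of `(y, u) ↦ c y u w` -/
lemma form_fderiv_lin {c : E → Bil} {z : E × E} (hc : DifferentiableAt ℝ c z.1) (w : E)
    (ζ : E × E) : fderiv ℝ (fun z : E × E => c z.1 z.2 w) z ζ =
      c z.1 ζ.2 w + fderiv ℝ c z.1 ζ.1 z.2 w := by
  have h0 := form_comp_fst Bil hc
  rw [((h0.clm_apply hasFDerivAt_snd).clm_apply (hasFDerivAt_const w z)).fderiv]
  simp

lemma form_nhds (h : LM U b Γ) {z : E × E} (hz : z.1 ∈ U) : ∀ᶠ w : E × E in 𝓝 z, w.1 ∈ U :=
  continuous_fst.continuousAt.eventually (h.isOpen.mem_nhds hz)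

lemma form_spray_diff (h : LM U b Γ) {z : E × E} (hz : z.1 ∈ U) :
    DifferentiableAt ℝ (spray Γ) z :=
  (h.spray_smooth.contDiffAt ((h.isOpen.prod isOpen_univ).mem_nhds ⟨hz, trivial⟩)).differentiableAt
    (by simp)

/-- `D_u b (v,w) = b(Γ(u,v),w) + b(v,Γ(u,w))` (add two `compat` identities; `fderiv b y u` is
symmetric) -/
theorem LM.metric_compat (h : LM U b Γ) {y : E} (hy : y ∈ U) (u v w : E) :
    fderiv ℝ b y u v w = b y (Γ y u v) w + b y v (Γ y u w) := by
  have h1 := h.compat y hy u v w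
  have h2 := h.compat y hy u w v
  rw [h.symm y hy v]
  linarith [form_Db_symm h hy u v w]

theorem LM.hasDerivAt_b (h : LM U b Γ) (hy : y t ∈ U) (hyd : DifferentiableAt ℝ y t)
    (hZ : DifferentiableAt ℝ Z t) (hW : DifferentiableAt ℝ W t) :
    HasDerivAt (fun s => b (y s) (Z s) (W s))
      (b (y t) (cov Γ y Z t) (W t) + b (y t) (Z t) (cov Γ y W t)) t := by
  have h0 := form_comp_curve Bil (form_b_diff h hy) hyd
  refine ((h0.clm_apply hZ.hasDerivAt).clm_apply hW.hasDerivAt).congr_deriv ?_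
  simp only [cov, add_apply, map_add, h.metric_compat hy]
  ring

theorem GeoAt.cov_eq_zero (hg : GeoAt Γ y t) : cov Γ y (deriv y) t = 0 := by
  rw [cov, hg.2, neg_add_cancel]

/-- the Jacobi equation in covariant form -/
theorem JacAt.cov_cov (h : LM U b Γ) (hy : y t ∈ U) (hg : GeoAt Γ y t) (hJ : JacAt Γ y Z t) :
    DifferentiableAt ℝ (cov Γ y Z) t ∧
      cov Γ y (cov Γ y Z) t = -Rm Γ (y t) (Z t) (deriv y t) (deriv y t) := by
  obtain ⟨hy1, hy2⟩ := form_diff hg.1
  obtain ⟨hZ1, hZ2⟩ := form_diff hJ.1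
  have h0 := form_comp_curve Con (form_Γ_diff h hy) hy1
  have h1 : HasDerivAt (cov Γ y Z) _ t :=
    hZ2.hasDerivAt.add ((h0.clm_apply hy2.hasDerivAt).clm_apply hZ1.hasDerivAt)
  refine ⟨h1.differentiableAt, ?_⟩
  rw [cov, h1.deriv, hJ.2, hg.2, cov, Rm, form_DΓ_symm h hy (deriv y t) (Z t),
    h.Γ_symm _ hy (Z t), h.Γ_symm _ hy (Z t)]
  simp only [add_apply, map_add, map_neg, ContinuousLinearMap.neg_apply,
    two_smul]
  abel

/-- `⟨DZ, ẏ⟩` is constant.  Recipe: `lin_of_related` with `T (y,u) = b y u u`, `S = spray Γ`,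
`S' = 0` (`metric_compat`), and `DT (y,u) (Z,W) = 2 b(W + Γ(u,Z), u)`. -/
theorem JacAt.hasDerivAt_energy (h : LM U b Γ) (hy : y t ∈ U) (hg : GeoAt Γ y t)
    (hJ : JacAt Γ y Z t) :
    HasDerivAt (fun s => b (y s) (cov Γ y Z s) (deriv y s)) 0 t := by
  have hT : ContDiffAt ℝ 2 (fun z : E × E => b z.1 z.2 z.2) (y t, deriv y t) := by
    have h0 : ContDiffAt ℝ 2 (fun z : E × E => b z.1) (y t, deriv y t) :=
      ((form_b_cd h hy).of_le form_two_le).comp (y t, deriv y t) contDiffAt_fst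
    exact (h0.clm_apply contDiffAt_snd).clm_apply contDiffAt_snd
  have h1 := lin_of_related (S' := fun _ => (0 : ℝ)) (z := fun s => (y s, deriv y s))
    (ζ := fun s => (Z s, deriv Z s)) hT (form_spray_diff h hy)
    ((form_nhds h (z := (y t, deriv y t)) hy).mono fun w hw => by
      rw [form_fderiv_quad (form_b_diff h hw), h.metric_compat hw]
      simp [spray])
    hg.hasDerivAt (hJ.hasDerivAt h hy)
  have h2 := h1.const_mul (1 / 2 : ℝ)
  simp only [fderiv_fun_const, Pi.zero_apply, zero_apply, mul_zero] at h2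
  refine h2.congr_of_eventuallyEq ?_
  filter_upwards [hg.1.continuousAt.eventually (h.isOpen.mem_nhds hy)] with s hs
  rw [form_fderiv_quad (z := (y s, deriv y s)) (form_b_diff h hs), h.metric_compat hs]
  simp only [cov, map_add, add_apply]
  rw [h.symm _ hs (deriv y s) (deriv Z s), h.symm _ hs (deriv y s), h.Γ_symm _ hs (Z s)]
  ring

/-- momentum form of the geodesic equation -/
theorem GeoAt.momentum (h : LM U b Γ) (hy : y t ∈ U) (hg : GeoAt Γ y t) (w : E) :
    HasDerivAt (fun s => b (y s) (deriv y s) w)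
      (1 / 2 * fderiv ℝ b (y t) w (deriv y t) (deriv y t)) t := by
  obtain ⟨hy1, hy2⟩ := form_diff hg.1
  have h0 := form_comp_curve Bil (form_b_diff h hy) hy1
  refine ((h0.clm_apply hy2.hasDerivAt).clm_apply (hasDerivAt_const t w)).congr_deriv ?_
  have := h.compat _ hy (deriv y t) (deriv y t) w
  simp only [hg.2, add_apply, map_neg, ContinuousLinearMap.neg_apply, map_zero]
  linarith

/-- Momentum form of the Jacobi equation: `lin_of_related` with `T (y,u) = b y u w`,
`S' (y,u) = 1/2 * fderiv b y w u u`. -/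
theorem JacAt.momentum (h : LM U b Γ) (hy : y t ∈ U) (hg : GeoAt Γ y t) (hJ : JacAt Γ y Z t)
    (w : E) :
    HasDerivAt (fun s => b (y s) (deriv Z s) w + fderiv ℝ b (y s) (Z s) (deriv y s) w)
      (fderiv ℝ b (y t) w (deriv y t) (deriv Z t)
        + 1 / 2 * fderiv ℝ (fun y' => fderiv ℝ b y' w (deriv y t) (deriv y t)) (y t) (Z t)) t := by
  have hT : ContDiffAt ℝ 2 (fun z : E × E => b z.1 z.2 w) (y t, deriv y t) := by
    have h0 : ContDiffAt ℝ 2 (fun z : E × E => b z.1) (y t, deriv y t) :=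
      ((form_b_cd h hy).of_le form_two_le).comp (y t, deriv y t) contDiffAt_fst
    exact (h0.clm_apply contDiffAt_snd).clm_apply contDiffAt_const
  have hc : DifferentiableAt ℝ (fun y' => (fderiv ℝ b y' w : Bil)) (y t) :=
    (((form_b_cd h hy).fderiv_right (m := 1) form_two_le).clm_apply
      contDiffAt_const).differentiableAt (by simp)
  have hc' : DifferentiableAt ℝ (fun y' => ((1 / 2 : ℝ) • fderiv ℝ b y' w : Bil)) (y t) :=
    (form_smul Bil hc (1 / 2 : ℝ)).1
  have h1 := lin_of_related (S' := fun z : E × E => ((1 / 2 : ℝ) • fderiv ℝ b z.1 w : Bil) z.2 z.2)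
    (z := fun s => (y s, deriv y s))
    (ζ := fun s => (Z s, deriv Z s)) hT (form_spray_diff h hy)
    ((form_nhds h (z := (y t, deriv y t)) hy).mono fun v hv => by
      rw [form_fderiv_lin (form_b_diff h hv)]
      have := h.compat _ hv v.2 v.2 w
      simp only [spray, map_neg, ContinuousLinearMap.neg_apply, ContinuousLinearMap.smul_apply,
        smul_eq_mul]
      linarith)
    hg.hasDerivAt (hJ.hasDerivAt h hy)
  rw [form_fderiv_quad (c := fun y' => ((1 / 2 : ℝ) • fderiv ℝ b y' w : Bil))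
    (z := (y t, deriv y t)) hc'] at h1
  refine (h1.congr_of_eventuallyEq ?_).congr_deriv ?_
  · filter_upwards [hg.1.continuousAt.eventually (h.isOpen.mem_nhds hy)] with s hs
    rw [form_fderiv_lin (z := (y s, deriv y s)) (form_b_diff h hs)]
  · rw [form_fderiv_apply hc, (form_smul Bil hc (1 / 2 : ℝ)).2]
    simp only [ContinuousLinearMap.smul_apply, smul_eq_mul]
    rw [form_Db_symm h hy w (deriv Z t)]
    ring

end Crest.Agent.R244
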