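import Crest.Agent.R244.Form

/-! # R244: geodesics of a metric atlas (chart independence, uniqueness, speed) -/

open scoped ContDiff Topology Manifold
open Set Filter
open Crest.GeometryTopology.CoordMetric

noncomputable section

namespace Crest.Agent.R244

set_option linter.unusedSectionVars false
set_option linter.unusedVariables false

namespace MA

variable {M : Type} [TopologicalSpace M] {𝒜 : MA M}

lemma geo1_tr_apply {x x' q : M} (h : q ∈ (𝒜.φ x).source) :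
    (𝒜.φ x' ∘ (𝒜.φ x).symm) (𝒜.φ x q) = 𝒜.φ x' q := by
  rw [Function.comp_apply, (𝒜.φ x).left_inv h]

lemma geo1_tr_diff {x x' q : M} (h : q ∈ (𝒜.φ x).source) (h' : q ∈ (𝒜.φ x').source) :
    DifferentiableAt ℝ (𝒜.φ x' ∘ (𝒜.φ x).symm) (𝒜.φ x q) :=
  (𝒜.isom x x' q h h').self_of_nhds.1.differentiableAt (by simp)

theorem dtr_self {x q : M} (hq : q ∈ (𝒜.φ x).source) : 𝒜.dtr x x q = ContinuousLinearMap.id ℝ E := by
  have h : (𝒜.φ x ∘ (𝒜.φ x).symm) =ᶠ[𝓝 (𝒜.φ x q)] id :=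
    (𝒜.φ x).eventually_right_inverse ((𝒜.φ x).map_source hq)
  rw [dtr, h.fderiv_eq, fderiv_id]

theorem dtr_dtr {x x' x'' q : M} (h : q ∈ (𝒜.φ x).source) (h' : q ∈ (𝒜.φ x').source)
    (h'' : q ∈ (𝒜.φ x'').source) (u : E) :
    𝒜.dtr x' x'' q (𝒜.dtr x x' q u) = 𝒜.dtr x x'' q u := by
  have h1 : ∀ᶠ z in 𝓝 (𝒜.φ x q), (𝒜.φ x).symm z ∈ (𝒜.φ x').source := by
    refine ((𝒜.φ x).continuousAt_symm ((𝒜.φ x).map_source h)).eventually ?_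
    rw [(𝒜.φ x).left_inv h]
    exact (𝒜.φ x').open_source.mem_nhds h'
  have h2 : (𝒜.φ x'' ∘ (𝒜.φ x).symm) =ᶠ[𝓝 (𝒜.φ x q)]
      ((𝒜.φ x'' ∘ (𝒜.φ x').symm) ∘ (𝒜.φ x' ∘ (𝒜.φ x).symm)) := by
    filter_upwards [h1] with z hz
    simp only [Function.comp_apply, (𝒜.φ x').left_inv hz]
  have h3 := geo1_tr_diff h' h''
  rw [← geo1_tr_apply (x' := x') h] at h3
  unfold dtr
  rw [h2.fderiv_eq, fderiv_comp _ h3 (geo1_tr_diff h h'), geo1_tr_apply h]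
  rfl

theorem b_dtr {x x' q : M} (h : q ∈ (𝒜.φ x).source) (h' : q ∈ (𝒜.φ x').source) (u v : E) :
    𝒜.b x (𝒜.φ x q) u v = 𝒜.b x' (𝒜.φ x' q) (𝒜.dtr x x' q u) (𝒜.dtr x x' q v) := by
  have := (𝒜.isom x x' q h h').self_of_nhds.2 u v
  rwa [geo1_tr_apply h] at this

theorem ip_symm (x : M) (u v : E) : 𝒜.ip x u v = 𝒜.ip x v u :=
  (𝒜.lm x).symm _ ((𝒜.φ x).map_source (𝒜.mem x)) u v

theorem ip_pos (x : M) {u : E} (hu : u ≠ 0) : 0 < 𝒜.ip x u u :=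
  (𝒜.lm x).pos _ ((𝒜.φ x).map_source (𝒜.mem x)) u hu

theorem ip_nonneg (x : M) (u : E) : 0 ≤ 𝒜.ip x u u := by
  rcases eq_or_ne u 0 with rfl | hu
  · simp [ip]
  · exact (ip_pos x hu).le

theorem rep_self (c : ℝ → M) (J : ℝ → E) (t : ℝ) : 𝒜.rep c J (c t) t = J t := by
  rw [rep, dtr_self (𝒜.mem _)]
  rfl

theorem ip_eq {c : ℝ → M} (J K : ℝ → E) {x : M} {t : ℝ} (h : c t ∈ (𝒜.φ x).source) :
    𝒜.ip (c t) (J t) (K t) = 𝒜.b x (𝒜.φ x (c t)) (𝒜.rep c J x t) (𝒜.rep c K x t) :=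
  b_dtr (𝒜.mem _) h _ _

/-- change of chart for a curve, near a parameter -/
theorem chart_eventuallyEq {c : ℝ → M} {x x' : M} {t : ℝ} (hc : ContinuousAt c t)
    (h : c t ∈ (𝒜.φ x).source) :
    (𝒜.φ x' ∘ c) =ᶠ[𝓝 t] ((𝒜.φ x' ∘ (𝒜.φ x).symm) ∘ (𝒜.φ x ∘ c)) := by
  filter_upwards [hc.eventually ((𝒜.φ x).open_source.mem_nhds h)] with s hs
  simp only [Function.comp_apply, (𝒜.φ x).left_inv hs]

/-- change of chart for a field, near a parameter -/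
theorem rep_eventuallyEq {c : ℝ → M} (J : ℝ → E) {x x' : M} {t : ℝ} (hc : ContinuousAt c t)
    (h : c t ∈ (𝒜.φ x).source) (h' : c t ∈ (𝒜.φ x').source) :
    𝒜.rep c J x' =ᶠ[𝓝 t]
      fun s => fderiv ℝ (𝒜.φ x' ∘ (𝒜.φ x).symm) ((𝒜.φ x ∘ c) s) (𝒜.rep c J x s) := by
  filter_upwards [hc.eventually ((𝒜.φ x).open_source.mem_nhds h),
    hc.eventually ((𝒜.φ x').open_source.mem_nhds h')] with s hs hs'
  exact (dtr_dtr (𝒜.mem (c s)) hs hs' (J s)).symm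

theorem rep_vel {c : ℝ → M} {x : M} {t : ℝ} (hc : ContinuousAt c t)
    (h : c t ∈ (𝒜.φ x).source) (hd : DifferentiableAt ℝ (𝒜.φ x ∘ c) t) :
    𝒜.rep c (𝒜.vel c) x t = deriv (𝒜.φ x ∘ c) t := by
  have h1 : 𝒜.vel c t = 𝒜.dtr x (c t) (c t) (deriv (𝒜.φ x ∘ c) t) := by
    rw [vel, (chart_eventuallyEq (x' := c t) hc h).deriv_eq]
    exact fderiv_comp_deriv t (geo1_tr_diff h (𝒜.mem _)) hd
  rw [rep, h1, dtr_dtr h (𝒜.mem _) h, dtr_self h]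
  rfl

theorem isGeoOn_of {c : ℝ → M} {I : Set ℝ} (hI : IsOpen I) (hc : ContinuousOn c I)
    (h : ∀ t ∈ I, ∃ x, c t ∈ (𝒜.φ x).source ∧ GeoAt (𝒜.Γ x) (𝒜.φ x ∘ c) t) :
    𝒜.IsGeoOn c I := by
  refine ⟨hc, fun x' t ht hx' => ?_⟩
  obtain ⟨x, hx, hg⟩ := h t ht
  have hct : ContinuousAt c t := hc.continuousAt (hI.mem_nhds ht)
  have h1 : GeoAt (𝒜.Γ x') ((𝒜.φ x' ∘ (𝒜.φ x).symm) ∘ (𝒜.φ x ∘ c)) t := by
    refine GeoAt.transf (𝒜.lm x) (𝒜.lm x') ((𝒜.φ x).map_source hx) ?_ (𝒜.isom x x' _ hx hx') hg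
    rw [Function.comp_apply (f := 𝒜.φ x) (g := c), geo1_tr_apply hx]
    exact (𝒜.φ x').map_source hx'
  exact h1.congr (chart_eventuallyEq hct hx) rfl

lemma geo1_eventually {c : ℝ → M} {I : Set ℝ} (hI : IsOpen I) (h : 𝒜.IsGeoOn c I) {x : M} {t : ℝ}
    (ht : t ∈ I) (hx : c t ∈ (𝒜.φ x).source) :
    ∀ᶠ s in 𝓝 t, s ∈ I ∧ c s ∈ (𝒜.φ x).source ∧ GeoAt (𝒜.Γ x) (𝒜.φ x ∘ c) s := by
  filter_upwards [hI.mem_nhds ht,
    (h.1.continuousAt (hI.mem_nhds ht)).eventually ((𝒜.φ x).open_source.mem_nhds hx)] with s hs hs'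
  exact ⟨hs, hs', h.2 x s hs hs'⟩

lemma geo1_local {c₁ c₂ : ℝ → M} {I : Set ℝ} (hI : IsOpen I)
    (h₁ : 𝒜.IsGeoOn c₁ I) (h₂ : 𝒜.IsGeoOn c₂ I) {t : ℝ} (ht : t ∈ I) (h0 : c₁ t = c₂ t)
    (hv : deriv (𝒜.φ (c₁ t) ∘ c₁) t = deriv (𝒜.φ (c₁ t) ∘ c₂) t) : c₁ =ᶠ[𝓝 t] c₂ := by
  set x := c₁ t with hx
  have e₁ := geo1_eventually hI h₁ ht (𝒜.mem x)
  have e₂ := geo1_eventually (x := x) hI h₂ ht (by rw [← h0]; exact 𝒜.mem x)
  have hF : ContDiffAt ℝ 1 (spray (𝒜.Γ x)) ((𝒜.φ x ∘ c₁) t, deriv (𝒜.φ x ∘ c₁) t) :=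
    ((𝒜.lm x).spray_smooth.contDiffAt (((𝒜.lm x).isOpen.prod isOpen_univ).mem_nhds
      ⟨(𝒜.φ x).map_source (𝒜.mem x), mem_univ _⟩)).of_le (by simp)
  have key := ode_unique (f := fun s => ((𝒜.φ x ∘ c₁) s, deriv (𝒜.φ x ∘ c₁) s))
    (g := fun s => ((𝒜.φ x ∘ c₂) s, deriv (𝒜.φ x ∘ c₂) s)) hF
    (e₁.mono fun s hs => hs.2.2.hasDerivAt) (e₂.mono fun s hs => hs.2.2.hasDerivAt)
    (Prod.ext (congrArg (𝒜.φ x) h0) hv)
  filter_upwards [key, e₁, e₂] with s hs s₁ s₂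
  exact (𝒜.φ x).injOn s₁.2.1 s₂.2.1 (congrArg Prod.fst hs)

/-- Recipe: the set of `t ∈ I` with `c₁ =ᶠ[𝓝 t] c₂` is open, and relatively closed by `ode_unique`
for `spray` in the chart at `c₁ t = c₂ t` (`T2Space`, continuity of the coordinate velocities). -/
theorem IsGeoOn.unique [T2Space M] {c₁ c₂ : ℝ → M} {I : Set ℝ} (hI : IsOpen I)
    (hI' : IsPreconnected I) (h₁ : 𝒜.IsGeoOn c₁ I) (h₂ : 𝒜.IsGeoOn c₂ I) {t0 : ℝ} (ht : t0 ∈ I)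
    (h0 : c₁ t0 = c₂ t0) (hv : 𝒜.vel c₁ t0 = 𝒜.vel c₂ t0) : EqOn c₁ c₂ I := by
  have hS : I ⊆ {t | c₁ =ᶠ[𝓝 t] c₂} := by
    refine hI'.subset_of_closure_inter_subset (isOpen_setOfPred_eventually_nhds) ⟨t0, ht, ?_⟩ ?_
    · refine geo1_local hI h₁ h₂ ht h0 ?_
      rw [vel, vel, ← h0] at hv
      exact hv
    · rintro t ⟨hcl, htI⟩
      have hfr : ∃ᶠ s in 𝓝 t, c₁ =ᶠ[𝓝 s] c₂ := mem_closure_iff_frequently.1 hcl
      have e0 : c₁ t = c₂ t :=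
        tendsto_nhds_unique_of_frequently_eq (h₁.1.continuousAt (hI.mem_nhds htI))
          (h₂.1.continuousAt (hI.mem_nhds htI)) (hfr.mono fun s hs => hs.self_of_nhds)
      refine geo1_local hI h₁ h₂ htI e0 ?_
      have d₁ := (h₁.2 (c₁ t) t htI (𝒜.mem _)).hasDerivAt.continuousAt.snd
      have d₂ := (h₂.2 (c₁ t) t htI (e0 ▸ 𝒜.mem _)).hasDerivAt.continuousAt.snd
      exact tendsto_nhds_unique_of_frequently_eq d₁ d₂
        (hfr.mono fun s hs => (hs.fun_comp (𝒜.φ (c₁ t))).deriv_eq)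
  exact fun t ht => (hS ht).self_of_nhds

theorem IsGeoOn.speed {c : ℝ → M} {I : Set ℝ} (hI : IsOpen I) (hI' : IsPreconnected I)
    (h : 𝒜.IsGeoOn c I) {s t : ℝ} (hs : s ∈ I) (ht : t ∈ I) :
    𝒜.ip (c s) (𝒜.vel c s) (𝒜.vel c s) = 𝒜.ip (c t) (𝒜.vel c t) (𝒜.vel c t) := by
  have key : ∀ u ∈ I, HasDerivAt (fun s => 𝒜.ip (c s) (𝒜.vel c s) (𝒜.vel c s)) 0 u := by
    intro u hu
    have e := geo1_eventually hI h hu (𝒜.mem (c u))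
    have hg := e.self_of_nhds.2.2
    have hd : DifferentiableAt ℝ (deriv (𝒜.φ (c u) ∘ c)) u := hg.hasDerivAt.differentiableAt.snd
    have h1 := (𝒜.lm (c u)).hasDerivAt_b (y := 𝒜.φ (c u) ∘ c) (t := u)
      ((𝒜.φ (c u)).map_source (𝒜.mem _)) (hg.1.differentiableAt (by simp)) hd hd
    rw [hg.cov_eq_zero] at h1
    simp only [map_zero, zero_apply, add_zero] at h1
    refine h1.congr_of_eventuallyEq ?_
    filter_upwards [e] with s hs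
    rw [ip_eq (𝒜.vel c) (𝒜.vel c) hs.2.1, rep_vel (h.1.continuousAt (hI.mem_nhds hs.1)) hs.2.1
      (hs.2.2.1.differentiableAt (by simp))]
    rfl
  exact hI.is_const_of_deriv_eq_zero hI'
    (fun u hu => (key u hu).differentiableAt.differentiableWithinAt)
    (fun u hu => (key u hu).deriv) hs ht

lemma geo1_deriv_affine (y : ℝ → E) (a s t : ℝ) :
    deriv (fun t => y (a * t + s)) t = a • deriv y (a * t + s) := by
  rw [← deriv_comp_add_const, ← deriv_comp_mul_left]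

theorem IsGeoOn.affine {c : ℝ → M} {I : Set ℝ} (hI : IsOpen I) (h : 𝒜.IsGeoOn c I) (a s : ℝ) :
    𝒜.IsGeoOn (fun t => c (a * t + s)) {t | a * t + s ∈ I} ∧
      ∀ t, a * t + s ∈ I → 𝒜.vel (fun t => c (a * t + s)) t = a • 𝒜.vel c (a * t + s) := by
  refine ⟨⟨h.1.comp (by fun_prop) (fun t ht => ht), fun x t ht hx => ?_⟩,
    fun t _ => geo1_deriv_affine (𝒜.φ (c (a * t + s)) ∘ c) a s t⟩
  obtain ⟨h1, h2⟩ := h.2 x _ ht hx
  have e : (𝒜.φ x ∘ fun t => c (a * t + s)) = fun t => (𝒜.φ x ∘ c) (a * t + s) := rfl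
  have e' : deriv (fun t => (𝒜.φ x ∘ c) (a * t + s)) =
      fun t => a • deriv (𝒜.φ x ∘ c) (a * t + s) := funext (geo1_deriv_affine _ a s)
  rw [e]
  refine ⟨ContDiffAt.comp (g := 𝒜.φ x ∘ c) (f := fun t => a * t + s) t h1 (by fun_prop), ?_⟩
  rw [e', deriv_fun_const_smul_field, geo1_deriv_affine, h2]
  simp

theorem Fam.scale [T2Space M] {x : M} {γ : E → ℝ → M} (h : 𝒜.Fam x γ) (v : E) (a t : ℝ) :
    γ (a • v) t = γ v (a * t) := by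
  obtain ⟨h1, h2⟩ := IsGeoOn.affine isOpen_univ (h.geo v) a 0
  have h3 := IsGeoOn.unique isOpen_univ isPreconnected_univ (h.geo (a • v)) h1 (mem_univ 0)
    (by simp [h.zero]) (by rw [h2 0 (mem_univ _), h.vel]; simp [h.vel]) (mem_univ t)
  simpa using h3

end MA

end Crest.Agent.R244
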