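import Crest.Agent.R244.Geo1

/-! # R244: completeness and short closed geodesics on a compact atlas -/

open scoped ContDiff Topology Manifold
open Set Filter
open Crest.GeometryTopology.CoordMetric

noncomputable section

namespace Crest.Agent.R244

set_option linter.unusedSectionVars false
set_option linter.unusedVariables false

/-- uniform constants on a compact set -/
theorem geo2_bounds {U K : Set E} {b : E → Bil} {Γ : E → Con} (h : LM U b Γ) (hK : IsCompact K)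
    (hKU : K ⊆ U) : ∃ lam C : ℝ, 0 < lam ∧ 0 < C ∧ ∀ y ∈ K, ∀ u,
      lam * ‖u‖ ^ 2 ≤ b y u u ∧ b y u u ≤ C * ‖u‖ ^ 2 ∧ ‖Γ y u u‖ ≤ C * ‖u‖ ^ 2 := by
  have hb : ContinuousOn b K := h.b_smooth.continuousOn.mono hKU
  have hΓ : ContinuousOn Γ K := h.Γ_smooth.continuousOn.mono hKU
  obtain ⟨C1, hC1⟩ := hK.exists_bound_of_continuousOn (f := b) hb
  obtain ⟨C2, hC2⟩ := hK.exists_bound_of_continuousOn (f := Γ) hΓ
  have hf : ContinuousOn (fun p : E × E => b p.1 p.2 p.2) (K ×ˢ Metric.sphere 0 1) :=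
    ((hb.comp continuous_fst.continuousOn fun p hp => hp.1).clm_apply
      continuous_snd.continuousOn).clm_apply continuous_snd.continuousOn
  obtain ⟨lam, hlam, hl⟩ := (hK.prod (isCompact_sphere (0 : E) 1)).exists_forall_le' hf
    (a := 0) fun p hp => h.pos _ (hKU hp.1) _ (by
      intro h0
      have := hp.2
      rw [h0] at this
      simp at this)
  refine ⟨lam, max (max C1 C2) 1, hlam, lt_of_lt_of_le one_pos (le_max_right _ _),
    fun y hy u => ⟨?_, ?_, ?_⟩⟩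
  · rcases eq_or_ne u 0 with rfl | hu
    · simp
    · have hn : ‖u‖ ≠ 0 := norm_ne_zero_iff.2 hu
      have h1 := hl (y, ‖u‖⁻¹ • u) ⟨hy, by simp [norm_smul, hn]⟩
      simp only [map_smul, smul_apply, smul_eq_mul] at h1
      have h2 : b y u u = ‖u‖ ^ 2 * (‖u‖⁻¹ * (‖u‖⁻¹ * b y u u)) := by field_simp
      rw [h2, mul_comm]
      exact mul_le_mul_of_nonneg_left h1 (by positivity)
  · have h1 := (b y).le_opNorm₂ u u
    have h2 : ‖b y‖ ≤ max (max C1 C2) 1 :=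
      (hC1 y hy).trans ((le_max_left _ _).trans (le_max_left _ _))
    calc b y u u ≤ ‖b y u u‖ := le_abs_self _
      _ ≤ ‖b y‖ * ‖u‖ ^ 2 := by rw [sq, ← mul_assoc]; exact h1
      _ ≤ _ := mul_le_mul_of_nonneg_right h2 (by positivity)
  · have h1 := (Γ y).le_opNorm₂ u u
    have h2 : ‖Γ y‖ ≤ max (max C1 C2) 1 :=
      (hC2 y hy).trans ((le_max_right _ _).trans (le_max_left _ _))
    calc ‖Γ y u u‖ ≤ ‖Γ y‖ * ‖u‖ ^ 2 := by rw [sq, ← mul_assoc]; exact h1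
      _ ≤ _ := mul_le_mul_of_nonneg_right h2 (by positivity)

/-- uniform existence time on a compact subset of phase space -/
theorem geo2_flow {U : Set E} {b : E → Bil} {Γ : E → Con} (h : LM U b Γ) {Z : Set (E × E)}
    (hZ : IsCompact Z) (hZU : Z ⊆ U ×ˢ univ) :
    ∀ᶠ δ in 𝓝 (0 : ℝ), ∀ z ∈ Z, ∃ f : ℝ → E × E, f 0 = z ∧
      ∀ t ∈ Ioo (-δ) δ, (f t).1 ∈ U ∧ HasDerivAt f (spray Γ (f t)) t := by
  refine hZ.eventually_forall_of_forall_eventually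
    (P := fun (δ : ℝ) (z : E × E) => ∃ f : ℝ → E × E, f 0 = z ∧
      ∀ t ∈ Ioo (-δ) δ, (f t).1 ∈ U ∧ HasDerivAt f (spray Γ (f t)) t) fun z0 hz0 => ?_
  obtain ⟨δ, hδ, Φ, h1, h2⟩ := local_flow (h.isOpen.prod isOpen_univ) h.spray_smooth (hZU hz0)
  filter_upwards [prod_mem_nhds (Iio_mem_nhds hδ) (Metric.ball_mem_nhds z0 hδ)] with p hp
  have hsub : Ioo (-p.1) p.1 ⊆ Ioo (-δ) δ :=
    Ioo_subset_Ioo (neg_le_neg (le_of_lt hp.1)) (le_of_lt hp.1)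
  exact ⟨fun s => Φ (s, p.2), (h2 _ hp.2).1, fun t ht =>
    ⟨(h1 (t, p.2) ⟨hsub ht, hp.2⟩).2.1, (h2 _ hp.2).2 t (hsub ht)⟩⟩

theorem geo2_exists_pos {P : ℝ → Prop} (h : ∀ᶠ δ in 𝓝 (0 : ℝ), P δ) : ∃ δ, 0 < δ ∧ P δ := by
  obtain ⟨δ, h1, h2⟩ :=
    ((h.filter_mono (nhdsWithin_le_nhds (s := Ioi 0))).and self_mem_nhdsWithin).exists
  exact ⟨δ, h2, h1⟩

namespace MA

variable {M : Type} [TopologicalSpace M] {𝒜 : MA M}

/-- a finite family of compact coordinate boxes -/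
theorem geo2_cover [CompactSpace M] (𝒜 : MA M) :
    ∃ (S : Finset M) (K : M → Set E) (r : ℝ), 0 < r ∧
      (∀ x, IsCompact (K x) ∧ K x ⊆ (𝒜.φ x).target) ∧
      ∀ q, ∃ x ∈ S, q ∈ (𝒜.φ x).source ∧ Metric.closedBall (𝒜.φ x q) r ⊆ K x := by
  have h1 : ∀ x, ∃ r : ℝ, 0 < r ∧ Metric.closedBall (𝒜.φ x x) (2 * r) ⊆ (𝒜.φ x).target := by
    intro x
    obtain ⟨ε, hε, h⟩ := Metric.nhds_basis_closedBall.mem_iff.1
      ((𝒜.φ x).open_target.mem_nhds ((𝒜.φ x).map_source (𝒜.mem x)))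
    exact ⟨ε / 2, by positivity, by rwa [mul_div_cancel₀ _ two_ne_zero]⟩
  choose r hr hsub using h1
  obtain ⟨S, -, hS⟩ := isCompact_univ.elim_nhds_subcover
    (fun x => (𝒜.φ x).source ∩ 𝒜.φ x ⁻¹' Metric.ball (𝒜.φ x x) (r x)) fun x _ =>
      ((𝒜.φ x).isOpen_inter_preimage Metric.isOpen_ball).mem_nhds
        ⟨𝒜.mem x, Metric.mem_ball_self (hr x)⟩
  obtain ⟨ρ, hρ, hρS⟩ := geo2_exists_pos (P := fun ρ => ∀ x ∈ S, ρ < r x)
    ((eventually_all_finset S).2 fun x _ => Iio_mem_nhds (hr x))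
  refine ⟨S, fun x => Metric.closedBall (𝒜.φ x x) (2 * r x), ρ, hρ,
    fun x => ⟨isCompact_closedBall _ _, hsub x⟩, fun q => ?_⟩
  obtain ⟨x, hx, hq⟩ := mem_iUnion₂.1 (hS (mem_univ q))
  refine ⟨x, hx, hq.1, Metric.closedBall_subset_closedBall' ?_⟩
  have h2 : dist (𝒜.φ x q) (𝒜.φ x x) < r x := hq.2
  have h3 := hρS x hx
  linarith

/-- uniform constants on the boxes -/
theorem geo2_consts (𝒜 : MA M) (S : Finset M) {K : M → Set E}
    (hK : ∀ x, IsCompact (K x) ∧ K x ⊆ (𝒜.φ x).target) :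
    ∃ lam C : ℝ, 0 < lam ∧ 0 < C ∧ ∀ x ∈ S, ∀ y ∈ K x, ∀ u,
      lam * ‖u‖ ^ 2 ≤ 𝒜.b x y u u ∧ 𝒜.b x y u u ≤ C * ‖u‖ ^ 2 ∧
        ‖𝒜.Γ x y u u‖ ≤ C * ‖u‖ ^ 2 := by
  choose lam C hlam hC h using fun x => geo2_bounds (𝒜.lm x) (hK x).1 (hK x).2
  obtain ⟨l, hl, hlS⟩ := geo2_exists_pos (P := fun ρ => ∀ x ∈ S, ρ < lam x)
    ((eventually_all_finset S).2 fun x _ => Iio_mem_nhds (hlam x))
  obtain ⟨D, hD, hDS⟩ := ((eventually_gt_atTop (0 : ℝ)).and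
    ((eventually_all_finset S).2 fun x _ => eventually_ge_atTop (C x))).exists
  refine ⟨l, D, hl, hD, fun x hx y hy u => ?_⟩
  obtain ⟨h1, h2, h3⟩ := h x y hy u
  have h4 : C x * ‖u‖ ^ 2 ≤ D * ‖u‖ ^ 2 := mul_le_mul_of_nonneg_right (hDS x hx) (by positivity)
  exact ⟨(mul_le_mul_of_nonneg_right (hlS x hx).le (by positivity)).trans h1, h2.trans h4,
    h3.trans h4⟩

theorem geo2_vel_congr {c c' : ℝ → M} {t : ℝ} (h : c =ᶠ[𝓝 t] c') : 𝒜.vel c t = 𝒜.vel c' t := by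
  unfold vel
  rw [h.eq_of_nhds]
  exact (h.fun_comp _).deriv_eq

theorem geo2_mono {c : ℝ → M} {I I' : Set ℝ} (h : 𝒜.IsGeoOn c I) (hI : I' ⊆ I) :
    𝒜.IsGeoOn c I' := ⟨h.1.mono hI, fun x t ht => h.2 x t (hI ht)⟩

/-- being a geodesic is a local property -/
theorem geo2_local {c : ℝ → M} {I : Set ℝ}
    (h : ∀ t ∈ I, ∃ c' I', IsOpen I' ∧ t ∈ I' ∧ 𝒜.IsGeoOn c' I' ∧ EqOn c c' I') :
    𝒜.IsGeoOn c I := by
  refine ⟨fun t ht => ?_, fun x t ht hx => ?_⟩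
  · obtain ⟨c', I', h1, h2, h3, h4⟩ := h t ht
    have h5 : c =ᶠ[𝓝 t] c' := eventually_of_mem (h1.mem_nhds h2) h4
    exact ((h3.1.continuousAt (h1.mem_nhds h2)).congr h5.symm).continuousWithinAt
  · obtain ⟨c', I', h1, h2, h3, h4⟩ := h t ht
    have h5 : c =ᶠ[𝓝 t] c' := eventually_of_mem (h1.mem_nhds h2) h4
    exact (h3.2 x t h2 (h4 h2 ▸ hx)).congr (h5.fun_comp _) rfl

/-- Finitely many coordinate balls with uniform constants.  (`r x > 0` with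
`closedBall (φ x x) (2 r x) ⊆ target`; finite subcover of the sets `source ∩ φ⁻¹ (ball (φ x x) (r x))`;
compactness of `closedBall × unit sphere`.) -/
theorem exists_boxes [CompactSpace M] (𝒜 : MA M) :
    ∃ (S : Finset M) (r lam C : ℝ), 0 < r ∧ 0 < lam ∧ 0 < C ∧
      (∀ q, ∃ x ∈ S, q ∈ (𝒜.φ x).source ∧
        Metric.closedBall (𝒜.φ x q) r ⊆ (𝒜.φ x).target ∧
        ∀ y ∈ Metric.closedBall (𝒜.φ x q) r, ∀ u,
          lam * ‖u‖ ^ 2 ≤ 𝒜.b x y u u ∧ 𝒜.b x y u u ≤ C * ‖u‖ ^ 2 ∧ ‖𝒜.Γ x y u u‖ ≤ C * ‖u‖ ^ 2) := by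
  obtain ⟨S, K, r, hr, hK, hS⟩ := 𝒜.geo2_cover
  obtain ⟨lam, C, hlam, hC, h⟩ := 𝒜.geo2_consts S hK
  refine ⟨S, r, lam, C, hr, hlam, hC, fun q => ?_⟩
  obtain ⟨x, hx, hq, hsub⟩ := hS q
  exact ⟨x, hx, hq, hsub.trans (hK x).2, fun y hy => h x hx y (hsub hy)⟩

/-- Uniform existence time.  Recipe: for `x` in a finite cover, the compact set
`closedBall (φ x x) (r x) ×ˢ closedBall 0 ρ` of phase space is covered by finitely many balls of
`local_flow` for `spray (Γ x)`; `geoAt_of_spray`, `isGeoOn_of`, `c t = (φ x).symm (Φ (t,z)).1`;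
initial vector `dtr q x q w`, `rep_vel`, `dtr_dtr`, `dtr_self`. -/
theorem exists_uniform_time [CompactSpace M] (𝒜 : MA M) (s : ℝ) :
    ∃ δ : ℝ, 0 < δ ∧ ∀ q w, 𝒜.ip q w w ≤ s →
      ∃ c, 𝒜.IsGeoOn c (Ioo (-δ) δ) ∧ c 0 = q ∧ 𝒜.vel c 0 = w := by
  obtain ⟨S, K, r, hr, hK, hS⟩ := 𝒜.geo2_cover
  obtain ⟨lam, C, hlam, hC, h⟩ := 𝒜.geo2_consts S hK
  obtain ⟨δ, hδ, hflow⟩ := geo2_exists_pos ((eventually_all_finset S).2 fun x _ =>
    geo2_flow (𝒜.lm x) ((hK x).1.prod (isCompact_closedBall (0 : E) √(s / lam)))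
      (prod_mono (hK x).2 (subset_univ _)))
  refine ⟨δ, hδ, fun q w hw => ?_⟩
  obtain ⟨x, hx, hq, hsub⟩ := hS q
  have hqK : 𝒜.φ x q ∈ K x := hsub (Metric.mem_closedBall_self hr.le)
  have hu : ‖𝒜.dtr q x q w‖ ≤ √(s / lam) := by
    refine Real.le_sqrt_of_sq_le ?_
    rw [le_div_iff₀ hlam, mul_comm]
    refine (h x hx _ hqK _).1.trans ?_
    rw [← b_dtr (𝒜.mem q) hq]
    exact hw
  obtain ⟨f, hf0, hf⟩ := hflow x hx (𝒜.φ x q, 𝒜.dtr q x q w) ⟨hqK, by simpa using hu⟩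
  have hev : ∀ t ∈ Ioo (-δ) δ,
      (𝒜.φ x ∘ fun t => (𝒜.φ x).symm (f t).1) =ᶠ[𝓝 t] fun s => (f s).1 := fun t ht => by
    filter_upwards [isOpen_Ioo.mem_nhds ht] with s hs
    exact (𝒜.φ x).right_inv (hf s hs).1
  have hgeo : ∀ t ∈ Ioo (-δ) δ, GeoAt (𝒜.Γ x) (fun s => (f s).1) t ∧
      deriv (fun s => (f s).1) t = (f t).2 := fun t ht =>
    geoAt_of_spray (𝒜.lm x) (hf t ht).1 (by
      filter_upwards [isOpen_Ioo.mem_nhds ht] with s hs using (hf s hs).2)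
  have hcont : ContinuousOn (fun t => (𝒜.φ x).symm (f t).1) (Ioo (-δ) δ) :=
    (𝒜.φ x).continuousOn_symm.comp
      (fun t ht => (hf t ht).2.continuousAt.fst.continuousWithinAt) fun t ht => (hf t ht).1
  have h0 : (0 : ℝ) ∈ Ioo (-δ) δ := ⟨neg_lt_zero.2 hδ, hδ⟩
  have hc0 : (𝒜.φ x).symm (f 0).1 = q := by rw [hf0]; exact (𝒜.φ x).left_inv hq
  refine ⟨fun t => (𝒜.φ x).symm (f t).1, isGeoOn_of isOpen_Ioo hcont fun t ht =>
    ⟨x, (𝒜.φ x).map_target (hf t ht).1, (hgeo t ht).1.congr (hev t ht) ?_⟩, hc0, ?_⟩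
  · rfl
  · have h1 := rep_vel (𝒜 := 𝒜) (c := fun t => (𝒜.φ x).symm (f t).1) (x := x) (t := 0)
      (hcont.continuousAt (isOpen_Ioo.mem_nhds h0)) ((𝒜.φ x).map_target (hf 0 h0).1)
      (((hgeo 0 h0).1.1.differentiableAt (by norm_num)).congr_of_eventuallyEq (hev 0 h0))
    rw [(hev 0 h0).deriv_eq, (hgeo 0 h0).2, hf0] at h1
    simp only [rep, hc0] at h1
    have h2 := congrArg (𝒜.dtr x q q) h1
    rwa [dtr_dtr (𝒜.mem q) hq (𝒜.mem q), dtr_dtr (𝒜.mem q) hq (𝒜.mem q), dtr_self (𝒜.mem q),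
      ContinuousLinearMap.id_apply, ContinuousLinearMap.id_apply] at h2

/-- extension of a geodesic -/
theorem geo2_ext [T2Space M] {s δ : ℝ} (hδ : 0 < δ) (H : ∀ q w, 𝒜.ip q w w ≤ s →
      ∃ c, 𝒜.IsGeoOn c (Ioo (-δ) δ) ∧ c 0 = q ∧ 𝒜.vel c 0 = w) {c : ℝ → M} {a b t : ℝ}
    (hc : 𝒜.IsGeoOn c (Ioo a b)) (h0 : (0 : ℝ) ∈ Ioo a b) (ht : t ∈ Ioo a b)
    (hs : 𝒜.ip (c 0) (𝒜.vel c 0) (𝒜.vel c 0) ≤ s) :
    ∃ c', 𝒜.IsGeoOn c' (Ioo a b ∪ Ioo (t - δ) (t + δ)) ∧ c' 0 = c 0 ∧ 𝒜.vel c' 0 = 𝒜.vel c 0 := by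
  classical
  obtain ⟨d, hd, hd0, hdv⟩ := H (c t) (𝒜.vel c t)
    ((hc.speed isOpen_Ioo isPreconnected_Ioo ht h0).trans_le hs)
  obtain ⟨h1, h2⟩ := hd.affine isOpen_Ioo 1 (-t)
  have hI : Ioo (t - δ) (t + δ) ⊆ {u | 1 * u + -t ∈ Ioo (-δ) δ} := fun u hu =>
    ⟨by linarith [hu.1], by linarith [hu.2]⟩
  have htI : t ∈ Ioo (t - δ) (t + δ) := ⟨by linarith, by linarith⟩
  have h3 := geo2_mono h1 hI
  have htt : 1 * t + -t = 0 := by ring
  have heq : EqOn c (fun u => d (1 * u + -t)) (Ioo a b ∩ Ioo (t - δ) (t + δ)) :=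
    IsGeoOn.unique (isOpen_Ioo.inter isOpen_Ioo)
      ((convex_Ioo _ _).inter (convex_Ioo _ _)).isPreconnected
      (geo2_mono hc inter_subset_left) (geo2_mono h3 inter_subset_right) ⟨ht, htI⟩
      (by simp only [htt, hd0]) (by rw [h2 t (hI htI), htt, one_smul, hdv])
  have hev : EqOn ((Ioo a b).piecewise c fun u => d (1 * u + -t)) c (Ioo a b) :=
    fun u hu => piecewise_eq_of_mem _ _ _ hu
  refine ⟨(Ioo a b).piecewise c fun u => d (1 * u + -t), geo2_local fun u hu => ?_, hev h0,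
    geo2_vel_congr (eventually_of_mem (isOpen_Ioo.mem_nhds h0) hev)⟩
  rcases hu with hu | hu
  · exact ⟨c, _, isOpen_Ioo, hu, hc, hev⟩
  · refine ⟨_, _, isOpen_Ioo, hu, h3, fun u' hu' => ?_⟩
    by_cases h : u' ∈ Ioo a b
    · rw [hev h]; exact heq ⟨h, hu'⟩
    · exact piecewise_eq_of_notMem _ _ _ h

/-- Recipe: by induction a geodesic on `Ioo (-(n+1)δ/2) ((n+1)δ/2)` (patch a translated local
geodesic at each end: `IsGeoOn.affine`, `IsGeoOn.speed`, `IsGeoOn.unique`, `GeoAt.congr`), then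
`c t = c_{n(t)} t`. -/
theorem exists_geo [T2Space M] [CompactSpace M] (𝒜 : MA M) (x : M) (v : E) :
    ∃ c, 𝒜.IsGeo c ∧ c 0 = x ∧ 𝒜.vel c 0 = v := by
  obtain ⟨δ, hδ, H⟩ := 𝒜.exists_uniform_time (𝒜.ip x v v)
  have key : ∀ n : ℕ, ∃ c, 𝒜.IsGeoOn c (Ioo (-((n + 2) * (δ / 2))) ((n + 2) * (δ / 2))) ∧
      c 0 = x ∧ 𝒜.vel c 0 = v := by
    intro n
    induction n with
    | zero =>
      obtain ⟨c, h1, h2, h3⟩ := H x v le_rfl
      refine ⟨c, geo2_mono h1 fun u hu => ⟨?_, ?_⟩, h2, h3⟩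
      · have := hu.1; push_cast at this; linarith
      · have := hu.2; push_cast at this; linarith
    | succ n ih =>
      obtain ⟨c, h1, h2, h3⟩ := ih
      have hn : (0 : ℝ) ≤ n * (δ / 2) := by positivity
      obtain ⟨c₁, a1, a2, a3⟩ := geo2_ext hδ H h1 (t := (n + 1) * (δ / 2))
        ⟨by nlinarith, by nlinarith⟩ ⟨by nlinarith, by nlinarith⟩ (by rw [h2, h3])
      have a4 : 𝒜.IsGeoOn c₁ (Ioo (-((n + 2) * (δ / 2))) ((n + 3) * (δ / 2))) :=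
        geo2_mono a1 fun u hu => by
          by_cases h : u < (n + 2) * (δ / 2)
          · exact Or.inl ⟨hu.1, h⟩
          · exact Or.inr ⟨by nlinarith, by nlinarith [hu.2]⟩
      obtain ⟨c₂, b1, b2, b3⟩ := geo2_ext hδ H a4 (t := -((n + 1) * (δ / 2)))
        ⟨by nlinarith, by nlinarith⟩ ⟨by nlinarith, by nlinarith⟩ (by rw [a2, a3, h2, h3])
      refine ⟨c₂, geo2_mono b1 fun u hu => ?_, by rw [b2, a2, h2], by rw [b3, a3, h3]⟩
      have h4 := hu.1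
      have h5 := hu.2
      push_cast at h4 h5
      by_cases h : -((n + 2) * (δ / 2)) < u
      · exact Or.inl ⟨h, by nlinarith⟩
      · exact Or.inr ⟨by nlinarith, by nlinarith⟩
  choose c h1 h2 h3 using key
  have hN : ∀ t : ℝ, ∃ n : ℕ, t ∈ Ioo (-((n + 2) * (δ / 2))) ((n + 2) * (δ / 2)) := by
    intro t
    obtain ⟨n, hn⟩ := exists_nat_gt (|t| / (δ / 2))
    rw [div_lt_iff₀ (by positivity)] at hn
    have := abs_lt.1 hn
    exact ⟨n, by linarith [this.1], by linarith [this.2]⟩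
  choose N hN using hN
  have h0 : ∀ n : ℕ, (0 : ℝ) ∈ Ioo (-((n + 2) * (δ / 2))) ((n + 2) * (δ / 2)) := fun n =>
    ⟨neg_lt_zero.2 (by positivity), by positivity⟩
  have hev : ∀ n : ℕ, EqOn (fun t => c (N t) t) (c n)
      (Ioo (-((n + 2) * (δ / 2))) ((n + 2) * (δ / 2))) := fun n t ht =>
    IsGeoOn.unique (isOpen_Ioo.inter isOpen_Ioo)
      ((convex_Ioo _ _).inter (convex_Ioo _ _)).isPreconnected
      (geo2_mono (h1 (N t)) inter_subset_left) (geo2_mono (h1 n) inter_subset_right)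
      ⟨h0 _, h0 _⟩ (by rw [h2, h2]) (by rw [h3, h3]) ⟨hN t, ht⟩
  refine ⟨fun t => c (N t) t, geo2_local fun t _ => ⟨_, _, isOpen_Ioo, hN t, h1 _, hev _⟩,
    h2 _, ?_⟩
  rw [geo2_vel_congr (eventually_of_mem (isOpen_Ioo.mem_nhds (h0 0)) (hev 0)), h3]

theorem exists_fam [T2Space M] [CompactSpace M] (𝒜 : MA M) (x : M) : ∃ γ, 𝒜.Fam x γ := by
  choose γ h1 h2 h3 using 𝒜.exists_geo x
  exact ⟨γ, h1, h2, h3⟩

/-- No short geodesic loops.  Recipe: `exists_boxes`; speed² `s²`.  While the coordinate curve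
stays in the ball, `‖y'‖² ≤ s²/lam`; if `s²/lam < r²` it stays there on `[0,1]` (continuity
argument; `T2Space` makes `(φ x).symm '' closedBall` closed).  Then
`‖y 1 - y 0 - y' 0‖ ≤ C s²/lam` while `‖y' 0‖² ≥ s²/C`. -/
theorem disp [T2Space M] [CompactSpace M] (𝒜 : MA M) :
    ∃ r : ℝ, 0 < r ∧ ∀ c, 𝒜.IsGeo c → c 1 = c 0 → 𝒜.vel c 0 ≠ 0 →
      r ^ 2 ≤ 𝒜.ip (c 0) (𝒜.vel c 0) (𝒜.vel c 0) := by
  obtain ⟨S, r, lam, C, hr, hlam, hC, hS⟩ := 𝒜.exists_boxes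
  refine ⟨√(min (lam * r ^ 2) (lam ^ 2 / C ^ 3)), Real.sqrt_pos.2 (by positivity),
    fun c hc h10 hv => ?_⟩
  rw [Real.sq_sqrt (by positivity)]
  set σ := 𝒜.ip (c 0) (𝒜.vel c 0) (𝒜.vel c 0) with hσ
  have hσ0 : 0 < σ := ip_pos _ hv
  rcases le_or_gt (lam * r ^ 2) σ with hlt | hlt
  · exact (min_le_left _ _).trans hlt
  refine (min_le_right _ _).trans ?_
  obtain ⟨x, -, hx, hball, hb⟩ := hS (c 0)
  have hcc : Continuous c := continuousOn_univ.1 hc.1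
  set y := 𝒜.φ x ∘ c with hy
  -- derivatives and speed in the chart
  have hd : ∀ t, c t ∈ (𝒜.φ x).source → HasDerivAt y (deriv y t) t ∧
      HasDerivAt (deriv y) (-𝒜.Γ x (y t) (deriv y t) (deriv y t)) t ∧
      𝒜.b x (y t) (deriv y t) (deriv y t) = σ := by
    intro t ht
    have h1 := (hc.2 x t (mem_univ t) ht).hasDerivAt
    have h2 : HasDerivAt y (deriv y t) t := h1.fst
    refine ⟨h2, h1.snd, ?_⟩
    rw [hσ, ← IsGeoOn.speed isOpen_univ isPreconnected_univ hc (mem_univ t) (mem_univ 0),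
      ip_eq (𝒜.vel c) (𝒜.vel c) ht, rep_vel hcc.continuousAt ht h2.differentiableAt]
    rfl
  set A := (𝒜.φ x).symm '' Metric.closedBall (𝒜.φ x (c 0)) r with hA
  have hAc : IsClosed A :=
    ((isCompact_closedBall _ _).image_of_continuousOn
      ((𝒜.φ x).continuousOn_symm.mono hball)).isClosed
  have hmem : ∀ t, c t ∈ A ↔ c t ∈ (𝒜.φ x).source ∧ y t ∈ Metric.closedBall (y 0) r := by
    intro t
    constructor
    · rintro ⟨z, hz, h⟩
      refine ⟨h ▸ (𝒜.φ x).map_target (hball hz), ?_⟩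
      have : y t = z := by
        simp only [hy, Function.comp_apply, ← h]
        exact (𝒜.φ x).right_inv (hball hz)
      rw [this]
      exact hz
    · rintro ⟨h1, h2⟩
      exact ⟨_, h2, (𝒜.φ x).left_inv h1⟩
  have hsq : ∀ t, c t ∈ A → ‖deriv y t‖ ^ 2 ≤ σ / lam := fun t ht => by
    obtain ⟨h1, h2⟩ := (hmem t).1 ht
    rw [le_div_iff₀ hlam, mul_comm, ← (hd t h1).2.2]
    exact (hb _ h2 _).1
  have hsub : Icc (0 : ℝ) 1 ⊆ c ⁻¹' A := by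
    refine IsClosed.Icc_subset_of_forall_mem_nhdsGT_of_Icc_subset
      ((hAc.preimage hcc).inter isClosed_Icc)
      ((hmem 0).2 ⟨hx, Metric.mem_closedBall_self hr.le⟩) fun t ht hI => ?_
    have h1 := norm_image_sub_le_of_norm_deriv_le_segment' (f := y) (f' := deriv y)
      (a := 0) (b := t) (C := √(σ / lam))
      (fun u hu => (hd u ((hmem u).1 (hI hu)).1).1.hasDerivWithinAt)
      (fun u hu => Real.le_sqrt_of_sq_le (hsq u (hI (Ico_subset_Icc_self hu)))) t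
      (right_mem_Icc.2 ht.1)
    have h2 : √(σ / lam) < r := by
      rw [Real.sqrt_lt' hr, div_lt_iff₀ hlam, mul_comm]
      exact hlt
    have h3 : y t ∈ Metric.ball (y 0) r := by
      rw [mem_ball_iff_norm]
      have := Real.sqrt_nonneg (σ / lam)
      nlinarith [ht.1, ht.2]
    have h4 : (𝒜.φ x).source ∩ 𝒜.φ x ⁻¹' Metric.ball (y 0) r ∈ 𝓝 (c t) :=
      ((𝒜.φ x).isOpen_inter_preimage Metric.isOpen_ball).mem_nhds
        ⟨((hmem t).1 (hI (right_mem_Icc.2 ht.1))).1, h3⟩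
    refine mem_nhdsWithin_of_mem_nhds ?_
    filter_upwards [hcc.continuousAt.preimage_mem_nhds h4] with u hu
    exact (hmem u).2 ⟨hu.1, Metric.ball_subset_closedBall hu.2⟩
  have hsrc : ∀ t ∈ Icc (0 : ℝ) 1, c t ∈ (𝒜.φ x).source := fun t ht => ((hmem t).1 (hsub ht)).1
  have h1 : ∀ t ∈ Icc (0 : ℝ) 1, ‖deriv y t - deriv y 0‖ ≤ C * (σ / lam) * (t - 0) :=
    norm_image_sub_le_of_norm_deriv_le_segment'
      (fun u hu => (hd u (hsrc u hu)).2.1.hasDerivWithinAt) fun u hu => by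
        have hu' := hsub (Ico_subset_Icc_self hu)
        rw [norm_neg]
        exact (hb _ ((hmem u).1 hu').2 _).2.2.trans (mul_le_mul_of_nonneg_left (hsq u hu') hC.le)
  have h2 := norm_image_sub_le_of_norm_deriv_le_segment_01'
    (f := fun t => y t - t • deriv y 0) (f' := fun t => deriv y t - deriv y 0)
    (C := C * (σ / lam))
    (fun u hu => by
      have := (hd u (hsrc u hu)).1.sub ((hasDerivAt_id u).smul_const (deriv y 0))
      rw [one_smul] at this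
      exact this.hasDerivWithinAt)
    (fun u hu => (h1 u (Ico_subset_Icc_self hu)).trans (by
      have : 0 ≤ C * (σ / lam) := by positivity
      nlinarith [hu.1, hu.2]))
  have h3 : y 1 = y 0 := by simp only [hy, Function.comp_apply, h10]
  simp only [h3, one_smul, zero_smul, sub_zero, sub_sub_cancel_left, norm_neg] at h2
  have h4 : σ ≤ C * ‖deriv y 0‖ ^ 2 := by
    rw [← (hd 0 hx).2.2]
    exact (hb _ (Metric.mem_closedBall_self hr.le) _).2.1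
  have h5 : σ ≤ C * (C * (σ / lam)) ^ 2 :=
    h4.trans (mul_le_mul_of_nonneg_left (pow_le_pow_left₀ (norm_nonneg _) h2 2) hC.le)
  rw [div_le_iff₀ (by positivity)]
  have h6 : C * (C * (σ / lam)) ^ 2 = σ * (σ * C ^ 3 / lam ^ 2) := by field_simp
  rw [h6, le_mul_iff_one_le_right hσ0, le_div_iff₀ (by positivity), one_mul] at h5
  exact h5

end MA

end Crest.Agent.R244
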