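import Crest.Agent.R244.Geo1

/-! # R244: smooth dependence of geodesics on the initial vector -/

open scoped ContDiff Topology Manifold
open Set Filter
open Crest.GeometryTopology.CoordMetric

noncomputable section

namespace Crest.Agent.R244

set_option linter.unusedSectionVars false
set_option linter.unusedVariables false

namespace MA

variable {M : Type} [TopologicalSpace M] {𝒜 : MA M}

/-- change of chart for the velocity -/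
lemma Geo3_deriv_chart {c : ℝ → M} {x x' : M} {t : ℝ} (hc : ContinuousAt c t)
    (h : c t ∈ (𝒜.φ x).source) (h' : c t ∈ (𝒜.φ x').source)
    (hd : DifferentiableAt ℝ (𝒜.φ x ∘ c) t) :
    deriv (𝒜.φ x' ∘ c) t
      = fderiv ℝ (𝒜.φ x' ∘ (𝒜.φ x).symm) (𝒜.φ x (c t)) (deriv (𝒜.φ x ∘ c) t) := by
  have hτ : DifferentiableAt ℝ (𝒜.φ x' ∘ (𝒜.φ x).symm) ((𝒜.φ x ∘ c) t) :=
    (𝒜.isom x x' (c t) h h').self_of_nhds.1.differentiableAt (by simp)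
  rw [(chart_eventuallyEq (x' := x') hc h).deriv_eq]
  exact (hτ.hasFDerivAt.comp_hasDerivAt t hd.hasDerivAt).deriv

/-- the state of the geodesic `γ v` at time `t` in the chart at `x'` -/
def Geo3st (𝒜 : MA M) (γ : E → ℝ → M) (x' : M) (p : ℝ × E) : E × E :=
  (𝒜.φ x' (γ p.2 p.1), deriv (𝒜.φ x' ∘ γ p.2) p.1)

lemma Geo3_cont {x : M} {γ : E → ℝ → M} (h : 𝒜.Fam x γ) (v : E) (t : ℝ) :
    ContinuousAt (γ v) t :=
  (h.geo v).1.continuousAt univ_mem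

lemma Geo3_geoAt {x : M} {γ : E → ℝ → M} (h : 𝒜.Fam x γ) (v : E) {t : ℝ} {x' : M}
    (ht : γ v t ∈ (𝒜.φ x').source) : GeoAt (𝒜.Γ x') (𝒜.φ x' ∘ γ v) t :=
  (h.geo v).2 x' t (mem_univ _) ht

/-- smoothness of the state does not depend on the chart -/
lemma Geo3_chart {x : M} {γ : E → ℝ → M} (h : 𝒜.Fam x γ) {p0 : ℝ × E} {x1 x2 : M}
    (hc : ContinuousAt (fun p : ℝ × E => γ p.2 p.1) p0) (h1 : γ p0.2 p0.1 ∈ (𝒜.φ x1).source)
    (h2 : γ p0.2 p0.1 ∈ (𝒜.φ x2).source) (hs : ContDiffAt ℝ 3 (Geo3st 𝒜 γ x1) p0) :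
    ContDiffAt ℝ 3 (Geo3st 𝒜 γ x2) p0 := by
  set τ : E → E := 𝒜.φ x2 ∘ (𝒜.φ x1).symm with hτ
  have hτs : ContDiffAt ℝ ∞ τ (𝒜.φ x1 (γ p0.2 p0.1)) :=
    (𝒜.isom x1 x2 _ h1 h2).self_of_nhds.1
  have hY : ContDiffAt ℝ 3 (fun p => (Geo3st 𝒜 γ x1 p).1) p0 := hs.fst
  have hU : ContDiffAt ℝ 3 (fun p => (Geo3st 𝒜 γ x1 p).2) p0 := hs.snd
  have hτ3 : ContDiffAt ℝ 3 τ ((Geo3st 𝒜 γ x1 p0).1) := hτs.of_le
    (WithTop.coe_le_coe.2 (le_top : (3 : ℕ∞) ≤ ⊤))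
  have hτd : ContDiffAt ℝ 3 (fderiv ℝ τ) ((Geo3st 𝒜 γ x1 p0).1) :=
    hτs.fderiv_right (WithTop.coe_le_coe.2 (le_top : ((3 : ℕ∞) + 1) ≤ ⊤))
  have hT : ContDiffAt ℝ 3 (fun p => (τ (Geo3st 𝒜 γ x1 p).1,
      fderiv ℝ τ (Geo3st 𝒜 γ x1 p).1 (Geo3st 𝒜 γ x1 p).2)) p0 :=
    (hτ3.comp p0 hY).prodMk ((hτd.comp p0 hY).clm_apply hU)
  refine hT.congr_of_eventuallyEq ?_
  filter_upwards [hc.eventually ((𝒜.φ x1).open_source.mem_nhds h1),
    hc.eventually ((𝒜.φ x2).open_source.mem_nhds h2)] with p hp1 hp2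
  refine Prod.ext ?_ ?_
  · simp only [Geo3st, hτ, Function.comp_apply, (𝒜.φ x1).left_inv hp1]
  · exact Geo3_deriv_chart (Geo3_cont h _ _) hp1 hp2
      ((Geo3_geoAt h _ hp1).1.differentiableAt (by simp))

/-- a geodesic of the family is given by the local flow -/
lemma Geo3_flow [T2Space M] {x : M} {γ : E → ℝ → M} (h : 𝒜.Fam x γ) {x' : M} {δ : ℝ}
    (hδ : 0 < δ) {ψ : ℝ → E × E} (hU : ∀ s ∈ Ioo (-δ) δ, (ψ s).1 ∈ (𝒜.φ x').target)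
    (hd : ∀ s ∈ Ioo (-δ) δ, HasDerivAt ψ (spray (𝒜.Γ x') (ψ s)) s) {v : E} {t1 : ℝ}
    (h1 : γ v t1 ∈ (𝒜.φ x').source) (h0 : ψ 0 = Geo3st 𝒜 γ x' (t1, v)) {t : ℝ}
    (ht : t - t1 ∈ Ioo (-δ) δ) :
    γ v t = (𝒜.φ x').symm (ψ (t - t1)).1 ∧ Geo3st 𝒜 γ x' (t, v) = ψ (t - t1) := by
  set I : Set ℝ := Ioo (t1 - δ) (t1 + δ) with hI
  have hmem : ∀ s, s ∈ I ↔ s - t1 ∈ Ioo (-δ) δ := by
    intro s
    simp only [hI, mem_Ioo]
    constructor <;> rintro ⟨a, b⟩ <;> constructor <;> linarith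
  have hIo : IsOpen I := isOpen_Ioo
  set z : ℝ → E × E := fun s => ψ (s - t1) with hz
  have hzd : ∀ s ∈ I, HasDerivAt z (spray (𝒜.Γ x') (z s)) s := fun s hs =>
    (hd _ ((hmem s).1 hs)).comp_sub_const s t1
  have hzU : ∀ s ∈ I, (z s).1 ∈ (𝒜.φ x').target := fun s hs => hU _ ((hmem s).1 hs)
  set c : ℝ → M := fun s => (𝒜.φ x').symm (z s).1 with hc
  have hcc : ∀ s ∈ I, ContinuousAt c s := fun s hs =>
    ContinuousAt.comp (g := (𝒜.φ x').symm) (f := fun s => (z s).1)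
      ((𝒜.φ x').continuousAt_symm (hzU s hs)) (hzd s hs).continuousAt.fst
  have hcs : ∀ s ∈ I, c s ∈ (𝒜.φ x').source := fun s hs => (𝒜.φ x').map_target (hzU s hs)
  have hce : ∀ s ∈ I, (𝒜.φ x' ∘ c) =ᶠ[𝓝 s] fun s => (z s).1 := by
    intro s hs
    filter_upwards [hIo.mem_nhds hs] with s' hs'
    exact (𝒜.φ x').right_inv (hzU s' hs')
  have hsp : ∀ s ∈ I, GeoAt (𝒜.Γ x') (fun s => (z s).1) s ∧
      deriv (fun s => (z s).1) s = (z s).2 := fun s hs =>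
    geoAt_of_spray (𝒜.lm x') (hzU s hs) (by
      filter_upwards [hIo.mem_nhds hs] with s' hs' using hzd s' hs')
  have hcg : ∀ s ∈ I, GeoAt (𝒜.Γ x') (𝒜.φ x' ∘ c) s := fun s hs =>
    (hsp s hs).1.congr (hce s hs) rfl
  have hgeo : 𝒜.IsGeoOn c I :=
    isGeoOn_of hIo (fun s hs => (hcc s hs).continuousWithinAt)
      (fun s hs => ⟨x', hcs s hs, hcg s hs⟩)
  have hgeo' : 𝒜.IsGeoOn (γ v) I :=
    ⟨(h.geo v).1.mono (subset_univ _), fun x'' s _ hs => Geo3_geoAt h v hs⟩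
  have ht1 : t1 ∈ I := by
    rw [hmem]
    simp [hδ]
  have hz1 : z t1 = Geo3st 𝒜 γ x' (t1, v) := by simp only [hz, sub_self, h0]
  have hc1 : γ v t1 = c t1 := by
    simp only [hc, hz1, Geo3st, (𝒜.φ x').left_inv h1]
  have hvel : 𝒜.vel (γ v) t1 = 𝒜.vel c t1 := by
    unfold vel
    rw [Geo3_deriv_chart (Geo3_cont h v t1) h1 (𝒜.mem _)
      ((Geo3_geoAt h v h1).1.differentiableAt (by simp)),
      Geo3_deriv_chart (hcc t1 ht1) (hcs t1 ht1) (𝒜.mem _)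
      ((hcg t1 ht1).1.differentiableAt (by simp)), ← hc1, (hce t1 ht1).deriv_eq, (hsp t1 ht1).2,
      hz1]
    rfl
  have heq : EqOn (γ v) c I :=
    IsGeoOn.unique hIo isPreconnected_Ioo hgeo' hgeo ht1 hc1 hvel
  have htI : t ∈ I := (hmem t).2 ht
  refine ⟨heq htI, Prod.ext ?_ ?_⟩
  · show 𝒜.φ x' (γ v t) = (z t).1
    rw [heq htI]
    exact (𝒜.φ x').right_inv (hzU t htI)
  · show deriv (𝒜.φ x' ∘ γ v) t = (z t).2
    rw [← (hsp t htI).2, ← (hce t htI).deriv_eq]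
    refine Filter.EventuallyEq.deriv_eq ?_
    filter_upwards [hIo.mem_nhds htI] with s hs
    simp only [Function.comp_apply, heq hs]

/-- the key step -/
lemma Geo3_step [T2Space M] {x : M} {γ : E → ℝ → M} (h : 𝒜.Fam x γ) (v0 : E) (ts : ℝ) {xs : M}
    (hs : γ v0 ts ∈ (𝒜.φ xs).source) :
    ∃ η : ℝ, 0 < η ∧ (∀ t1 ∈ Metric.ball ts η, γ v0 t1 ∈ (𝒜.φ xs).source) ∧
      ∀ t1 ∈ Metric.ball ts η, ContinuousAt (fun v => γ v t1) v0 →
        ContDiffAt ℝ 3 (fun v => Geo3st 𝒜 γ xs (t1, v)) v0 → ∀ t ∈ Metric.ball ts η,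
          ContinuousAt (fun p : ℝ × E => γ p.2 p.1) (t, v0) ∧
            ContDiffAt ℝ 3 (Geo3st 𝒜 γ xs) (t, v0) := by
  have hUo : IsOpen ((𝒜.φ xs).target ×ˢ (univ : Set E)) :=
    (𝒜.φ xs).open_target.prod isOpen_univ
  have hz0 : Geo3st 𝒜 γ xs (ts, v0) ∈ (𝒜.φ xs).target ×ˢ (univ : Set E) :=
    ⟨(𝒜.φ xs).map_source hs, mem_univ _⟩
  obtain ⟨δ, hδ, Φ, hΦ, hΦ'⟩ := local_flow hUo (𝒜.lm xs).spray_smooth hz0
  have hcst : ContinuousAt (fun t => Geo3st 𝒜 γ xs (t, v0)) ts :=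
    (Geo3_geoAt h v0 hs).hasDerivAt.continuousAt
  have hev : ∀ᶠ t in 𝓝 ts, γ v0 t ∈ (𝒜.φ xs).source ∧
      Geo3st 𝒜 γ xs (t, v0) ∈ Metric.ball (Geo3st 𝒜 γ xs (ts, v0)) δ :=
    ((Geo3_cont h v0 ts).eventually ((𝒜.φ xs).open_source.mem_nhds hs)).and
      (hcst.eventually (Metric.ball_mem_nhds _ hδ))
  obtain ⟨η, hη, hball⟩ := Metric.eventually_nhds_iff_ball.1 hev
  have hsub : Metric.ball ts (min η (δ / 2)) ⊆ Metric.ball ts η :=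
    Metric.ball_subset_ball (min_le_left _ _)
  refine ⟨min η (δ / 2), lt_min hη (half_pos hδ), fun t1 ht1 => (hball t1 (hsub ht1)).1,
    fun t1 ht1 hc1 hs1 t ht => ?_⟩
  obtain ⟨hsrc, hb1⟩ := hball t1 (hsub ht1)
  have htt : t - t1 ∈ Ioo (-δ) δ := by
    rw [Metric.mem_ball, Real.dist_eq] at ht ht1
    have a1 := abs_lt.1 (lt_of_lt_of_le ht (min_le_right _ _))
    have a2 := abs_lt.1 (lt_of_lt_of_le ht1 (min_le_right _ _))
    constructor <;> linarith [a1.1, a1.2, a2.1, a2.2]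
  set g : ℝ × E → ℝ × (E × E) := fun p => (p.1 - t1, Geo3st 𝒜 γ xs (t1, p.2)) with hg
  have hgs : ContDiffAt ℝ 3 g (t, v0) :=
    (contDiffAt_fst.sub contDiffAt_const).prodMk
      (ContDiffAt.comp (g := fun v => Geo3st 𝒜 γ xs (t1, v)) (t, v0) hs1 contDiffAt_snd)
  have hg0 : g (t, v0) ∈ Ioo (-δ) δ ×ˢ Metric.ball (Geo3st 𝒜 γ xs (ts, v0)) δ := ⟨htt, hb1⟩
  have hΦg : ContDiffAt ℝ 3 (Φ ∘ g) (t, v0) := (hΦ _ hg0).1.comp _ hgs
  have hev2 : ∀ᶠ p : ℝ × E in 𝓝 (t, v0), γ p.2 p.1 = (𝒜.φ xs).symm (Φ (g p)).1 ∧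
      Geo3st 𝒜 γ xs p = Φ (g p) := by
    have e1 : ∀ᶠ p : ℝ × E in 𝓝 (t, v0),
        g p ∈ Ioo (-δ) δ ×ˢ Metric.ball (Geo3st 𝒜 γ xs (ts, v0)) δ :=
      hgs.continuousAt.eventually ((isOpen_Ioo.prod Metric.isOpen_ball).mem_nhds hg0)
    have e2 : ∀ᶠ p : ℝ × E in 𝓝 (t, v0), γ p.2 t1 ∈ (𝒜.φ xs).source :=
      (ContinuousAt.comp (g := fun v => γ v t1) (f := Prod.snd) (x := (t, v0)) hc1
        continuousAt_snd).eventually ((𝒜.φ xs).open_source.mem_nhds hsrc)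
    filter_upwards [e1, e2] with p hp1 hp2
    exact Geo3_flow h hδ (ψ := fun s => Φ (s, Geo3st 𝒜 γ xs (t1, p.2)))
      (fun s hs => (hΦ (s, Geo3st 𝒜 γ xs (t1, p.2)) ⟨hs, hp1.2⟩).2.1)
      (fun s hs => (hΦ' _ hp1.2).2 s hs) hp2 (hΦ' _ hp1.2).1 hp1.1
  constructor
  · have : ContinuousAt (fun p : ℝ × E => (𝒜.φ xs).symm (Φ (g p)).1) (t, v0) :=
      ContinuousAt.comp (g := (𝒜.φ xs).symm) (f := fun p : ℝ × E => (Φ (g p)).1)
        ((𝒜.φ xs).continuousAt_symm (hΦ _ hg0).2.1) hΦg.continuousAt.fst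
    exact this.congr (hev2.mono fun p hp => hp.1.symm)
  · exact hΦg.congr_of_eventuallyEq (hev2.mono fun p hp => hp.2)

/-- Recipe: fix `v0`; let `P t0` be the conclusion.  It suffices to have the `ContDiffAt` claim for
one chart containing `γ v0 t0` (change of chart `(Y,U) ↦ (τ Y, Dτ Y U)`, using the continuity claim,
`chart_eventuallyEq`).  Key step: for every `t*` there is `η > 0` such that `P t1`, `|t1 - t*| < η`
imply `P t` for all `|t - t*| < η`: take `local_flow` for `spray (Γ x*)`, `x* = γ v0 t*`, at the state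
`z*`; for `(t,v)` near `(t, v0)`, `γ v t = (φ x*).symm (Φ (t - t1, state (t1,v))).1` by
`IsGeoOn.unique`.  The same argument with `t1 = 0`, state `(φ x x, v)`, gives `P` near `0`.
Hence `{t | P t}` is clopen. -/
theorem Fam.smooth [T2Space M] {x : M} {γ : E → ℝ → M} (h : 𝒜.Fam x γ) (t0 : ℝ) (v0 : E) :
    ContinuousAt (fun p : ℝ × E => γ p.2 p.1) (t0, v0) ∧
    ∀ x', γ v0 t0 ∈ (𝒜.φ x').source →
      ContDiffAt ℝ 3 (fun p : ℝ × E => (𝒜.φ x' (γ p.2 p.1), deriv (𝒜.φ x' ∘ γ p.2) p.1))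
        (t0, v0) := by
  set S : Set ℝ := {t | ContinuousAt (fun p : ℝ × E => γ p.2 p.1) (t, v0) ∧
    ∀ x', γ v0 t ∈ (𝒜.φ x').source → ContDiffAt ℝ 3 (Geo3st 𝒜 γ x') (t, v0)} with hS
  have hsl : ∀ t1 : ℝ, ContDiffAt ℝ 3 (fun v : E => (t1, v)) v0 := fun t1 =>
    contDiffAt_const.prodMk contDiffAt_id
  have key : ∀ ts : ℝ, ∃ η : ℝ, 0 < η ∧ ∀ t1 ∈ Metric.ball ts η, t1 ∈ S →
      ∀ t ∈ Metric.ball ts η, t ∈ S := by
    intro ts
    obtain ⟨η, hη, h1, h2⟩ := Geo3_step h v0 ts (𝒜.mem (γ v0 ts))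
    refine ⟨η, hη, fun t1 ht1 hS1 t ht => ?_⟩
    obtain ⟨a, b⟩ := h2 t1 ht1
      (ContinuousAt.comp (g := fun p : ℝ × E => γ p.2 p.1) (f := fun v : E => (t1, v)) hS1.1
        (hsl t1).continuousAt)
      (ContDiffAt.comp (g := Geo3st 𝒜 γ (γ v0 ts)) (f := fun v : E => (t1, v)) v0
        (hS1.2 _ (h1 t1 ht1)) (hsl t1)) t ht
    exact ⟨a, fun x' hx' => Geo3_chart h a (h1 t ht) hx' b⟩
  have h0 : (0 : ℝ) ∈ S := by
    have hx : γ v0 0 ∈ (𝒜.φ x).source := by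
      rw [h.zero]
      exact 𝒜.mem x
    obtain ⟨η, hη, h1, h2⟩ := Geo3_step h v0 0 hx
    have e1 : (fun v => γ v 0) = fun _ => x := funext h.zero
    have e2 : (fun v => Geo3st 𝒜 γ x (0, v)) = fun v => (𝒜.φ x x, v) := by
      funext v
      have := h.vel v
      unfold MA.vel at this
      rw [h.zero] at this
      simp only [Geo3st, h.zero, this]
    obtain ⟨a, b⟩ := h2 0 (Metric.mem_ball_self hη) (by rw [e1]; exact continuousAt_const)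
      (by rw [e2]; exact contDiffAt_const.prodMk contDiffAt_id) 0 (Metric.mem_ball_self hη)
    exact ⟨a, fun x' hx' => Geo3_chart h a hx hx' b⟩
  have hclopen : IsClopen S := by
    constructor
    · rw [← isOpen_compl_iff, Metric.isOpen_iff]
      intro ts hts
      obtain ⟨η, hη, hk⟩ := key ts
      exact ⟨η, hη, fun t1 ht1 hS1 => hts (hk t1 ht1 hS1 ts (Metric.mem_ball_self hη))⟩
    · rw [Metric.isOpen_iff]
      intro ts hts
      obtain ⟨η, hη, hk⟩ := key ts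
      exact ⟨η, hη, fun t ht => hk ts (Metric.mem_ball_self hη) hts t ht⟩
  have huniv : S = univ := hclopen.eq_univ ⟨0, h0⟩
  have : t0 ∈ S := by rw [huniv]; exact mem_univ _
  exact this

end MA

end Crest.Agent.R244
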