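import Crest.Agent.R244.ODE

/-! # R244: first-order form of the equations and change of coordinates -/

open scoped ContDiff Topology Manifold
open Set Filter
open Crest.GeometryTopology.CoordMetric

noncomputable section

namespace Crest.Agent.R244

set_option linter.unusedSectionVars false
set_option linter.unusedVariables false

section aux
variable {B B' : Type} [NormedAddCommGroup B] [NormedSpace ℝ B] [NormedAddCommGroup B']
  [NormedSpace ℝ B']

theorem local_two_le : (2 : WithTop ℕ∞) ≤ ∞ := WithTop.coe_le_coe.2 (le_top (a := (2 : ℕ∞)))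

theorem local_three_le : (2 : WithTop ℕ∞) + 1 ≤ ∞ :=
  WithTop.coe_le_coe.2 (le_top (a := (2 : ℕ∞) + 1))

theorem local_d1 {f : ℝ → B} {t : ℝ} (h : ContDiffAt ℝ 2 f t) : HasDerivAt f (deriv f t) t :=
  (h.differentiableAt (by norm_num)).hasDerivAt

theorem local_d2 {f : ℝ → B} {t : ℝ} (h : ContDiffAt ℝ 2 f t) :
    HasDerivAt (deriv f) (deriv (deriv f) t) t :=
  ((h.derivWithin (m := 1) (by norm_num)).differentiableAt (by norm_num)).hasDerivAt

theorem local_ev {f : ℝ → B} {t : ℝ} (h : ContDiffAt ℝ 2 f t) :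
    ∀ᶠ s in 𝓝 t, HasDerivAt f (deriv f s) s :=
  (h.eventually (by simp)).mono fun _ hs => local_d1 hs

theorem local_contDiffAt_succ (n : ℕ) {f g : ℝ → B} {t : ℝ}
    (hd : ∀ᶠ s in 𝓝 t, HasDerivAt f (g s) s) (hg : ContDiffAt ℝ n g t) :
    ContDiffAt ℝ (n + 1) f t := by
  rw [contDiffAt_succ_iff_hasFDerivAt]
  exact ⟨fun s => (1 : ℝ →L[ℝ] ℝ).smulRight (g s), ⟨_, hd, fun s hs => hs.hasFDerivAt⟩,
    contDiffAt_const.smulRight hg⟩

theorem local_hasF {τ : B → B'} {y : B} (h : ContDiffAt ℝ ∞ τ y) :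
    HasFDerivAt τ (fderiv ℝ τ y) y := (h.differentiableAt (by simp)).hasFDerivAt

theorem local_hasF2 {τ : B → B'} {y : B} (h : ContDiffAt ℝ ∞ τ y) :
    HasFDerivAt (fderiv ℝ τ) (fderiv ℝ (fderiv ℝ τ) y) y :=
  ((h.fderiv_right (m := 2) local_three_le).differentiableAt (by norm_num)).hasFDerivAt

theorem local_symm {τ : B → B'} {y : B} (h : ContDiffAt ℝ ∞ τ y) (u v : B) :
    fderiv ℝ (fderiv ℝ τ) y u v = fderiv ℝ (fderiv ℝ τ) y v u :=
  h.isSymmSndFDerivAt (by rw [minSmoothness_of_isRCLikeNormedField]; exact local_two_le) u v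

theorem local_fst {z : ℝ → B × B'} {z' : B × B'} {t : ℝ} (h : HasDerivAt z z' t) :
    HasDerivAt (fun s => (z s).1) z'.1 t :=
  (ContinuousLinearMap.fst ℝ B B').hasFDerivAt.comp_hasDerivAt t h

theorem local_snd {z : ℝ → B × B'} {z' : B × B'} {t : ℝ} (h : HasDerivAt z z' t) :
    HasDerivAt (fun s => (z s).2) z'.2 t :=
  (ContinuousLinearMap.snd ℝ B B').hasFDerivAt.comp_hasDerivAt t h

end aux

variable {U U' : Set E} {b b' : E → Bil} {Γ Γ' : E → Con} {y y' Z Z' : ℝ → E} {t : ℝ} {τ : E → E}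

theorem LM.spray_smooth (h : LM U b Γ) : ContDiffOn ℝ ∞ (spray Γ) (U ×ˢ univ) := by
  have h1 : ContDiffOn ℝ ∞ (fun z : E × E => Γ z.1) (U ×ˢ univ) :=
    h.Γ_smooth.comp contDiffOn_fst (fun z hz => hz.1)
  exact contDiffOn_snd.prodMk ((h1.clm_apply contDiffOn_snd).clm_apply contDiffOn_snd).neg

theorem LM.local_spray_at (h : LM U b Γ) {z : E × E} (hz : z.1 ∈ U) :
    ContDiffAt ℝ ∞ (spray Γ) z :=
  h.spray_smooth.contDiffAt ((h.isOpen.prod isOpen_univ).mem_nhds ⟨hz, mem_univ _⟩)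

theorem LM.local_hasΓ (h : LM U b Γ) {y : E} (hy : y ∈ U) : HasFDerivAt Γ (fderiv ℝ Γ y) y :=
  ((h.Γ_smooth.contDiffAt (h.isOpen.mem_nhds hy)).differentiableAt (by simp)).hasFDerivAt

theorem LM.local_hasb (h : LM U b Γ) {y : E} (hy : y ∈ U) : HasFDerivAt b (fderiv ℝ b y) y :=
  ((h.b_smooth.contDiffAt (h.isOpen.mem_nhds hy)).differentiableAt (by simp)).hasFDerivAt

theorem GeoAt.congr (h : GeoAt Γ y t) (hy : y' =ᶠ[𝓝 t] y) (hΓ : Γ' (y t) = Γ (y t)) :
    GeoAt Γ' y' t := by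
  refine ⟨h.1.congr_of_eventuallyEq hy, ?_⟩
  rw [hy.deriv.deriv_eq, hy.deriv_eq, hy.eq_of_nhds, hΓ]
  exact h.2

theorem JacAt.congr (h : JacAt Γ y Z t) (hy : y' =ᶠ[𝓝 t] y) (hZ : Z' =ᶠ[𝓝 t] Z)
    (hΓ : Γ' =ᶠ[𝓝 (y t)] Γ) : JacAt Γ' y' Z' t := by
  refine ⟨h.1.congr_of_eventuallyEq hZ, ?_⟩
  rw [hZ.deriv.deriv_eq, hZ.deriv_eq, hy.deriv_eq, hy.eq_of_nhds, hZ.eq_of_nhds, hΓ.fderiv_eq,
    hΓ.eq_of_nhds]
  exact h.2

theorem GeoAt.hasDerivAt (h : GeoAt Γ y t) :
    HasDerivAt (fun s => (y s, deriv y s)) (spray Γ (y t, deriv y t)) t := by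
  have h2 := local_d2 h.1
  rw [h.2] at h2
  exact (local_d1 h.1).prodMk h2

theorem geoAt_of_spray (h : LM U b Γ) {z : ℝ → E × E} (hz : (z t).1 ∈ U)
    (hd : ∀ᶠ s in 𝓝 t, HasDerivAt z (spray Γ (z s)) s) :
    GeoAt Γ (fun s => (z s).1) t ∧ deriv (fun s => (z s).1) t = (z t).2 := by
  have hS := h.local_spray_at hz
  have c0 : ContDiffAt ℝ 0 z t :=
    contDiffAt_zero.2 ⟨_, hd, fun s hs => hs.continuousAt.continuousWithinAt⟩
  have c1 : ContDiffAt ℝ ((0 : ℕ) + 1) z t :=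
    local_contDiffAt_succ 0 hd ((hS.of_le (by simp)).comp t c0)
  have c2 : ContDiffAt ℝ ((1 : ℕ) + 1) z t :=
    local_contDiffAt_succ 1 hd ((hS.of_le (by exact_mod_cast le_top)).comp t (c1.of_le (by simp)))
  have e1 : deriv (fun s => (z s).1) =ᶠ[𝓝 t] fun s => (z s).2 :=
    hd.mono fun s hs => (local_fst hs).deriv
  have e0 := e1.eq_of_nhds
  refine ⟨⟨(c2.of_le (by norm_num)).fst, ?_⟩, e0⟩
  rw [e1.deriv_eq, e0]
  exact (local_snd hd.self_of_nhds).deriv

theorem fderiv_spray (h : LM U b Γ) {y u : E} (hy : y ∈ U) (Z W : E) :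
    fderiv ℝ (spray Γ) (y, u) (Z, W) = (W, -fderiv ℝ Γ y Z u u - (2 : ℝ) • Γ y u W) := by
  have h1 := HasFDerivAt.comp (𝕜 := ℝ) (g := Γ) (f := (Prod.fst : E × E → E)) (y, u)
    (h.local_hasΓ hy) hasFDerivAt_fst
  have h2 := (hasFDerivAt_snd (𝕜 := ℝ) (p := (y, u))).prodMk
    ((h1.clm_apply hasFDerivAt_snd).clm_apply hasFDerivAt_snd).neg
  have h3 : fderiv ℝ (spray Γ) (y, u) = _ := h2.fderiv
  rw [h3]
  simp only [ContinuousLinearMap.prod_apply, ContinuousLinearMap.coe_snd',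
    neg_apply, add_apply, ContinuousLinearMap.comp_apply,
    ContinuousLinearMap.flip_apply, ContinuousLinearMap.coe_fst', Function.comp_apply]
  rw [h.Γ_symm y hy W u, two_smul]
  congr 1
  abel

theorem JacAt.hasDerivAt (h : LM U b Γ) (hy : y t ∈ U) (hJ : JacAt Γ y Z t) :
    HasDerivAt (fun s => (Z s, deriv Z s))
      (fderiv ℝ (spray Γ) (y t, deriv y t) (Z t, deriv Z t)) t := by
  rw [fderiv_spray h hy, ← hJ.2]
  exact (local_d1 hJ.1).prodMk (local_d2 hJ.1)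

/-- the derivative of a local isometry is invertible (injective by `pos`, finite dimension) -/
theorem IsomAt.bijective (h : LM U b Γ) {y : E} (hy : y ∈ U) (hτ : IsomAt b b' τ y) :
    Function.Bijective (fderiv ℝ τ y) := by
  have hinj : Function.Injective (fderiv ℝ τ y) := by
    rw [injective_iff_map_eq_zero]
    intro u hu
    by_contra hne
    have h1 := h.pos y hy u hne
    rw [hτ.self_of_nhds.2 u u, hu] at h1
    simp at h1
  exact ⟨hinj, (LinearMap.injective_iff_surjective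
    (f := (fderiv ℝ τ y : E →ₗ[ℝ] E))).1 hinj⟩

theorem local_db (h : LM U b Γ) (h' : LM U' b' Γ') {y : E} (hy : y ∈ U) (hy' : τ y ∈ U')
    (hτ : IsomAt b b' τ y) (w u v : E) :
    fderiv ℝ b y w u v
      = fderiv ℝ b' (τ y) (fderiv ℝ τ y w) (fderiv ℝ τ y u) (fderiv ℝ τ y v)
        + b' (τ y) (fderiv ℝ (fderiv ℝ τ) y w u) (fderiv ℝ τ y v)
        + b' (τ y) (fderiv ℝ τ y u) (fderiv ℝ (fderiv ℝ τ) y w v) := by
  have hs := hτ.self_of_nhds.1
  have h1 := ((h.local_hasb hy).clm_apply (hasFDerivAt_const u y)).clm_apply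
    (hasFDerivAt_const v y)
  have h0 : HasFDerivAt (fun z => b' (τ z)) ((fderiv ℝ b' (τ y)).comp (fderiv ℝ τ y)) y :=
    HasFDerivAt.comp (g := b') (f := τ) y (h'.local_hasb hy') (local_hasF hs)
  have h2 := (h0.clm_apply
    ((local_hasF2 hs).clm_apply (hasFDerivAt_const u y))).clm_apply
    ((local_hasF2 hs).clm_apply (hasFDerivAt_const v y))
  have h3 := h2.congr_of_eventuallyEq (f₁ := fun z => b z u v) (hτ.mono fun z hz => hz.2 u v)
  have h4 := congrArg (fun L : E →L[ℝ] ℝ => L w) (h1.unique h3)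
  simp only [add_apply, ContinuousLinearMap.comp_apply,
    ContinuousLinearMap.flip_apply, zero_apply, map_zero, zero_add] at h4
  rw [h4]
  ring

/-- Transformation law of the Christoffel symbols.  Recipe: differentiate
`b z u v = b' (τ z) (Dτ z u) (Dτ z v)` at `y`; insert in both `compat` identities; the second
derivative of `τ` is symmetric; test against `Dτ w` (surjective) and use `pos`. -/
theorem LM.transf (h : LM U b Γ) (h' : LM U' b' Γ') {y : E} (hy : y ∈ U) (hy' : τ y ∈ U')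
    (hτ : IsomAt b b' τ y) (u v : E) :
    fderiv ℝ (fderiv ℝ τ) y u v + Γ' (τ y) (fderiv ℝ τ y u) (fderiv ℝ τ y v)
      = fderiv ℝ τ y (Γ y u v) := by
  have hs := hτ.self_of_nhds
  have key : ∀ w, b' (τ y) (fderiv ℝ (fderiv ℝ τ) y u v + Γ' (τ y) (fderiv ℝ τ y u) (fderiv ℝ τ y v)
      - fderiv ℝ τ y (Γ y u v)) (fderiv ℝ τ y w) = 0 := by
    intro w
    have c1 := h.compat y hy u v w
    have c2 := h'.compat (τ y) hy' (fderiv ℝ τ y u) (fderiv ℝ τ y v) (fderiv ℝ τ y w)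
    rw [local_db h h' hy hy' hτ u v w, local_db h h' hy hy' hτ v u w,
      local_db h h' hy hy' hτ w u v, hs.2, local_symm hs.1 v u, local_symm hs.1 w u,
      local_symm hs.1 w v, h'.symm (τ y) hy' (fderiv ℝ τ y v)] at c1
    simp only [map_add, map_sub, add_apply, sub_apply]
    linarith
  rw [← sub_eq_zero]
  by_contra hne
  obtain ⟨w, hw⟩ := (hτ.bijective h hy).2 (fderiv ℝ (fderiv ℝ τ) y u v +
    Γ' (τ y) (fderiv ℝ τ y u) (fderiv ℝ τ y v) - fderiv ℝ τ y (Γ y u v))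
  have h1 := key w
  rw [hw] at h1
  exact (h'.pos _ hy' _ hne).ne' h1

theorem local_deriv_comp (hτ : ContDiffAt ℝ ∞ τ (y t)) (hyd : DifferentiableAt ℝ y t) :
    deriv (τ ∘ y) t = fderiv ℝ τ (y t) (deriv y t) :=
  ((local_hasF hτ).comp_hasDerivAt t hyd.hasDerivAt).deriv

theorem local_deriv_push (hτ : ContDiffAt ℝ ∞ τ (y t)) (hyd : DifferentiableAt ℝ y t)
    (hZ : DifferentiableAt ℝ Z t) :
    deriv (fun s => fderiv ℝ τ (y s) (Z s)) t
      = fderiv ℝ (fderiv ℝ τ) (y t) (deriv y t) (Z t) + fderiv ℝ τ (y t) (deriv Z t) :=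
  (((local_hasF2 hτ).comp_hasDerivAt t hyd.hasDerivAt).clm_apply hZ.hasDerivAt).deriv

theorem GeoAt.transf (h : LM U b Γ) (h' : LM U' b' Γ') (hy : y t ∈ U) (hy' : τ (y t) ∈ U')
    (hτ : IsomAt b b' τ (y t)) (hg : GeoAt Γ y t) : GeoAt Γ' (τ ∘ y) t := by
  have hs := hτ.self_of_nhds.1
  have hc : ContinuousAt y t := hg.1.continuousAt
  have e1 : deriv (τ ∘ y) =ᶠ[𝓝 t] fun s => fderiv ℝ τ (y s) (deriv y s) := by
    filter_upwards [hc.eventually hτ, local_ev hg.1] with s h1 h2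
    exact local_deriv_comp h1.1 h2.differentiableAt
  refine ⟨(hs.of_le local_two_le).comp t hg.1, ?_⟩
  rw [e1.deriv_eq, e1.eq_of_nhds, local_deriv_push hs (local_d1 hg.1).differentiableAt
    (local_d2 hg.1).differentiableAt, hg.2, map_neg, ← h.transf h' hy hy' hτ]
  simp only [Function.comp_apply]
  abel

theorem cov_transf (h : LM U b Γ) (h' : LM U' b' Γ') (hy : y t ∈ U) (hy' : τ (y t) ∈ U')
    (hτ : IsomAt b b' τ (y t)) (hyd : DifferentiableAt ℝ y t) (hZ : DifferentiableAt ℝ Z t) :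
    cov Γ' (τ ∘ y) (fun s => fderiv ℝ τ (y s) (Z s)) t = fderiv ℝ τ (y t) (cov Γ y Z t) := by
  have hs := hτ.self_of_nhds.1
  unfold cov
  rw [local_deriv_push hs hyd hZ, local_deriv_comp hs hyd, map_add, ← h.transf h' hy hy' hτ]
  simp only [Function.comp_apply]
  abel

/-- the tangent map -/
def localT (τ : E → E) (w : E × E) : E × E := (τ w.1, fderiv ℝ τ w.1 w.2)

theorem localT_smooth {w : E × E} (hτ : ContDiffAt ℝ ∞ τ w.1) : ContDiffAt ℝ 2 (localT τ) w :=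
  ((hτ.of_le local_two_le).comp w contDiffAt_fst).prodMk
    (((hτ.fderiv_right (m := 2) local_three_le).comp w contDiffAt_fst).clm_apply contDiffAt_snd)

theorem localT_fderiv {w : E × E} (hτ : ContDiffAt ℝ ∞ τ w.1) (Z W : E) :
    fderiv ℝ (localT τ) w (Z, W)
      = (fderiv ℝ τ w.1 Z, fderiv ℝ (fderiv ℝ τ) w.1 Z w.2 + fderiv ℝ τ w.1 W) := by
  have h2 := ((local_hasF hτ).comp w hasFDerivAt_fst).prodMk
    (((local_hasF2 hτ).comp w hasFDerivAt_fst).clm_apply hasFDerivAt_snd)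
  have h3 : fderiv ℝ (localT τ) w = _ := h2.fderiv
  rw [h3]
  simp only [ContinuousLinearMap.prod_apply, ContinuousLinearMap.coe_snd',
    add_apply, ContinuousLinearMap.comp_apply,
    ContinuousLinearMap.flip_apply, ContinuousLinearMap.coe_fst', Function.comp_apply]
  rw [add_comm]

/-- Recipe: `lin_of_related` with `T (y,u) = (τ y, Dτ y u)`, `S = spray Γ`, `S' = spray Γ' ∘ T`
(`LM.transf` at all nearby points, `IsomAt` is an `eventually` so `eventually_eventually_nhds`);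
`DT (y s, y' s) (Z s, Z' s) = (Z̃ s, deriv Z̃ s)` for `s` near `t`. -/
theorem JacAt.transf (h : LM U b Γ) (h' : LM U' b' Γ') (hy : y t ∈ U) (hy' : τ (y t) ∈ U')
    (hτ : IsomAt b b' τ (y t)) (hg : GeoAt Γ y t) (hJ : JacAt Γ y Z t) :
    JacAt Γ' (τ ∘ y) (fun s => fderiv ℝ τ (y s) (Z s)) t := by
  have hs := hτ.self_of_nhds.1
  have hc : ContinuousAt y t := hg.1.continuousAt
  have hyd := (local_d1 hg.1).differentiableAt
  refine ⟨((hs.fderiv_right (m := 2) local_three_le).comp t hg.1).clm_apply hJ.1, ?_⟩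
  have hT : ContDiffAt ℝ 2 (localT τ) (y t, deriv y t) := localT_smooth hs
  have hrel : ∀ᶠ w in 𝓝 (y t, deriv y t),
      fderiv ℝ (localT τ) w (spray Γ w) = (spray Γ' ∘ localT τ) w := by
    have a1 : ∀ᶠ z in 𝓝 (y t), z ∈ U ∧ τ z ∈ U' ∧ IsomAt b b' τ z :=
      Filter.Eventually.and (h.isOpen.mem_nhds hy)
        ((hs.continuousAt.eventually (h'.isOpen.mem_nhds hy')).and (eventually_eventually_nhds.2 hτ))
    have a2 : ∀ᶠ w : E × E in 𝓝 (y t, deriv y t), w.1 ∈ U ∧ τ w.1 ∈ U' ∧ IsomAt b b' τ w.1 :=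
      (continuousAt_fst (p := (y t, deriv y t))).eventually a1
    filter_upwards [a2] with w hw
    unfold spray
    rw [localT_fderiv hw.2.2.self_of_nhds.1, map_neg, ← h.transf h' hw.1 hw.2.1 hw.2.2]
    simp only [Function.comp_apply, localT]
    congr 1
    abel
  have hl := lin_of_related (z := fun s => (y s, deriv y s)) (ζ := fun s => (Z s, deriv Z s)) hT
    ((h.local_spray_at hy).differentiableAt (by simp)) hrel hg.hasDerivAt (hJ.hasDerivAt h hy)
  have e1 : (fun s => fderiv ℝ (localT τ) (y s, deriv y s) (Z s, deriv Z s)) =ᶠ[𝓝 t]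
      fun s => (fderiv ℝ τ (y s) (Z s), deriv (fun s => fderiv ℝ τ (y s) (Z s)) s) := by
    filter_upwards [hc.eventually hτ, local_ev hg.1, local_ev hJ.1] with s h1 h2 h3
    rw [localT_fderiv h1.1, local_deriv_push h1.1 h2.differentiableAt h3.differentiableAt,
      local_symm h1.1 (Z s)]
  have hl2 := (local_snd (hl.congr_of_eventuallyEq e1.symm)).deriv
  have hS' : DifferentiableAt ℝ (spray Γ') (localT τ (y t, deriv y t)) :=
    (h'.local_spray_at hy').differentiableAt (by simp)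
  rw [fderiv_comp _ hS' (hT.differentiableAt (by norm_num)), ContinuousLinearMap.comp_apply,
    e1.eq_of_nhds] at hl2
  unfold localT at hl2
  rw [fderiv_spray h' hy'] at hl2
  rw [local_deriv_comp hs hyd]
  exact hl2

end Crest.Agent.R244
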