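import Crest.Agent.R244.Coord
import Crest.Agent.R244.Local

/-! # R244: transition maps of gluing data -/

open scoped ContDiff Topology Manifold
open Set Filter
open Crest.GeometryTopology.CoordMetric

noncomputable section

namespace Crest.Agent.R244

set_option linter.unusedSectionVars false
set_option linter.unusedVariables false

variable {O : Fin 3 → Set E} {G : Fin 3 → MetricField 3} {R : Fin 3 × E → Fin 3 × E → Prop}

/-- Recipe: inverse function theorem.  `d.2 ∈ O d.1` (`dom`, `Eventually.self_of_nhds`); `Dτ z` is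
bijective for `z` near `d.2` (`det > 0`); `ContDiffAt.toOpenPartialHomeomorph` at `d.2`, its inverse
`σ` is `C^∞` at every `z'` near `d'.2` (`OpenPartialHomeomorph.contDiffAt_symm`) with
`Dσ z' = (Dτ (σ z'))⁻¹` (`HasFDerivAt.of_local_left_inverse` or chain rule on `τ ∘ σ = id`);
`det (Dτ) * det (Dσ) = 1`; `symm`. -/
theorem Etale.loc_symm (h : Etale O G R) {d d' : Fin 3 × E} (hl : Loc G R d d') :
    Loc G R d' d := by
  obtain ⟨τ, hτ, hiso, hev⟩ := hl
  have hy := hiso.self_of_nhds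
  have hdet := hev.self_of_nhds.2
  have hder : ∀ z (hz : ContDiffAt ℝ ∞ τ z) (hd : (fderiv ℝ τ z).det ≠ 0),
      HasFDerivAt τ ((fderiv ℝ τ z).toContinuousLinearEquivOfDetNeZero hd : E →L[ℝ] E) z :=
    fun z hz hd => by
      rw [ContinuousLinearMap.coe_toContinuousLinearEquivOfDetNeZero]
      exact (hz.differentiableAt (by simp)).hasFDerivAt
  set F := hy.1.toOpenPartialHomeomorph τ (hder _ hy.1 hdet.ne') (by simp) with hF
  have hFτ : (F : E → E) = τ := ContDiffAt.toOpenPartialHomeomorph_coe ..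
  have hsrc : d.2 ∈ F.source := ContDiffAt.mem_toOpenPartialHomeomorph_source ..
  have htgt : d'.2 ∈ F.target := by
    rw [← hτ, ← hFτ]
    exact F.map_source hsrc
  have hinv : F.symm d'.2 = d.2 := by
    rw [← hτ, ← hFτ]
    exact F.left_inv hsrc
  have htend : Tendsto F.symm (𝓝 d'.2) (𝓝 d.2) := by
    have := F.continuousAt_symm htgt
    rwa [ContinuousAt, hinv] at this
  have key : ∀ᶠ z in 𝓝 d'.2, (ContDiffAt ℝ ∞ F.symm z ∧
      ∀ u v, bil (G d'.1) z u v =
        bil (G d.1) (F.symm z) (fderiv ℝ F.symm z u) (fderiv ℝ F.symm z v)) ∧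
      R (d'.1, z) (d.1, F.symm z) ∧ 0 < LinearMap.det (fderiv ℝ F.symm z : E →ₗ[ℝ] E) := by
    filter_upwards [F.open_target.mem_nhds htgt, htend.eventually hiso, htend.eventually hev]
      with z hz h1 h2
    have hr : τ (F.symm z) = z := by
      rw [← hFτ]
      exact F.right_inv hz
    have hd : (fderiv ℝ τ (F.symm z)).det ≠ 0 := h2.2.ne'
    have hD := hder _ h1.1 hd
    set A := (fderiv ℝ τ (F.symm z)).toContinuousLinearEquivOfDetNeZero hd with hA
    have hD' : HasFDerivAt F (A : E →L[ℝ] E) (F.symm z) := by rw [hFτ]; exact hD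
    have hS := (F.hasFDerivAt_symm hz hD').fderiv
    have hAe : ∀ u, fderiv ℝ τ (F.symm z) (A.symm u) = u := fun u => A.apply_symm_apply u
    refine ⟨⟨F.contDiffAt_symm hz hD' (by rw [hFτ]; exact h1.1), fun u v => ?_⟩, ?_, ?_⟩
    · rw [hS, h1.2, hr]
      simp only [ContinuousLinearEquiv.coe_coe, hAe]
    · have := h.symm _ _ h2.1
      rwa [hr] at this
    · rw [hS]
      have e : LinearMap.det ((A.symm : E →L[ℝ] E) : E →ₗ[ℝ] E) = ((A : E →L[ℝ] E).det)⁻¹ :=
        A.det_coe_symm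
      rw [e, hA, ContinuousLinearMap.coe_toContinuousLinearEquivOfDetNeZero]
      exact inv_pos.2 h2.2
  exact ⟨F.symm, hinv, key.mono fun z hz => hz.1, key.mono fun z hz => hz.2⟩

theorem Etale.loc' (h : Etale O G R) {d d' : Fin 3 × E} (hr : R d d') : Loc G R d d' :=
  (h.loc d d' hr).elim id h.loc_symm

/-- Recipe: `y = φ x q`, `y' = φ x' q`, `T = φ x' ∘ (φ x).symm`; `π (ι x) y = q = π (ι x') y'`, so
`R` holds and `loc'` gives `τ`.  For `z` near `y`: `R (ι x, z) (ι x', T z)` (`chart`, `eq_iff`) and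
`R (ι x, z) (ι x', τ z)`, `(T z, τ z) → (y', y')`, so `T z = τ z` by `inj`.  Then `T =ᶠ τ`
(`eventually_eventually_nhds`, `EventuallyEq.fderiv_eq`, `ContDiffAt.congr_of_eventuallyEq`). -/
theorem Glued.isom (h : Etale O G R) {M : Type} [TopologicalSpace M] {π : Fin 3 → E → M}
    {ι : M → Fin 3} {φ : M → OpenPartialHomeomorph M E} (hG : Glued O R π ι φ) (x x' q : M)
    (hq : q ∈ (φ x).source) (hq' : q ∈ (φ x').source) :
    IsomAt (bil (G (ι x))) (bil (G (ι x'))) (φ x' ∘ (φ x).symm) (φ x q) ∧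
      0 < LinearMap.det (fderiv ℝ (φ x' ∘ (φ x).symm) (φ x q) : E →ₗ[ℝ] E) := by
  have hy : φ x q ∈ (φ x).target := (φ x).map_source hq
  have hy' : φ x' q ∈ (φ x').target := (φ x').map_source hq'
  have hR : ∀ z ∈ (φ x).target, (φ x).symm z ∈ (φ x').source →
      R (ι x, z) (ι x', φ x' ((φ x).symm z)) := fun z hz hz' => by
    have h1 := hG.chart x z hz
    have h2 := hG.chart x' _ ((φ x').map_source hz')
    refine (hG.eq_iff _ _ _ _ h1.1 h2.1).1 ?_
    rw [← h1.2, ← h2.2, (φ x').left_inv hz']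
  have hqq : (φ x).symm (φ x q) = q := (φ x).left_inv hq
  have hR0 := hR _ hy (by rwa [hqq])
  rw [hqq] at hR0
  obtain ⟨τ, hτ, hiso, hev⟩ := h.loc' hR0
  dsimp only at hτ hiso hev
  have t1 : Tendsto (φ x).symm (𝓝 (φ x q)) (𝓝 q) := by
    have := (φ x).continuousAt_symm hy
    rwa [ContinuousAt, hqq] at this
  have t2 : Tendsto (φ x' ∘ (φ x).symm) (𝓝 (φ x q)) (𝓝 (φ x' q)) :=
    ((φ x').continuousAt hq').tendsto.comp t1
  have t3 : Tendsto τ (𝓝 (φ x q)) (𝓝 (φ x' q)) := by
    have := hiso.self_of_nhds.1.continuousAt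
    rwa [ContinuousAt, hτ] at this
  have hinj := (t2.prodMk_nhds t3).eventually (h.inj (ι x') _ (hG.chart x' _ hy').1)
  have heq : (φ x' ∘ (φ x).symm) =ᶠ[𝓝 (φ x q)] τ := by
    filter_upwards [(φ x).open_target.mem_nhds hy, t1.eventually ((φ x').open_source.mem_nhds hq'),
      hev, hinj] with z hz hz' h1 h2
    exact h2 (h.trans _ _ _ (h.symm _ _ (hR z hz hz')) h1.1)
  refine ⟨?_, ?_⟩
  · filter_upwards [heq.eventually_nhds, hiso] with z h1 h2
    have h1' : (φ x' ∘ (φ x).symm) =ᶠ[𝓝 z] τ := h1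
    refine ⟨h2.1.congr_of_eventuallyEq h1', fun u v => ?_⟩
    rw [h1'.fderiv_eq, h1'.self_of_nhds]
    exact h2.2 u v
  · rw [heq.fderiv_eq]
    exact hev.self_of_nhds.2

theorem Glued.riem (h : Etale O G R) {M : Type} [TopologicalSpace M] {π : Fin 3 → E → M}
    {ι : M → Fin 3} {φ : M → OpenPartialHomeomorph M E} (hG : Glued O R π ι φ) (x : M) :
    IsRiemannianOn (G (ι x)) (φ x).target :=
  ⟨(φ x).open_target,
    fun i j => ((h.riem (ι x)).contDiffOn i j).mono fun y hy => (hG.chart x y hy).1,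
    fun y hy => (h.riem (ι x)).posDef y (hG.chart x y hy).1⟩

end Crest.Agent.R244
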