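import Crest.Agent.R244.Coord
import Crest.Agent.R244.Local

/-! # R244: manifold structure and Riemannian metric from charts -/

open scoped ContDiff Topology Manifold
open Set Filter
open Crest.GeometryTopology.CoordMetric

noncomputable section

namespace Crest.Agent.R244

set_option linter.unusedSectionVars false
set_option linter.unusedVariables false

open Bundle Crest.GeometryTopology.Geodesic

/-- the unit ball of a positive definite form is bounded -/
theorem mfd_bounded (b : Bil) (hpos : ∀ u, u ≠ 0 → 0 < b u u) :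
    Bornology.IsVonNBounded ℝ {v : E | b v v < 1} := by
  have hc : Continuous fun v : E => b v v := b.continuous₂.comp (continuous_id.prodMk continuous_id)
  obtain ⟨u, hu, hmin⟩ := (isCompact_sphere (0 : E) 1).exists_isMinOn
    (NormedSpace.sphere_nonempty.2 zero_le_one) hc.continuousOn
  have hu0 : u ≠ 0 := by
    rintro rfl
    simp at hu
  have hc0 := hpos u hu0
  rw [NormedSpace.isVonNBounded_iff, isBounded_iff_forall_norm_le]
  refine ⟨1 + (b u u)⁻¹, fun v hv => ?_⟩
  have hv' : b v v < 1 := hv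
  have hi : 0 < (b u u)⁻¹ := inv_pos.2 hc0
  rcases le_or_gt ‖v‖ 1 with h1 | h1
  · linarith
  have hn : 0 < ‖v‖ := by linarith
  have h2 : b u u ≤ b (‖v‖⁻¹ • v) (‖v‖⁻¹ • v) := hmin (by
    rw [mem_sphere_zero_iff_norm, norm_smul, norm_inv, norm_norm, inv_mul_cancel₀ hn.ne'])
  simp only [map_smul, smul_apply, smul_eq_mul] at h2
  have h3 : b u u * ‖v‖ * ‖v‖ ≤ b v v := by
    have := mul_le_mul_of_nonneg_right (mul_le_mul_of_nonneg_right h2 hn.le) hn.le
    calc _ ≤ _ := this
      _ = b v v := by field_simp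
  have h4 : b u u * ‖v‖ ≤ 1 := by nlinarith [mul_pos hc0 hn]
  have h5 : ‖v‖ ≤ (b u u)⁻¹ := by
    rw [← one_div, le_div_iff₀ hc0]
    linarith
  linarith

section metric

variable {M : Type} [TopologicalSpace M] [ChartedSpace E M] [IsManifold 𝓘(ℝ, E) ∞ M]

theorem mfd_symmL {x0 x : M} (hx : x ∈ (chartAt E x0).source) (v : E) :
    (trivializationAt E (TangentSpace 𝓘(ℝ, E)) x0).symm x v =
      fderiv ℝ (chartAt E x ∘ (chartAt E x0).symm) (chartAt E x0 x) v := by
  have h1 := TangentBundle.symmL_trivializationAt_eq_core (I := 𝓘(ℝ, E)) hx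
  have h2 := DFunLike.congr_fun h1 v
  rw [Trivialization.symmL_apply (hb := by simpa using hx)] at h2
  rw [h2]
  simp [tangentBundleCore_coordChange, fderivWithin_univ]
  rfl

theorem mfd_mfderiv_symm (x : M) {y : E} (hy : y ∈ (chartAt E x).target) (v : E) :
    mfderiv 𝓘(ℝ, E) 𝓘(ℝ, E) (chartAt E x).symm y v =
      fderiv ℝ (chartAt E ((chartAt E x).symm y) ∘ (chartAt E x).symm) y v := by
  have := mdifferentiableAt_atlas_symm (I := 𝓘(ℝ, E)) (ChartedSpace.chart_mem_atlas x) hy
  simp [mfderiv, if_pos this, fderivWithin_univ]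
  rfl

theorem mfd_metric (g : M → MetricField 3)
    (hriem : ∀ x, IsRiemannianOn (g x) (chartAt E x).target)
    (hisom : ∀ x x' q, q ∈ (chartAt E x).source → q ∈ (chartAt E x').source →
      IsomAt (bil (g x)) (bil (g x')) (chartAt E x' ∘ (chartAt E x).symm) (chartAt E x q)) :
    ∃ g0 : ContMDiffRiemannianMetric 𝓘(ℝ, E) ∞ E (fun x : M => TangentSpace 𝓘(ℝ, E) x),
      ∀ x, ∀ y ∈ (chartAt E x).target, metricInChart g0 x y = g x y := by
  have key : ∀ x0 x, x ∈ (chartAt E x0).source → ∀ u v : E,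
      bil (g x) (chartAt E x x) (fderiv ℝ (chartAt E x ∘ (chartAt E x0).symm) (chartAt E x0 x) u)
        (fderiv ℝ (chartAt E x ∘ (chartAt E x0).symm) (chartAt E x0 x) v) =
      bil (g x0) (chartAt E x0 x) u v := by
    intro x0 x hx u v
    rw [(hisom x0 x x hx (mem_chart_source E x)).self_of_nhds.2 u v, Function.comp_apply,
      (chartAt E x0).left_inv hx]
  refine ⟨{
    inner := fun x => (bil (g x) (chartAt E x x) : E →L[ℝ] E →L[ℝ] ℝ)
    symm := fun x u v => (lm_of_riem (hriem x)).symm _ (mem_chart_target E x) u v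
    pos := fun x u hu => (lm_of_riem (hriem x)).pos _ (mem_chart_target E x) u hu
    isVonNBounded := fun x => mfd_bounded _ ((lm_of_riem (hriem x)).pos _ (mem_chart_target E x))
    contMDiff := ?_ }, ?_⟩
  · intro x0
    rw [contMDiffAt_section]
    have h1 : ContMDiffAt 𝓘(ℝ, E) 𝓘(ℝ, E →L[ℝ] E →L[ℝ] ℝ) ∞
        (fun x => bil (g x0) (chartAt E x0 x)) x0 := by
      have h2 := (lm_of_riem (hriem x0)).b_smooth.contDiffAt
        ((hriem x0).isOpen.mem_nhds (mem_chart_target E x0))
      exact h2.contMDiffAt.comp x0 ((contMDiffOn_chart (I := 𝓘(ℝ, E)) (n := ∞)).contMDiffAt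
        (chart_source_mem_nhds E x0))
    refine h1.congr_of_eventuallyEq ?_
    filter_upwards [chart_source_mem_nhds E x0] with x hx
    ext u v
    rw [hom_trivializationAt_apply]
    dsimp only
    rw [inCoordinates_apply_eq₂ (by simpa using hx) (by simpa using hx) (by simp),
      mfd_symmL hx, mfd_symmL hx, ← key x0 x hx]
    simp
    rfl
  · intro x y hy
    ext i j
    have hq := (chartAt E x).map_target hy
    have h1 := key x _ hq (EuclideanSpace.single i 1) (EuclideanSpace.single j 1)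
    rw [(chartAt E x).right_inv hy] at h1
    simp only [metricInChart, Matrix.of_apply]
    rw [mfd_mfderiv_symm x hy, mfd_mfderiv_symm x hy]
    refine h1.trans ?_
    simp [bil_apply]

end metric

/-- Recipe: `ChartedSpace` with `atlas = range φ`, `chartAt = φ`; `isManifold_of_contDiffOn` (or
`HasGroupoid` + `contDiffGroupoid` membership) from the `ContDiffAt` part of `IsomAt`; orientability
with `A = range φ` (`IsManifold.subset_maximalAtlas`).  Metric: `inner x = bil (g x) (φ x x)`
(`lm_of_riem` gives `symm`, `pos`; `isVonNBounded`: a positive definite form on `E` is bounded below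
on the unit sphere, `NormedSpace.isVonNBounded_iff`).  Smoothness at `x0`: `contMDiffAt_section` /
`contMDiffAt_hom_bundle`; in the trivialisation at `x0` the section reads, for `x` near `x0`,
`(u,v) ↦ bil (g x) (φ x x) (A u) (A v)`, `A = fderiv (φ x ∘ (φ x0).symm) (φ x0 x)`
(`inCoordinates_apply_eq₂`, `TangentBundle.symmL_trivializationAt_eq_core`,
`tangentCoordChange_def`), which is `bil (g x0) (φ x0 x)` by `IsomAt`.  See
`riemannianMetricVectorSpace` in Mathlib for the shape of the proof.  `metricInChart`: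
`mfderiv (φ x).symm y = fderiv (φ q ∘ (φ x).symm) y` with `q = (φ x).symm y`, `IsomAt`, `bil_apply`. -/
theorem exists_manifold {M : Type} [TopologicalSpace M] (φ : M → OpenPartialHomeomorph M E)
    (g : M → MetricField 3) (hmem : ∀ x, x ∈ (φ x).source)
    (hriem : ∀ x, IsRiemannianOn (g x) (φ x).target)
    (hisom : ∀ x x' q, q ∈ (φ x).source → q ∈ (φ x').source →
      IsomAt (bil (g x)) (bil (g x')) (φ x' ∘ (φ x).symm) (φ x q) ∧
        0 < LinearMap.det (fderiv ℝ (φ x' ∘ (φ x).symm) (φ x q) : E →ₗ[ℝ] E)) :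
    ∃ (_ : ChartedSpace E M) (_ : IsManifold 𝓘(ℝ, E) ∞ M), (∀ x, chartAt E x = φ x) ∧
      IsOrientable 3 M ∧
      ∃ g0 : ContMDiffRiemannianMetric 𝓘(ℝ, E) ∞ E (fun x : M => TangentSpace 𝓘(ℝ, E) x),
        ∀ x, ∀ y ∈ (φ x).target, metricInChart g0 x y = g x y := by
  let cs : ChartedSpace E M :=
    { atlas := range φ
      chartAt := φ
      mem_chart_source := hmem
      chart_mem_atlas := fun x => mem_range_self x }
  have hm : IsManifold 𝓘(ℝ, E) ∞ M := by
    refine isManifold_of_contDiffOn _ _ _ ?_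
    rintro _ _ ⟨x, rfl⟩ ⟨x', rfl⟩ y hy
    have hy' : y ∈ (φ x).target ∧ (φ x).symm y ∈ (φ x').source := by simpa using hy
    have h1 := (hisom x x' _ ((φ x).map_target hy'.1) hy'.2).1.self_of_nhds.1
    rw [(φ x).right_inv hy'.1] at h1
    exact h1.contDiffWithinAt
  refine ⟨cs, hm, fun x => rfl, ⟨range φ, IsManifold.subset_maximalAtlas,
    fun x => ⟨φ x, mem_range_self x, hmem x⟩, ?_⟩,
    mfd_metric g hriem fun x x' q hq hq' => (hisom x x' q hq hq').1⟩
  rintro _ ⟨x, rfl⟩ _ ⟨x', rfl⟩ q hq
  exact (hisom x x' q hq.1 hq.2).2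

end Crest.Agent.R244
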