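import Crest.Agent.R244.NeckBase

/-! # R244: crossing and turning passages -/

open scoped ContDiff Topology Manifold
open Set Filter
open Crest.GeometryTopology.CoordMetric

noncomputable section

namespace Crest.Agent.R244

set_option linter.unusedSectionVars false
set_option linter.unusedVariables false

theorem NeckCross_alg {a c b V1 V2 B B1 σ ρ π κ : ℝ} (hb : 0 < b) (hD : 0 < a * b - c ^ 2)
    (hB : B ≠ 0) (hW : 0 ≤ -(1 / 2) * V2 * B ^ 2 + V1 * B1 * B - V1 ^ 2 * b / 4) :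
    0 ≤ σ ^ 2 - 1 / 2 * V2 * ρ ^ 2 + (a * π ^ 2 + 2 * c * π * κ + b * κ ^ 2)
      + (c * π + b * κ + B1 * ρ) / B * V1 * ρ := by
  have e : σ ^ 2 - 1 / 2 * V2 * ρ ^ 2 + (a * π ^ 2 + 2 * c * π * κ + b * κ ^ 2)
      + (c * π + b * κ + B1 * ρ) / B * V1 * ρ
      = σ ^ 2 + π ^ 2 * (a * b - c ^ 2) / b + (c * π + b * κ + b * V1 * ρ / (2 * B)) ^ 2 / b
        + ρ ^ 2 * (-(1 / 2) * V2 * B ^ 2 + V1 * B1 * B - V1 ^ 2 * b / 4) / B ^ 2 := by
    field_simp
    ring
  rw [e]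
  have := sq_pos_of_ne_zero hB
  positivity

namespace Prof

variable {P : Prof} {s : ℝ → St} {t1 t2 : ℝ}

theorem NeckCross_shift_zero (s : St) : P.shift 0 s = s := by
  cases s
  simp [shift]

theorem NeckCross_Qn_eq (u : ℝ) {s : St} (h : P.dH s = 0) : P.Qn s = P.Qn (P.shift u s) := by
  rw [Qn_shift, h]; ring

/-- the common part of the four cases -/
theorem Pass.NeckCross_gen (h : P.Pass s t1 t2) {u u' : ℝ → ℝ}
    (hu : ∀ t ∈ Icc t1 t2, HasDerivAt u (u' t) t)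
    (hZ : ∀ t ∈ Icc t1 t2, (s t).Z0 → u t = 0)
    (hpos : ∀ t ∈ Icc t1 t2, 0 ≤ (P.shift (u t) (s t)).σ ^ 2
        - 1 / 2 * P.V2 (s t).r (s t).p (s t).q * (P.shift (u t) (s t)).ρ ^ 2
        + qf (P.α (s t).r) (P.γ (s t).r) (P.β (s t).r) (s t).π (s t).κ
        + u' t * P.V1 (s t).r (s t).p (s t).q * (P.shift (u t) (s t)).ρ)
    (hstart : |(s t1).r| = P.δ' →
      P.Qn (P.shift (u t1) (s t1)) ≤ (P.shift (u t1) (s t1)).Qc) :
    ¬ (s t2).Z0 ∧ 0 ≤ (P.shift (u t2) (s t2)).Qc := by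
  have m1 : t1 ∈ Icc t1 t2 := left_mem_Icc.2 h.lt.le
  have m2 : t2 ∈ Icc t1 t2 := right_mem_Icc.2 h.lt.le
  have hQc : ∀ t ∈ Icc t1 t2, (s t).Z0 → (P.shift (u t) (s t)).Qc = 0 := by
    intro t ht hz
    rw [hZ t ht hz, NeckCross_shift_zero]
    obtain ⟨h1, h2, h3⟩ := hz
    simp [St.Qc, h1, h2, h3]
  have h1 : 0 ≤ (P.shift (u t1) (s t1)).Qc := by
    rcases h.start with hz | ⟨ha, hq⟩
    · exact (hQc t1 m1 hz).ge
    · have := hstart ha
      rw [← NeckCross_Qn_eq (u t1) (h.dH t1 m1)] at this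
      exact hq.trans this
  have key := mono_conclude (f := fun τ => (P.shift (u τ) (s τ)).Qc) h.lt
    (fun t ht => (h.ode t ht).shift_deriv (h.dH t ht) (hu t ht)) hpos h1
  refine ⟨fun hz => ?_, key.1⟩
  have h0 := key.2 (hQc t2 m2 hz)
  rw [hZ t2 m2 hz, NeckCross_shift_zero, hz.1] at h0
  have hq := P.qf_nonneg (s t2).r (s t2).π (s t2).κ
  have hσ : (s t2).σ ^ 2 = 0 := by nlinarith [sq_nonneg (s t2).σ]
  have hq0 : qf (P.α (s t2).r) (P.γ (s t2).r) (P.β (s t2).r) (s t2).π (s t2).κ = 0 := by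
    nlinarith [sq_nonneg (s t2).σ]
  have hπκ : (s t2).π = 0 ∧ (s t2).κ = 0 := by
    by_contra hne
    exact (P.qf_pos _ _ _ hne).ne' hq0
  exact h.ndeg t2 m2 ⟨hz, pow_eq_zero_iff (two_ne_zero) |>.1 hσ, hπκ.1, hπκ.2⟩

theorem Pass.NeckCross_Qn1 (h : P.Pass s t1 t2) : 0 ≤ P.Qn (s t1) := by
  rcases h.start with hz | ⟨_, hq⟩
  · exact (P.Qn_of_Z0 hz).ge
  · exact hq

/-- staying in the outer zone -/
theorem Pass.NeckCross_outer (h : P.Pass s t1 t2) (ho : ∀ t ∈ Ioo t1 t2, P.δ < |(s t).r|) :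
    0 ≤ P.Qn (s t2) := by
  have hm : MonotoneOn (fun τ => P.Qn (s τ)) (Icc t1 t2) := by
    apply monotoneOn_of_deriv_nonneg (convex_Icc t1 t2)
    · exact fun t ht => (h.ode t ht).continuousAt_Qn.continuousWithinAt
    · intro t ht
      rw [interior_Icc] at ht
      obtain ⟨Q', hQ, -, -⟩ := (h.ode t (Ioo_subset_Icc_self ht)).outer (ho t ht)
      exact hQ.differentiableAt.differentiableWithinAt
    · intro t ht
      rw [interior_Icc] at ht
      obtain ⟨Q', hQ, hQ0, -⟩ := (h.ode t (Ioo_subset_Icc_self ht)).outer (ho t ht)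
      rw [hQ.deriv]; exact hQ0
  exact h.NeckCross_Qn1.trans (hm (left_mem_Icc.2 h.lt.le) (right_mem_Icc.2 h.lt.le) h.lt.le)

theorem Pass.NeckCross_sign (h : P.Pass s t1 t2) (hv : ∀ t ∈ Icc t1 t2, (s t).v ≠ 0) :
    (∀ t ∈ Icc t1 t2, 0 < (s t).v) ∨ (∀ t ∈ Icc t1 t2, (s t).v < 0) := by
  have hc : ContinuousOn (fun t => (s t).v) (Icc t1 t2) :=
    fun t ht => (h.ode t ht).v.continuousAt.continuousWithinAt
  by_contra hne
  push Not at hne
  obtain ⟨⟨a, ha, ha0⟩, ⟨b, hb, hb0⟩⟩ := hne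
  obtain ⟨c, hc', hc0⟩ := isPreconnected_Icc.intermediate_value ha hb hc
    (show (0 : ℝ) ∈ Icc (s a).v (s b).v from ⟨ha0, hb0⟩)
  exact hv c hc' hc0

/-- Crossing.  Recipe: `v` has a constant sign (IVT), `r` is strictly monotone on `[t1,t2]`.
`u = ρ/v`, `s̃ = shift u s` has `ρ̃ = 0`; `f = Qc s̃` has `f' = σ̃² + h(π,κ) ≥ 0` (`shift_deriv`), and
`Qn s = Qn s̃` (`Qn_shift`) `= f - v β' ζ̃²/(2β²)` on the left, `f - v α' ξ̃²/(2α²)` on the right.
Say `v > 0`.  Start: `Z0` gives `f t1 = 0`; `|r t1| = δ'` forces `r t1 = -δ'` (else `r t2 > δ'`), so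
`f t1 ≥ Qn ≥ 0`.  `mono_conclude`.  If `Z0` at `t2`: `u = 0`, `f t2 = 0`, so `f' t2 = 0`: `σ = 0` and
`π = κ = 0` (`qf_pos`), i.e. `Deg`.  If `r t2 ≥ δ`: `Qn ≥ f ≥ 0`.  If `r t2 ≤ -δ`: `r < -δ` on
`[t1,t2)`, `Qn t1 ≥ 0` (`Qn_of_Z0`), and `Qn ∘ s` is monotone (`outer`, `continuousAt_Qn`,
`monotoneOn_of_deriv_nonneg`).  `v < 0` is symmetric. -/
theorem Pass.cross (h : P.Pass s t1 t2) (hv : ∀ t ∈ Icc t1 t2, (s t).v ≠ 0) : P.Concl s t2 := by
  have m1 : t1 ∈ Icc t1 t2 := left_mem_Icc.2 h.lt.le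
  have m2 : t2 ∈ Icc t1 t2 := right_mem_Icc.2 h.lt.le
  have hδ := P.hδ
  have hδδ := P.hδδ
  set u : ℝ → ℝ := fun t => (s t).ρ / (s t).v with hu
  have hρ : ∀ t ∈ Icc t1 t2, (P.shift (u t) (s t)).ρ = 0 := by
    intro t ht
    have := hv t ht
    simp only [shift, hu]
    field_simp
    ring
  have hL : ∀ t ∈ Icc t1 t2, (s t).r ≤ -P.δ → P.Qn (P.shift (u t) (s t))
      = (P.shift (u t) (s t)).Qc - 1 / 2 * ((s t).v * deriv P.β (s t).r)
        * ((P.shift (u t) (s t)).ζ ^ 2 / P.β (s t).r ^ 2) := by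
    intro t ht hr
    rw [P.Qn_left (P.shift (u t) (s t)) hr, hρ t ht]
    simp only [shift]
    ring
  have hR : ∀ t ∈ Icc t1 t2, P.δ ≤ (s t).r → P.Qn (P.shift (u t) (s t))
      = (P.shift (u t) (s t)).Qc - 1 / 2 * ((s t).v * deriv P.α (s t).r)
        * ((P.shift (u t) (s t)).ξ ^ 2 / P.α (s t).r ^ 2) := by
    intro t ht hr
    rw [P.Qn_right (P.shift (u t) (s t)) hr, hρ t ht]
    simp only [shift]
    ring
  have hcr : ContinuousOn (fun t => (s t).r) (Icc t1 t2) :=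
    fun t ht => (h.ode t ht).r.continuousAt.continuousWithinAt
  have gen : (|(s t1).r| = P.δ' →
      P.Qn (P.shift (u t1) (s t1)) ≤ (P.shift (u t1) (s t1)).Qc) →
      ¬ (s t2).Z0 ∧ 0 ≤ (P.shift (u t2) (s t2)).Qc := by
    intro hstart
    refine h.NeckCross_gen (u := u) (u' := fun t => ((s t).σ * (s t).v - (s t).ρ
      * (-(1 / 2) * P.V1 (s t).r (s t).p (s t).q)) / (s t).v ^ 2)
      (fun t ht => (h.ode t ht).ρ.div (h.ode t ht).v (hv t ht)) ?_ ?_ hstart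
    · intro t ht hz
      simp [hu, hz.1]
    · intro t ht
      rw [hρ t ht]
      have := P.qf_nonneg (s t).r (s t).π (s t).κ
      nlinarith [sq_nonneg (P.shift (u t) (s t)).σ]
  have z1 := abs_le.1 (h.zone t1 m1)
  have z2 := abs_le.1 (h.zone t2 m2)
  rcases h.NeckCross_sign hv with hp | hn
  · have hm : StrictMonoOn (fun t => (s t).r) (Icc t1 t2) := by
      apply strictMonoOn_of_deriv_pos (convex_Icc t1 t2) hcr
      intro t ht
      rw [interior_Icc] at ht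
      rw [(h.ode t (Ioo_subset_Icc_self ht)).r.deriv]
      exact hp t (Ioo_subset_Icc_self ht)
    have h12 : (s t1).r < (s t2).r := hm m1 m2 h.lt
    obtain ⟨g1, g2⟩ := gen (fun ha => by
      have hr : (s t1).r ≤ -P.δ := by
        rcases abs_cases (s t1).r with hh | hh <;> linarith [hh.1, hh.2]
      rw [hL t1 m1 hr]
      have := mul_nonneg (hp t1 m1).le (P.left1 _ hr).2.2
      have : 0 ≤ 1 / 2 * ((s t1).v * deriv P.β (s t1).r)
        * ((P.shift (u t1) (s t1)).ζ ^ 2 / P.β (s t1).r ^ 2) := by positivity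
      linarith)
    refine ⟨g1, fun ha => ?_⟩
    rcases le_abs.1 ha with hr | hr
    · rw [NeckCross_Qn_eq (u t2) (h.dH t2 m2), hR t2 m2 hr]
      have := mul_nonneg (hp t2 m2).le (neg_nonneg.2 (P.right1 _ hr).2.2)
      have : 0 ≤ 1 / 2 * ((s t2).v * -deriv P.α (s t2).r)
        * ((P.shift (u t2) (s t2)).ξ ^ 2 / P.α (s t2).r ^ 2) := by positivity
      linarith
    · apply h.NeckCross_outer
      intro t ht
      have : (s t).r < (s t2).r := hm (Ioo_subset_Icc_self ht) m2 ht.2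
      exact lt_abs.2 (Or.inr (by linarith))
  · have hm : StrictAntiOn (fun t => (s t).r) (Icc t1 t2) := by
      apply strictAntiOn_of_deriv_neg (convex_Icc t1 t2) hcr
      intro t ht
      rw [interior_Icc] at ht
      rw [(h.ode t (Ioo_subset_Icc_self ht)).r.deriv]
      exact hn t (Ioo_subset_Icc_self ht)
    have h12 : (s t2).r < (s t1).r := hm m1 m2 h.lt
    obtain ⟨g1, g2⟩ := gen (fun ha => by
      have hr : P.δ ≤ (s t1).r := by
        rcases abs_cases (s t1).r with hh | hh <;> linarith [hh.1, hh.2]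
      rw [hR t1 m1 hr]
      have := mul_nonneg_of_nonpos_of_nonpos (hn t1 m1).le (P.right1 _ hr).2.2
      have : 0 ≤ 1 / 2 * ((s t1).v * deriv P.α (s t1).r)
        * ((P.shift (u t1) (s t1)).ξ ^ 2 / P.α (s t1).r ^ 2) := by positivity
      linarith)
    refine ⟨g1, fun ha => ?_⟩
    rcases le_abs.1 ha with hr | hr
    · apply h.NeckCross_outer
      intro t ht
      have : (s t2).r < (s t).r := hm (Ioo_subset_Icc_self ht) m2 ht.2
      exact lt_abs.2 (Or.inl (by linarith))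
    · have hr' : (s t2).r ≤ -P.δ := by linarith
      rw [NeckCross_Qn_eq (u t2) (h.dH t2 m2), hL t2 m2 hr']
      have := mul_nonneg (neg_nonneg.2 (hn t2 m2).le) (P.left1 _ hr').2.2
      have : 0 ≤ 1 / 2 * (-(s t2).v * deriv P.β (s t2).r)
        * ((P.shift (u t2) (s t2)).ζ ^ 2 / P.β (s t2).r ^ 2) := by positivity
      linarith

/-- Turning, `V1 > 0`.  Recipe: `condY` gives `B = γp+βq ≠ 0` and `W ≥ 0`.  `u = ζ/B`,
`u' = (γπ+βκ + B₁ ρ̃)/B` with `B₁ = γ'p+β'q`; `ζ̃ = 0`.  With `k = γπ+βκ`: `h(π,κ) ≥ k²/β`,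
`k²/β + V1 ρ̃ k/B ≥ -β V1² ρ̃²/(4B²)`, so `f' ≥ σ̃² + ρ̃² W/B² ≥ 0`.  `δ ≤ |r|` and `V1 > 0` force
`r ≤ -δ` (`V1_right`), where `Qn s = Qn s̃ = f` (`Qn_left`, `ζ̃ = 0`).  At `Z0`: `u = 0`,
`f' = σ² + h(π,κ)`. -/
theorem Pass.turnY (h : P.Pass s t1 t2)
    (hV : ∀ t ∈ Icc t1 t2, 0 < P.V1 (s t).r (s t).p (s t).q) : P.Concl s t2 := by
  have m1 : t1 ∈ Icc t1 t2 := left_mem_Icc.2 h.lt.le
  have m2 : t2 ∈ Icc t1 t2 := right_mem_Icc.2 h.lt.le
  have hδδ := P.hδδ
  have hc := fun t ht => P.condY (s t).r (abs_le.1 (h.zone t ht)) (s t).p (s t).q (hV t ht)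
  set B : ℝ → ℝ := fun t => P.γ (s t).r * (s t).p + P.β (s t).r * (s t).q with hB
  set B1 : ℝ → ℝ := fun t => deriv P.γ (s t).r * (s t).p + deriv P.β (s t).r * (s t).q with hB1
  set u : ℝ → ℝ := fun t => (s t).ζ / B t with hu
  have hB0 : ∀ t ∈ Icc t1 t2, B t ≠ 0 := fun t ht => (hc t ht).1
  have hζ : ∀ t ∈ Icc t1 t2, (P.shift (u t) (s t)).ζ = 0 := by
    intro t ht
    have := hB0 t ht
    show (s t).ζ - (s t).ζ / B t * B t = 0
    field_simp
    ring
  have hE : ∀ t ∈ Icc t1 t2, P.δ ≤ |(s t).r| →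
      P.Qn (P.shift (u t) (s t)) = (P.shift (u t) (s t)).Qc := by
    intro t ht ha
    rcases le_abs.1 ha with hr | hr
    · have h1 := hV t ht
      rw [P.V1_right _ _ _ hr] at h1
      have := mul_nonneg (neg_nonneg.2 (P.right1 _ hr).2.2) (sq_nonneg ((s t).p - P.ε * (s t).q))
      linarith
    · have hr' : (P.shift (u t) (s t)).r ≤ -P.δ := by
        show (s t).r ≤ -P.δ
        linarith
      rw [P.Qn_left _ hr', hζ t ht]
      simp
  obtain ⟨g1, g2⟩ := h.NeckCross_gen (u := u) (u' := fun t =>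
      (P.γ (s t).r * (s t).π + P.β (s t).r * (s t).κ + B1 t * (P.shift (u t) (s t)).ρ) / B t)
    (fun t ht => by
      have o := h.ode t ht
      have hγ := ((P.γ_smooth.differentiable (by simp)) (s t).r).hasDerivAt.comp t o.r
      have hβ := ((P.β_smooth.differentiable (by simp)) (s t).r).hasDerivAt.comp t o.r
      have hBd : HasDerivAt B (B1 t * (s t).v) t := by
        refine ((hγ.mul o.p).add (hβ.mul o.q)).congr_deriv ?_
        simp only [hB1]
        ring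
      have := hB0 t ht
      refine (o.ζ.div hBd this).congr_deriv ?_
      show ((_ + B1 t * (s t).ρ) * B t - _) / _
        = (_ + B1 t * ((s t).ρ - (s t).ζ / B t * (s t).v)) / B t
      field_simp
      ring)
    (fun t ht hz => by simp [hu, hz.2.2])
    (fun t ht => NeckCross_alg (P.β_pos _) (P.D_pos _) (hB0 t ht) (hc t ht).2)
    (fun ha => (hE t1 m1 (by linarith)).le)
  refine ⟨g1, fun ha => ?_⟩
  rw [NeckCross_Qn_eq (u t2) (h.dH t2 m2), hE t2 m2 ha]
  exact g2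

/-- Turning, `V1 < 0`: the same with `condX`, `u = ξ/(αp+γq)`, `Qn_right`. -/
theorem Pass.turnX (h : P.Pass s t1 t2)
    (hV : ∀ t ∈ Icc t1 t2, P.V1 (s t).r (s t).p (s t).q < 0) : P.Concl s t2 := by
  have m1 : t1 ∈ Icc t1 t2 := left_mem_Icc.2 h.lt.le
  have m2 : t2 ∈ Icc t1 t2 := right_mem_Icc.2 h.lt.le
  have hδδ := P.hδδ
  have hc := fun t ht => P.condX (s t).r (abs_le.1 (h.zone t ht)) (s t).p (s t).q (hV t ht)
  set B : ℝ → ℝ := fun t => P.α (s t).r * (s t).p + P.γ (s t).r * (s t).q with hB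
  set B1 : ℝ → ℝ := fun t => deriv P.α (s t).r * (s t).p + deriv P.γ (s t).r * (s t).q with hB1
  set u : ℝ → ℝ := fun t => (s t).ξ / B t with hu
  have hB0 : ∀ t ∈ Icc t1 t2, B t ≠ 0 := fun t ht => (hc t ht).1
  have hξ : ∀ t ∈ Icc t1 t2, (P.shift (u t) (s t)).ξ = 0 := by
    intro t ht
    have := hB0 t ht
    show (s t).ξ - (s t).ξ / B t * B t = 0
    field_simp
    ring
  have hE : ∀ t ∈ Icc t1 t2, P.δ ≤ |(s t).r| →
      P.Qn (P.shift (u t) (s t)) = (P.shift (u t) (s t)).Qc := by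
    intro t ht ha
    rcases le_abs.1 ha with hr | hr
    · have hr' : P.δ ≤ (P.shift (u t) (s t)).r := hr
      rw [P.Qn_right _ hr', hξ t ht]
      simp
    · have hr' : (s t).r ≤ -P.δ := by linarith
      have h1 := hV t ht
      rw [P.V1_left _ _ _ hr'] at h1
      have := mul_nonneg (P.left1 _ hr').2.2 (sq_nonneg (s t).q)
      linarith
  obtain ⟨g1, g2⟩ := h.NeckCross_gen (u := u) (u' := fun t =>
      (P.α (s t).r * (s t).π + P.γ (s t).r * (s t).κ + B1 t * (P.shift (u t) (s t)).ρ) / B t)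
    (fun t ht => by
      have o := h.ode t ht
      have hα := ((P.α_smooth.differentiable (by simp)) (s t).r).hasDerivAt.comp t o.r
      have hγ := ((P.γ_smooth.differentiable (by simp)) (s t).r).hasDerivAt.comp t o.r
      have hBd : HasDerivAt B (B1 t * (s t).v) t := by
        refine ((hα.mul o.p).add (hγ.mul o.q)).congr_deriv ?_
        simp only [hB1]
        ring
      have := hB0 t ht
      refine (o.ξ.div hBd this).congr_deriv ?_
      show ((_ + B1 t * (s t).ρ) * B t - _) / _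
        = (_ + B1 t * ((s t).ρ - (s t).ξ / B t * (s t).v)) / B t
      field_simp
      ring)
    (fun t ht hz => by simp [hu, hz.2.1])
    (fun t ht => by
      have hD : 0 < P.β (s t).r * P.α (s t).r - P.γ (s t).r ^ 2 := by
        have := P.D_pos (s t).r
        linarith
      have := NeckCross_alg (σ := (P.shift (u t) (s t)).σ) (ρ := (P.shift (u t) (s t)).ρ)
        (π := (s t).κ) (κ := (s t).π) (P.α_pos (s t).r) hD (hB0 t ht) (hc t ht).2
      convert this using 1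
      simp only [qf, V1, V2, hB1]
      ring)
    (fun ha => (hE t1 m1 (by linarith)).le)
  refine ⟨g1, fun ha => ?_⟩
  rw [NeckCross_Qn_eq (u t2) (h.dH t2 m2), hE t2 m2 ha]
  exact g2

/-- Equilibrium: `u = 0`, `f = Qc`, `f' = σ² - V2 ρ²/2 + h(π,κ) ≥ 0` (`conc`); in the outer zones
`β' q² = 0` gives `β' q = 0` (resp. `α' (p - εq) = 0`), so `Qn = Qc`. -/
theorem Pass.equil (h : P.Pass s t1 t2)
    (hV : ∀ t ∈ Icc t1 t2, (s t).v = 0 ∧ P.V1 (s t).r (s t).p (s t).q = 0) : P.Concl s t2 := by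
  have m1 : t1 ∈ Icc t1 t2 := left_mem_Icc.2 h.lt.le
  have m2 : t2 ∈ Icc t1 t2 := right_mem_Icc.2 h.lt.le
  have hδδ := P.hδδ
  have hE : ∀ t ∈ Icc t1 t2, P.δ ≤ |(s t).r| → P.Qn (s t) = (s t).Qc := by
    intro t ht ha
    obtain ⟨hv, h1⟩ := hV t ht
    rcases le_abs.1 ha with hr | hr
    · rw [P.V1_right _ _ _ hr] at h1
      have h2 : deriv P.α (s t).r * ((s t).p - P.ε * (s t).q) = 0 := by
        rcases mul_eq_zero.1 h1 with h3 | h3
        · rw [h3, zero_mul]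
        · rw [pow_eq_zero_iff two_ne_zero |>.1 h3, mul_zero]
      rw [P.Qn_right _ hr, hv, mul_assoc (s t).ρ, h2]
      simp
    · have hr' : (s t).r ≤ -P.δ := by linarith
      rw [P.V1_left _ _ _ hr'] at h1
      have h2 : deriv P.β (s t).r * (s t).q = 0 := by
        rcases mul_eq_zero.1 h1 with h3 | h3
        · rw [h3, zero_mul]
        · rw [pow_eq_zero_iff two_ne_zero |>.1 h3, mul_zero]
      rw [P.Qn_left _ hr', hv, mul_assoc (s t).ρ, h2]
      simp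
  obtain ⟨g1, g2⟩ := h.NeckCross_gen (u := fun _ => 0) (u' := fun _ => 0)
    (fun t _ => hasDerivAt_const t 0) (fun _ _ _ => rfl)
    (fun t ht => by
      have h1 : P.V2 (s t).r (s t).p (s t).q ≤ 0 := P.conc _ (abs_le.1 (h.zone t ht)) _ _
      have h2 := P.qf_nonneg (s t).r (s t).π (s t).κ
      have h3 := mul_nonneg (neg_nonneg.2 h1) (sq_nonneg (P.shift 0 (s t)).ρ)
      have h4 := sq_nonneg (P.shift 0 (s t)).σ
      linarith)
    (fun ha => by
      rw [NeckCross_shift_zero]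
      exact (hE t1 m1 (by linarith)).le)
  refine ⟨g1, fun ha => ?_⟩
  rw [NeckCross_shift_zero] at g2
  rw [hE t2 m2 ha]
  exact g2

end Prof

end Crest.Agent.R244
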