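import Crest.Agent.R244.Defs

/-! # R244: the small-twist estimate for the neck profile -/

open scoped ContDiff Topology Manifold
open Set Filter
open Crest.GeometryTopology.CoordMetric

noncomputable section

namespace Crest.Agent.R244

set_option linter.unusedSectionVars false
set_option linter.unusedVariables false

/-- the three conditions of `Prof` at one radius -/
def Zone (α γ β : ℝ → ℝ) (r : ℝ) : Prop :=
  (∀ p q, qf (deriv (deriv α) r) (deriv (deriv γ) r) (deriv (deriv β) r) p q ≤ 0) ∧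
  (∀ p q, 0 < qf (deriv α r) (deriv γ r) (deriv β r) p q →
    γ r * p + β r * q ≠ 0 ∧
    0 ≤ -(1 / 2) * qf (deriv (deriv α) r) (deriv (deriv γ) r) (deriv (deriv β) r) p q
          * (γ r * p + β r * q) ^ 2
        + qf (deriv α r) (deriv γ r) (deriv β r) p q * (deriv γ r * p + deriv β r * q)
          * (γ r * p + β r * q)
        - qf (deriv α r) (deriv γ r) (deriv β r) p q ^ 2 * β r / 4) ∧
  (∀ p q, qf (deriv α r) (deriv γ r) (deriv β r) p q < 0 →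
    α r * p + γ r * q ≠ 0 ∧
    0 ≤ -(1 / 2) * qf (deriv (deriv α) r) (deriv (deriv γ) r) (deriv (deriv β) r) p q
          * (α r * p + γ r * q) ^ 2
        + qf (deriv α r) (deriv γ r) (deriv β r) p q * (deriv α r * p + deriv γ r * q)
          * (α r * p + γ r * q)
        - qf (deriv α r) (deriv γ r) (deriv β r) p q ^ 2 * α r / 4)

/-- `W_Y`, `W_X` as a function of numbers -/
def profA_W (V1 V2 d e f : ℝ) : ℝ := -(1 / 2) * V2 * d ^ 2 + V1 * e * d - V1 ^ 2 * f / 4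

/-- `Zone` in terms of the values of the functions and their derivatives -/
def profA_Z (α0 α1 α2 γ0 γ1 γ2 β0 β1 β2 : ℝ) : Prop :=
  (∀ p q, qf α2 γ2 β2 p q ≤ 0) ∧
  (∀ p q, 0 < qf α1 γ1 β1 p q → γ0 * p + β0 * q ≠ 0 ∧
    0 ≤ profA_W (qf α1 γ1 β1 p q) (qf α2 γ2 β2 p q) (γ0 * p + β0 * q) (γ1 * p + β1 * q) β0) ∧
  (∀ p q, qf α1 γ1 β1 p q < 0 → α0 * p + γ0 * q ≠ 0 ∧
    0 ≤ profA_W (qf α1 γ1 β1 p q) (qf α2 γ2 β2 p q) (α0 * p + γ0 * q) (α1 * p + γ1 * q) α0)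

/-- the basic estimate without twist -/
theorem profA_basic {V1 V2 b0 b1 q : ℝ} (hV2 : V2 ≤ 0) (hb : 0 < b0)
    (h : 0 ≤ V1 * (b1 * q ^ 2 - V1)) : 0 ≤ profA_W V1 V2 (b0 * q) (b1 * q) b0 := by
  have e : profA_W V1 V2 (b0 * q) (b1 * q) b0 = (1 / 2) * (-V2) * (b0 * q) ^ 2 +
      b0 * (V1 * (b1 * q ^ 2 - V1)) + 3 / 4 * b0 * V1 ^ 2 := by
    unfold profA_W; ring
  have : 0 ≤ -V2 := by linarith
  rw [e]; positivity

theorem profA_basic_pos {V1 V2 b0 b1 q : ℝ} (hV2 : V2 < 0) (hb : 0 < b0) (hq : q ≠ 0)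
    (h : 0 ≤ V1 * (b1 * q ^ 2 - V1)) : 0 < profA_W V1 V2 (b0 * q) (b1 * q) b0 := by
  have e : profA_W V1 V2 (b0 * q) (b1 * q) b0 = (1 / 2) * (-V2) * (b0 * q) ^ 2 +
      b0 * (V1 * (b1 * q ^ 2 - V1)) + 3 / 4 * b0 * V1 ^ 2 := by
    unfold profA_W; ring
  have : 0 < -V2 := by linarith
  rw [e]; positivity

theorem profA_X {a0 a1 a2 b1 b2 P q : ℝ} (ha0 : 0 < a0) (ha2 : a2 ≤ 0) (hb1 : 0 ≤ b1) (hb2 : b2 ≤ 0)
    (h : a1 * P ^ 2 + b1 * q ^ 2 < 0) : a0 * P ≠ 0 ∧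
      0 ≤ profA_W (a1 * P ^ 2 + b1 * q ^ 2) (a2 * P ^ 2 + b2 * q ^ 2) (a0 * P) (a1 * P) a0 := by
  have h1 : 0 ≤ b1 * q ^ 2 := by positivity
  refine ⟨mul_ne_zero ha0.ne' ?_, profA_basic ?_ ha0 ?_⟩
  · rintro rfl
    simp at h; linarith
  · nlinarith [sq_nonneg P, sq_nonneg q]
  · exact mul_nonneg_of_nonpos_of_nonpos h.le (by linarith)

theorem profA_left {a0 a1 a2 b0 b1 b2 : ℝ} (ha0 : 0 < a0) (hb0 : 0 < b0) (ha1 : a1 ≤ 0)
    (hb1 : 0 ≤ b1) (ha2 : a2 ≤ 0) (hb2 : b2 ≤ 0) : profA_Z a0 a1 a2 0 0 0 b0 b1 b2 := by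
  simp only [profA_Z, qf, mul_zero, zero_mul, add_zero, zero_add]
  refine ⟨fun p q => by nlinarith [sq_nonneg p, sq_nonneg q], fun p q h => ?_,
    fun p q h => profA_X ha0 ha2 hb1 hb2 h⟩
  have h1 : a1 * p ^ 2 ≤ 0 := mul_nonpos_of_nonpos_of_nonneg ha1 (sq_nonneg p)
  refine ⟨mul_ne_zero hb0.ne' ?_, profA_basic ?_ hb0 ?_⟩
  · rintro rfl
    simp at h; linarith
  · nlinarith [sq_nonneg p, sq_nonneg q]
  · exact mul_nonneg h.le (by linarith)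

theorem profA_Y {ε a0 a1 a2 b0 b1 b2 P q : ℝ} (hε : 0 < ε) (ha0 : 0 < a0) (hb0 : 0 < b0)
    (ha1 : a1 < 0) (hb1 : 0 ≤ b1) (ha2 : a2 < 0) (hb2 : b2 ≤ 0)
    (h1 : 2 * ε * a0 * (b1 - a1) < b0 * -a1) (h2 : ε ^ 2 * (a0 * -a2 + 2 * a1 ^ 2) < 2 * b0 * -a2)
    (h : 0 < a1 * P ^ 2 + b1 * q ^ 2) : b0 * q - ε * a0 * P ≠ 0 ∧
      0 ≤ profA_W (a1 * P ^ 2 + b1 * q ^ 2) (a2 * P ^ 2 + b2 * q ^ 2) (b0 * q - ε * a0 * P)
        (b1 * q - ε * a1 * P) (b0 + ε ^ 2 * a0) := by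
  obtain ⟨m, rfl⟩ : ∃ m, a1 = -m := ⟨-a1, by ring⟩
  obtain ⟨n, rfl⟩ : ∃ n, a2 = -n := ⟨-a2, by ring⟩
  have hm : 0 < m := by linarith
  have hn : 0 < n := by linarith
  simp only [neg_neg, sub_neg_eq_add, neg_sq] at h1 h2
  have hq : q ≠ 0 := by
    rintro rfl
    nlinarith [sq_nonneg P]
  have hq2 : 0 < q ^ 2 := by positivity
  set y := b0 * q - ε * a0 * P with hy
  set V := -m * P ^ 2 + b1 * q ^ 2 with hV
  -- `q y ≥ 3/4 b0 q²`
  have k1 : 3 / 4 * b0 * q ^ 2 ≤ q * y := by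
    have e1 : 2 * (P * q) ≤ P ^ 2 + q ^ 2 := by nlinarith [sq_nonneg (P - q)]
    have e2 : m * (2 * (P * q)) ≤ (b1 + m) * q ^ 2 := by nlinarith
    have e3 : ε * a0 * (m * (2 * (P * q))) ≤ ε * a0 * ((b1 + m) * q ^ 2) :=
      mul_le_mul_of_nonneg_left e2 (by positivity)
    have e4 : 2 * ε * a0 * (b1 + m) * q ^ 2 ≤ b0 * m * q ^ 2 :=
      mul_le_mul_of_nonneg_right h1.le hq2.le
    have e5 : m * (4 * (ε * a0 * (P * q))) ≤ m * (b0 * q ^ 2) := by nlinarith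
    have e6 := le_of_mul_le_mul_left e5 hm
    rw [hy]; nlinarith
  have k2 : V ≤ b1 * q ^ 2 := by rw [hV]; nlinarith [sq_nonneg P]
  refine ⟨fun h0 => ?_, ?_⟩
  · rw [h0, mul_zero] at k1
    have : 0 < 3 / 4 * b0 * q ^ 2 := by positivity
    linarith
  have k3 : 3 / 4 * b0 * V ≤ b1 * (q * y) := by
    have e1 : b1 * (3 / 4 * b0 * q ^ 2) ≤ b1 * (q * y) := mul_le_mul_of_nonneg_left k1 hb1
    have e2 : 3 / 4 * b0 * V ≤ 3 / 4 * b0 * (b1 * q ^ 2) :=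
      mul_le_mul_of_nonneg_left k2 (by positivity)
    linarith
  have k4 : V * (3 / 4 * b0 * V) ≤ V * (b1 * (q * y)) := mul_le_mul_of_nonneg_left k3 h.le
  have k5 : 0 ≤ -b2 * q ^ 2 * y ^ 2 := by
    have : 0 ≤ -b2 := by linarith
    positivity
  have k6 : ε ^ 2 * (a0 * n + 2 * m ^ 2) * V ^ 2 ≤ 2 * b0 * n * V ^ 2 :=
    mul_le_mul_of_nonneg_right h2.le (sq_nonneg V)
  have k7 := sq_nonneg (n * P * y + ε * m * V)
  have e : n * profA_W V (-n * P ^ 2 + b2 * q ^ 2) y (b1 * q - ε * -m * P) (b0 + ε ^ 2 * a0) =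
      1 / 2 * (n * P * y + ε * m * V) ^ 2 + n / 2 * (-b2 * q ^ 2 * y ^ 2) +
        n * (V * (b1 * (q * y)) - V * (3 / 4 * b0 * V)) +
        1 / 4 * (2 * b0 * n * V ^ 2 - ε ^ 2 * (a0 * n + 2 * m ^ 2) * V ^ 2) := by
    unfold profA_W; ring
  refine nonneg_of_mul_nonneg_right ?_ hn
  rw [e]
  have := mul_nonneg hn.le (sub_nonneg.mpr k4)
  have := mul_nonneg (half_pos hn).le k5
  linarith

theorem profA_right {ε a0 a1 a2 b0 b1 b2 : ℝ} (hε : 0 < ε) (ha0 : 0 < a0) (hb0 : 0 < b0)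
    (ha1 : a1 < 0) (hb1 : 0 ≤ b1) (ha2 : a2 < 0) (hb2 : b2 ≤ 0)
    (h1 : 2 * ε * a0 * (b1 - a1) < b0 * -a1) (h2 : ε ^ 2 * (a0 * -a2 + 2 * a1 ^ 2) < 2 * b0 * -a2) :
    profA_Z a0 a1 a2 (-ε * a0) (-ε * a1) (-ε * a2) (b0 + ε ^ 2 * a0) (b1 + ε ^ 2 * a1)
      (b2 + ε ^ 2 * a2) := by
  have e : ∀ a b p q : ℝ, qf a (-ε * a) (b + ε ^ 2 * a) p q = a * (p - ε * q) ^ 2 + b * q ^ 2 :=
    fun a b p q => by unfold qf; ring
  have e1 : ∀ a b p q : ℝ, -ε * a * p + (b + ε ^ 2 * a) * q = b * q - ε * a * (p - ε * q) :=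
    fun a b p q => by ring
  have e2 : ∀ a p q : ℝ, a * p + -ε * a * q = a * (p - ε * q) := fun a p q => by ring
  simp only [profA_Z, e, e1, e2]
  exact ⟨fun p q => by nlinarith [sq_nonneg (p - ε * q), sq_nonneg q],
    fun p q h => profA_Y hε ha0 hb0 ha1 hb1 ha2 hb2 h1 h2 h,
    fun p q h => profA_X ha0 ha2.le hb1 hb2 h⟩

/-- the three quantities that have to be positive on the unit sphere -/
def profA_F (α0 α1 α2 γ0 γ1 γ2 β0 β1 β2 p q : ℝ) : ℝ :=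
  min (-qf α2 γ2 β2 p q) (min
    (max (-qf α1 γ1 β1 p q)
      (profA_W (qf α1 γ1 β1 p q) (qf α2 γ2 β2 p q) (γ0 * p + β0 * q) (γ1 * p + β1 * q) β0))
    (max (qf α1 γ1 β1 p q)
      (profA_W (qf α1 γ1 β1 p q) (qf α2 γ2 β2 p q) (α0 * p + γ0 * q) (α1 * p + γ1 * q) α0)))

theorem profA_ne {V1 V2 d e f : ℝ} (hf : 0 ≤ f) (h : 0 < profA_W V1 V2 d e f) : d ≠ 0 := by
  rintro rfl
  have : 0 ≤ V1 ^ 2 * f := by positivity
  unfold profA_W at h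
  linarith

theorem profA_of_sphere {α0 α1 α2 γ0 γ1 γ2 β0 β1 β2 : ℝ} (hα : 0 ≤ α0) (hβ : 0 ≤ β0)
    (h : ∀ z ∈ Metric.sphere (0 : ℝ × ℝ) 1, 0 < profA_F α0 α1 α2 γ0 γ1 γ2 β0 β1 β2 z.1 z.2) :
    profA_Z α0 α1 α2 γ0 γ1 γ2 β0 β1 β2 := by
  have key : ∀ p q : ℝ, (p = 0 ∧ q = 0) ∨ ∃ t p' q' : ℝ, 0 < t ∧ p = t * p' ∧ q = t * q' ∧
      0 < profA_F α0 α1 α2 γ0 γ1 γ2 β0 β1 β2 p' q' := by
    intro p q
    by_cases h0 : ((p, q) : ℝ × ℝ) = 0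
    · exact Or.inl ⟨congrArg Prod.fst h0, congrArg Prod.snd h0⟩
    · have ht : 0 < ‖((p, q) : ℝ × ℝ)‖ := norm_pos_iff.mpr h0
      refine Or.inr ⟨‖((p, q) : ℝ × ℝ)‖, ‖((p, q) : ℝ × ℝ)‖⁻¹ * p, ‖((p, q) : ℝ × ℝ)‖⁻¹ * q, ht,
        by field_simp, by field_simp, h (‖((p, q) : ℝ × ℝ)‖⁻¹ • (p, q)) ?_⟩
      rw [mem_sphere_zero_iff_norm, norm_smul, norm_inv, norm_norm, inv_mul_cancel₀ ht.ne']
  have e : ∀ a c b t p q : ℝ, qf a c b (t * p) (t * q) = t ^ 2 * qf a c b p q :=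
    fun a c b t p q => by unfold qf; ring
  have e1 : ∀ a b t p q : ℝ, a * (t * p) + b * (t * q) = t * (a * p + b * q) :=
    fun a b t p q => by ring
  have e2 : ∀ t V1 V2 d e f : ℝ, profA_W (t ^ 2 * V1) (t ^ 2 * V2) (t * d) (t * e) f =
      t ^ 4 * profA_W V1 V2 d e f := fun t V1 V2 d e f => by unfold profA_W; ring
  refine ⟨fun p q => ?_, fun p q hV => ?_, fun p q hV => ?_⟩
  · rcases key p q with ⟨rfl, rfl⟩ | ⟨t, p, q, ht, rfl, rfl, hF⟩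
    · simp [qf]
    · rw [e]
      have := (lt_min_iff.mp hF).1
      exact mul_nonpos_of_nonneg_of_nonpos (sq_nonneg t) (by linarith)
  · rcases key p q with ⟨rfl, rfl⟩ | ⟨t, p, q, ht, rfl, rfl, hF⟩
    · simp [qf] at hV
    · rw [e] at hV
      have hV' := pos_of_mul_pos_right hV (sq_nonneg t)
      have hW := (lt_max_iff.mp (lt_min_iff.mp (lt_min_iff.mp hF).2).1).resolve_left (by linarith)
      simp only [e, e1, e2]
      exact ⟨mul_ne_zero ht.ne' (profA_ne hβ hW), by positivity⟩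
  · rcases key p q with ⟨rfl, rfl⟩ | ⟨t, p, q, ht, rfl, rfl, hF⟩
    · simp [qf] at hV
    · rw [e] at hV
      have hV' := neg_of_mul_neg_right hV (sq_nonneg t)
      have hW := (lt_max_iff.mp (lt_min_iff.mp (lt_min_iff.mp hF).2).2).resolve_left (by linarith)
      simp only [e, e1, e2]
      exact ⟨mul_ne_zero ht.ne' (profA_ne hα hW), by positivity⟩

theorem profA_F_zero {a0 a1 a2 b0 b1 b2 p q : ℝ} (ha0 : 0 < a0) (hb0 : 0 < b0) (ha1 : a1 < 0)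
    (hb1 : 0 < b1) (ha2 : a2 < 0) (hb2 : b2 < 0) (h : p ≠ 0 ∨ q ≠ 0) :
    0 < profA_F a0 a1 a2 0 0 0 b0 b1 b2 p q := by
  simp only [profA_F, qf, mul_zero, zero_mul, add_zero, zero_add, lt_min_iff, lt_max_iff]
  have h1 : a1 * p ^ 2 ≤ 0 := mul_nonpos_of_nonpos_of_nonneg ha1.le (sq_nonneg p)
  have h2 : 0 ≤ b1 * q ^ 2 := by positivity
  have hV2 : a2 * p ^ 2 + b2 * q ^ 2 < 0 := by
    rcases h with h | h
    · have : 0 < p ^ 2 := by positivity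
      nlinarith [sq_nonneg q]
    · have : 0 < q ^ 2 := by positivity
      nlinarith [sq_nonneg p]
  refine ⟨by linarith, ?_, ?_⟩
  · rcases lt_or_ge (a1 * p ^ 2 + b1 * q ^ 2) 0 with hV | hV
    · exact Or.inl (by linarith)
    · refine Or.inr (profA_basic_pos hV2 hb0 ?_ (mul_nonneg hV (by linarith)))
      rintro rfl
      have : 0 < p ^ 2 := by have := h.resolve_right (by simp); positivity
      nlinarith
  · rcases lt_or_ge 0 (a1 * p ^ 2 + b1 * q ^ 2) with hV | hV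
    · exact Or.inl hV
    · refine Or.inr (profA_basic_pos hV2 ha0 ?_
        (mul_nonneg_of_nonpos_of_nonpos hV (by linarith)))
      rintro rfl
      have : 0 < q ^ 2 := by have := h.resolve_left (by simp); positivity
      nlinarith

theorem profA_compact {Y : Type} [TopologicalSpace Y] {K : Set Y} (hK : IsCompact K)
    {f : ℝ × Y → ℝ} (hf : Continuous f) (h : ∀ y ∈ K, 0 < f (0, y)) :
    ∀ᶠ ε in 𝓝 (0 : ℝ), ∀ y ∈ K, 0 < f (ε, y) :=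
  hK.eventually_forall_of_forall_eventually (P := fun ε y => 0 < f (ε, y)) fun y hy =>
    (hf.tendsto (0, y)).eventually (lt_mem_nhds (h y hy))

theorem profA_smooth {f : ℝ → ℝ} (hf : ContDiff ℝ ∞ f) :
    (∀ r, HasDerivAt f (deriv f r) r) ∧ (∀ r, HasDerivAt (deriv f) (deriv (deriv f) r) r) ∧
      Continuous f ∧ Continuous (deriv f) ∧ Continuous (deriv (deriv f)) := by
  obtain ⟨h1, h2⟩ := contDiff_infty_iff_deriv.mp hf
  obtain ⟨h3, h4⟩ := contDiff_infty_iff_deriv.mp h2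
  exact ⟨fun r => (h1 r).hasDerivAt, fun r => (h3 r).hasDerivAt, hf.continuous, h2.continuous,
    h4.continuous⟩

theorem profA_const {f : ℝ → ℝ} {r c : ℝ} (h : f =ᶠ[𝓝 r] fun _ => c) :
    f r = c ∧ deriv f r = 0 ∧ deriv (deriv f) r = 0 := by
  refine ⟨h.eq_of_nhds, by simpa using h.deriv_eq, ?_⟩
  have := h.deriv.deriv_eq
  simpa using this

theorem profA_zone {a b χ : ℝ → ℝ} (ha : ContDiff ℝ ∞ a) (hb : ContDiff ℝ ∞ b)
    (hχ : ContDiff ℝ ∞ χ) (ε r : ℝ)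
    (h : profA_Z (a r) (deriv a r) (deriv (deriv a) r) (-ε * χ r * a r)
      (-ε * (deriv χ r * a r + χ r * deriv a r))
      (-ε * (deriv (deriv χ) r * a r + 2 * deriv χ r * deriv a r + χ r * deriv (deriv a) r))
      (b r + ε ^ 2 * χ r ^ 2 * a r)
      (deriv b r + ε ^ 2 * (2 * χ r * deriv χ r * a r + χ r ^ 2 * deriv a r))
      (deriv (deriv b) r + ε ^ 2 * (2 * deriv χ r ^ 2 * a r + 2 * χ r * deriv (deriv χ) r * a r +
        4 * χ r * deriv χ r * deriv a r + χ r ^ 2 * deriv (deriv a) r))) :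
    Zone a (fun r => -ε * χ r * a r) (fun r => b r + ε ^ 2 * χ r ^ 2 * a r) r := by
  obtain ⟨a1, a2, -⟩ := profA_smooth ha
  obtain ⟨b1, b2, -⟩ := profA_smooth hb
  obtain ⟨c1, c2, -⟩ := profA_smooth hχ
  have g1 : deriv (fun r => -ε * χ r * a r) =
      fun r => -ε * (deriv χ r * a r + χ r * deriv a r) := funext fun r =>
    ((((c1 r).const_mul (-ε)).fun_mul (a1 r)).congr_deriv (by ring)).deriv
  have g2 : deriv (fun r => -ε * (deriv χ r * a r + χ r * deriv a r)) r =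
      -ε * (deriv (deriv χ) r * a r + 2 * deriv χ r * deriv a r + χ r * deriv (deriv a) r) :=
    (((((c2 r).fun_mul (a1 r)).fun_add ((c1 r).fun_mul (a2 r))).const_mul (-ε)).congr_deriv
      (by ring)).deriv
  have g3 : deriv (fun r => b r + ε ^ 2 * χ r ^ 2 * a r) =
      fun r => deriv b r + ε ^ 2 * (2 * χ r * deriv χ r * a r + χ r ^ 2 * deriv a r) :=
    funext fun r => (((b1 r).fun_add ((((c1 r).fun_pow 2).const_mul (ε ^ 2)).fun_mul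
      (a1 r))).congr_deriv (by push_cast; ring)).deriv
  have g4 : deriv (fun r => deriv b r + ε ^ 2 * (2 * χ r * deriv χ r * a r + χ r ^ 2 * deriv a r)) r =
      deriv (deriv b) r + ε ^ 2 * (2 * deriv χ r ^ 2 * a r + 2 * χ r * deriv (deriv χ) r * a r +
        4 * χ r * deriv χ r * deriv a r + χ r ^ 2 * deriv (deriv a) r) :=
    (((b2 r).fun_add ((((((c1 r).const_mul 2).fun_mul (c2 r)).fun_mul (a1 r)).fun_add
      (((c1 r).fun_pow 2).fun_mul (a2 r))).const_mul (ε ^ 2))).congr_deriv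
      (by push_cast; ring)).deriv
  unfold Zone
  rw [g1, g2, g3, g4]
  exact h

/-- Notation: `V = a (p - εχq)² + b q²`, `V1, V2` its `r`-derivatives, `W_Y, W_X` the two expressions.
Recipe.  First compute `deriv`, `deriv deriv` of `γ, β` as explicit polynomials in
`ε, a, a', a'', b, b', b'', χ, χ', χ''`.
* `r < -1/10`: `χ = χ' = χ'' = 0` (locally constant).  `V1 = a'p² + b'q²`, `V2 = a''p² + b''q² ≤ 0`;
  `W_Y = -V2 ẏ²/2 + V1 b (b'q² - V1/4)` with `V1 ≤ b'q²`; `W_X = -V2 ẋ²/2 + V1 a (a'p² - V1/4)`.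
* `r > 1/10`: `χ = 1`, `P = p - εq`, `V1 = a'P² + b'q²`, `ẋ = aP`, `W_X` as before with `P`.  For `W_Y`:
  bounds `-a' ≥ m`, `-a'' ≥ m`, `b ≥ m`, `a, |a'|, b' ≤ K` on `[1/10, 1/4]` (compactness); `V1 > 0` gives
  `mP² ≤ Kq²`, `q ≠ 0`; `ẏ = bq - εaP`; `W_Y ≥ |a''|P²ẏ²/2 + V1 b' q ẏ - ε V1 a' P ẏ - V1² β/4`,
  `b' q ẏ ≥ b'q² (b - εC) ≥ V1 (b - εC)`, AM-GM `|ε V1 a' P ẏ| ≤ |a''|P²ẏ²/2 + ε² a'² V1²/(2|a''|)`.
* `|r| ≤ 3/20`: all expressions are homogeneous in `(p,q)`, so take `(p,q)` on the unit circle.  The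
  continuous functions `-V2`, `max (-V1) W_Y`, `max V1 W_X` of `(ε, r, p, q)` are positive for `ε = 0`
  (if `V1 ≥ 0` then `q ≠ 0` as `a' < 0`, and `W_Y ≥ -V2 b²q²/2 > 0`); `IsCompact.eventually_forall_of_forall_eventually`
  (or a minimum + uniform continuity) gives `ε0`.  If `W_Y > 0` then `ẏ ≠ 0` (else `W_Y ≤ 0`). -/
theorem exists_eps {a b χ : ℝ → ℝ} (ha : ContDiff ℝ ∞ a) (hb : ContDiff ℝ ∞ b)
    (hχ : ContDiff ℝ ∞ χ) (hχ0 : ∀ r ≤ -(1 / 10 : ℝ), χ r = 0) (hχ1 : ∀ r ≥ (1 / 10 : ℝ), χ r = 1)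
    (hpos : ∀ r ∈ Icc (-(1 / 4) : ℝ) (1 / 4), 0 < a r ∧ 0 < b r ∧ deriv a r ≤ 0 ∧ 0 ≤ deriv b r ∧
      deriv (deriv a) r ≤ 0 ∧ deriv (deriv b) r ≤ 0)
    (ha' : ∀ r ∈ Icc (-(3 / 20) : ℝ) (1 / 4), deriv a r < 0 ∧ deriv (deriv a) r < 0)
    (hb' : ∀ r ∈ Icc (-(1 / 4) : ℝ) (3 / 20), 0 < deriv b r ∧ deriv (deriv b) r < 0) :
    ∃ ε0 : ℝ, 0 < ε0 ∧ ∀ ε, 0 < ε → ε < ε0 → ∀ r ∈ Icc (-(1 / 4) : ℝ) (1 / 4),
      Zone a (fun r => -ε * χ r * a r) (fun r => b r + ε ^ 2 * χ r ^ 2 * a r) r := by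
  obtain ⟨-, -, a0, a1, a2⟩ := profA_smooth ha
  obtain ⟨-, -, b0, b1, b2⟩ := profA_smooth hb
  obtain ⟨-, -, c0, c1, c2⟩ := profA_smooth hχ
  have E1 := profA_compact (isCompact_Icc (a := (1 / 10 : ℝ)) (b := 1 / 4))
    (f := fun z => b z.2 * -deriv a z.2 - 2 * z.1 * a z.2 * (deriv b z.2 - deriv a z.2))
    (by fun_prop) fun r hr => by
      have h1 := (hpos r ⟨by linarith [hr.1], hr.2⟩).2.1
      have h2 := (ha' r ⟨by linarith [hr.1], hr.2⟩).1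
      simpa using mul_pos h1 (neg_pos.mpr h2)
  have E2 := profA_compact (isCompact_Icc (a := (1 / 10 : ℝ)) (b := 1 / 4))
    (f := fun z => 2 * b z.2 * -deriv (deriv a) z.2 -
      z.1 ^ 2 * (a z.2 * -deriv (deriv a) z.2 + 2 * deriv a z.2 ^ 2))
    (by fun_prop) fun r hr => by
      have h1 := (hpos r ⟨by linarith [hr.1], hr.2⟩).2.1
      have h2 := (ha' r ⟨by linarith [hr.1], hr.2⟩).2
      simpa using mul_pos (mul_pos two_pos h1) (neg_pos.mpr h2)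
  have E3 := profA_compact ((isCompact_Icc (a := -(1 / 10 : ℝ)) (b := 1 / 10)).prod
    (isCompact_sphere (0 : ℝ × ℝ) 1))
    (f := fun z => profA_F (a z.2.1) (deriv a z.2.1) (deriv (deriv a) z.2.1)
      (-z.1 * χ z.2.1 * a z.2.1)
      (-z.1 * (deriv χ z.2.1 * a z.2.1 + χ z.2.1 * deriv a z.2.1))
      (-z.1 * (deriv (deriv χ) z.2.1 * a z.2.1 + 2 * deriv χ z.2.1 * deriv a z.2.1 +
        χ z.2.1 * deriv (deriv a) z.2.1))
      (b z.2.1 + z.1 ^ 2 * χ z.2.1 ^ 2 * a z.2.1)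
      (deriv b z.2.1 + z.1 ^ 2 * (2 * χ z.2.1 * deriv χ z.2.1 * a z.2.1 +
        χ z.2.1 ^ 2 * deriv a z.2.1))
      (deriv (deriv b) z.2.1 + z.1 ^ 2 * (2 * deriv χ z.2.1 ^ 2 * a z.2.1 +
        2 * χ z.2.1 * deriv (deriv χ) z.2.1 * a z.2.1 +
        4 * χ z.2.1 * deriv χ z.2.1 * deriv a z.2.1 + χ z.2.1 ^ 2 * deriv (deriv a) z.2.1))
      z.2.2.1 z.2.2.2)
    (by unfold profA_F profA_W qf; fun_prop) fun y hy => by
      obtain ⟨hr, hz⟩ := hy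
      have h1 := hpos y.1 ⟨by linarith [hr.1], by linarith [hr.2]⟩
      have h2 := ha' y.1 ⟨by linarith [hr.1], by linarith [hr.2]⟩
      have h3 := hb' y.1 ⟨by linarith [hr.1], by linarith [hr.2]⟩
      have h4 : y.2.1 ≠ 0 ∨ y.2.2 ≠ 0 := by
        by_contra hc
        push Not at hc
        have : y.2 = 0 := Prod.ext hc.1 hc.2
        simp [this] at hz
      simpa using profA_F_zero h1.1 h1.2.1 h2.1 h3.1 h2.2 h3.2 h4
  obtain ⟨ε0, hε0, H⟩ := Metric.eventually_nhds_iff.mp (E1.and (E2.and E3))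
  refine ⟨ε0, hε0, fun ε hε hε' r hr => profA_zone ha hb hχ ε r ?_⟩
  obtain ⟨H1, H2, H3⟩ := H (y := ε) (by simpa [abs_of_pos hε] using hε')
  have h1 := hpos r hr
  rcases lt_or_ge r (-(1 / 10)) with hl | hl
  · obtain ⟨e0, e1, e2⟩ := profA_const (f := χ) (c := 0)
      ((eventually_lt_nhds hl).mono fun s hs => hχ0 s hs.le)
    simpa [e0, e1, e2] using profA_left h1.1 h1.2.1 h1.2.2.1 h1.2.2.2.1 h1.2.2.2.2.1 h1.2.2.2.2.2
  rcases lt_or_ge (1 / 10) r with hg | hg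
  · obtain ⟨e0, e1, e2⟩ := profA_const (f := χ) (c := 1)
      ((eventually_gt_nhds hg).mono fun s hs => hχ1 s hs.le)
    have h2 := ha' r ⟨by linarith, hr.2⟩
    have := profA_right hε h1.1 h1.2.1 h2.1 h1.2.2.2.1 h2.2 h1.2.2.2.2.2
      (sub_pos.mp (H1 r ⟨hg.le, hr.2⟩)) (sub_pos.mp (H2 r ⟨hg.le, hr.2⟩))
    simpa [e0, e1, e2] using this
  · exact profA_of_sphere h1.1.le (by have := h1.1; have := h1.2.1; positivity)
      fun z hz => H3 (r, z) ⟨⟨hl, hg⟩, hz⟩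

end Crest.Agent.R244
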