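import Crest.Agent.R244.ProfA

/-! # R244: existence of the neck profile -/

open scoped ContDiff Topology Manifold
open Set Filter
open Crest.GeometryTopology.CoordMetric

noncomputable section

namespace Crest.Agent.R244

set_option linter.unusedSectionVars false
set_option linter.unusedVariables false

lemma profB_glue (x : ℝ) : HasDerivAt expNegInvGlue (x⁻¹ ^ 2 * expNegInvGlue x) x := by
  have h := expNegInvGlue.hasDerivAt_polynomial_eval_inv_mul 1 x
  simpa using h

lemma profB_sigma (x : ℝ) (hx : x ≤ 1 / 2) :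
    4 * Real.smoothTransition x ^ 2 ≤ deriv Real.smoothTransition x := by
  rcases le_or_gt x 0 with h0 | h0
  · rw [Real.smoothTransition.zero_of_nonpos h0]
    simpa using Real.smoothTransition.monotone.deriv_nonneg
  have hD := Real.smoothTransition.pos_denom x
  have h1 := profB_glue x
  have h2 : HasDerivAt (fun y => expNegInvGlue (1 - y))
      (-((1 - x)⁻¹ ^ 2 * expNegInvGlue (1 - x))) x := by
    simpa using (profB_glue (1 - x)).comp_const_sub 1 x
  have h3 := h1.div (h1.add h2) hD.ne'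
  have h4 : deriv Real.smoothTransition x = _ := h3.deriv
  rw [h4, Real.smoothTransition, div_pow, ← mul_div_assoc]
  refine div_le_div_of_nonneg_right ?_ (sq_nonneg _)
  simp only [Pi.add_apply]
  have hf := expNegInvGlue.nonneg x
  have hfg : expNegInvGlue x ≤ expNegInvGlue (1 - x) := expNegInvGlue.monotone (by linarith)
  have hi : 2 ≤ x⁻¹ := by
    rw [le_inv_comm₀ (by norm_num) h0]
    linarith
  have hi2 : 4 ≤ x⁻¹ ^ 2 := by nlinarith
  set f := expNegInvGlue x
  set g := expNegInvGlue (1 - x)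
  have e1 : 0 ≤ f * ((1 - x)⁻¹ ^ 2 * g) := by
    have : 0 ≤ g := hf.trans hfg
    positivity
  have e2 : f * f ≤ f * g := mul_le_mul_of_nonneg_left hfg hf
  have e3 : 4 * (f * g) ≤ x⁻¹ ^ 2 * (f * g) :=
    mul_le_mul_of_nonneg_right hi2 (mul_nonneg hf (hf.trans hfg))
  nlinarith

/-- Recipe: `η x = ∫ t in 0..x, Real.smoothTransition t`, so `η' = σ = smoothTransition`
(`contDiff_succ_iff_deriv`/`contDiff_infty_iff_deriv`, `intervalIntegral.integral_hasDerivAt_right`).
On `(0,1)`, `σ' = σ (1-σ) (1/x² + 1/(1-x)²)` (from `expNegInvGlue' x = expNegInvGlue x / x²` for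
`x > 0`), `1/x² ≥ 4` and `σ ≤ 1 - σ` for `0 < x ≤ 1/2` (`expNegInvGlue.monotone`); `σ` is monotone
(`Real.smoothTransition.monotone`, `Monotone.deriv_nonneg`). -/
theorem exists_eta : ∃ (η : ℝ → ℝ) (c : ℝ), ContDiff ℝ ∞ η ∧ (∀ x ≤ 0, η x = 0) ∧
    (∀ x ≥ 1, η x = x - c) ∧ (∀ x, 0 ≤ η x) ∧ (∀ x, 0 ≤ deriv η x) ∧
    (∀ x, 0 ≤ deriv (deriv η) x) ∧ (∀ x, 0 < x → 0 < deriv η x) ∧
    ∀ x ≤ 1 / 2, 4 * deriv η x ^ 2 ≤ deriv (deriv η) x := by
  have hc : Continuous Real.smoothTransition := Real.smoothTransition.continuous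
  have hd : ∀ x, HasDerivAt (fun x => ∫ t in (0 : ℝ)..x, Real.smoothTransition t)
      (Real.smoothTransition x) x := fun x => (hc.integral_hasStrictDerivAt 0 x).hasDerivAt
  have hd' : deriv (fun x => ∫ t in (0 : ℝ)..x, Real.smoothTransition t) =
      Real.smoothTransition := funext fun x => (hd x).deriv
  have h0 : ∀ x ≤ 0, ∫ t in (0 : ℝ)..x, Real.smoothTransition t = 0 := fun x hx => by
    rw [intervalIntegral.integral_congr (g := fun _ => (0 : ℝ))]
    · simp
    · intro t ht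
      rw [uIcc_of_ge hx] at ht
      exact Real.smoothTransition.zero_of_nonpos ht.2
  refine ⟨fun x => ∫ t in (0 : ℝ)..x, Real.smoothTransition t,
    1 - ∫ t in (0 : ℝ)..1, Real.smoothTransition t, ?_, h0, ?_, ?_, ?_, ?_, ?_, ?_⟩
  · rw [contDiff_infty_iff_deriv, hd']
    exact ⟨fun x => (hd x).differentiableAt, Real.smoothTransition.contDiff⟩
  · intro x hx
    have h1 : ∫ t in (1 : ℝ)..x, Real.smoothTransition t = x - 1 := by
      rw [intervalIntegral.integral_congr (g := fun _ => (1 : ℝ))]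
      · simp
      · intro t ht
        rw [uIcc_of_le hx] at ht
        exact Real.smoothTransition.one_of_one_le ht.1
    have h2 := intervalIntegral.integral_add_adjacent_intervals (μ := MeasureTheory.volume)
      (hc.intervalIntegrable 0 1) (hc.intervalIntegrable 1 x)
    simp only
    linarith
  · intro x
    rcases le_total x 0 with hx | hx
    · exact (h0 x hx).ge
    · exact intervalIntegral.integral_nonneg hx fun t _ => Real.smoothTransition.nonneg t
  · intro x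
    rw [hd']
    exact Real.smoothTransition.nonneg x
  · intro x
    rw [hd']
    exact Real.smoothTransition.monotone.deriv_nonneg
  · intro x hx
    rw [hd']
    exact Real.smoothTransition.pos_of_pos hx
  · intro x hx
    rw [hd']
    exact profB_sigma x hx

lemma profB_deriv_eqOn {f g : ℝ → ℝ} (hf : Differentiable ℝ f) (hg : Differentiable ℝ g)
    {s : Set ℝ} (hs : UniqueDiffOn ℝ s) (h : ∀ x ∈ s, f x = g x) :
    ∀ x ∈ s, deriv f x = deriv g x := fun x hx =>
  (hs x hx).eq_deriv _ (hf x).hasDerivAt.hasDerivWithinAt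
    ((hg x).hasDerivAt.hasDerivWithinAt.congr h (h x hx))

lemma profB_smooth {f : ℝ → ℝ} (hf : ContDiff ℝ ∞ f) :
    Differentiable ℝ f ∧ Differentiable ℝ (deriv f) := by
  have h := contDiff_infty_iff_deriv.1 hf
  exact ⟨h.1, (contDiff_infty_iff_deriv.1 h.2).1⟩

lemma profB_eqOn {f g : ℝ → ℝ} (hf : ContDiff ℝ ∞ f) (hg : ContDiff ℝ ∞ g)
    {s : Set ℝ} (hs : UniqueDiffOn ℝ s) (h : ∀ x ∈ s, f x = g x) :
    ∀ x ∈ s, deriv f x = deriv g x ∧ deriv (deriv f) x = deriv (deriv g) x := by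
  have h1 := profB_deriv_eqOn (profB_smooth hf).1 (profB_smooth hg).1 hs h
  have h2 := profB_deriv_eqOn (profB_smooth hf).2 (profB_smooth hg).2 hs h1
  exact fun x hx => ⟨h1 x hx, h2 x hx⟩

lemma profB_affine {f : ℝ → ℝ} (c d : ℝ) (x : ℝ) :
    deriv (fun r => c + d * f r) x = d * deriv f x ∧
      deriv (deriv (fun r => c + d * f r)) x = d * deriv (deriv f) x := by
  have h : deriv (fun r => c + d * f r) = fun x => d * deriv f x := by
    funext x
    rw [deriv_const_add, deriv_const_mul_field]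
  rw [h]
  exact ⟨rfl, deriv_const_mul_field _⟩

section inv

variable {F : ℝ → ℝ} (hF : ContDiff ℝ ∞ F) (hp : ∀ r, 0 < F r)
include hF hp

lemma profB_inv_smooth : ContDiff ℝ ∞ fun r => 1 / F r ^ 2 :=
  contDiff_const.div (hF.pow 2) fun r => (pow_pos (hp r) 2).ne'

lemma profB_inv_d1 : deriv (fun r => 1 / F r ^ 2) = fun r => -2 * deriv F r / F r ^ 3 := by
  funext r
  have h1 := ((profB_smooth hF).1 r).hasDerivAt
  have h2 := (hasDerivAt_const r (1 : ℝ)).div (h1.pow 2) (pow_pos (hp r) 2).ne'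
  have h3 : deriv (fun r => 1 / F r ^ 2) r = _ := h2.deriv
  rw [h3]
  have := (hp r).ne'
  simp only [Pi.pow_apply]
  field_simp
  ring

lemma profB_inv_d2 (r : ℝ) : deriv (deriv (fun r => 1 / F r ^ 2)) r =
    (6 * deriv F r ^ 2 - 2 * F r * deriv (deriv F) r) / F r ^ 4 := by
  rw [profB_inv_d1 hF hp]
  have h1 := ((profB_smooth hF).1 r).hasDerivAt
  have h1' := ((profB_smooth hF).2 r).hasDerivAt
  have h2 := (h1'.const_mul (-2)).div (h1.pow 3) (pow_pos (hp r) 3).ne'
  have h3 : deriv (fun r => -2 * deriv F r / F r ^ 3) r = _ := h2.deriv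
  rw [h3]
  have := (hp r).ne'
  simp only [Pi.pow_apply]
  field_simp
  ring

lemma profB_inv_conv (r : ℝ) (h : 0 ≤ deriv (deriv F) r) :
    2 * (1 / F r ^ 2) * deriv (deriv (fun r => 1 / F r ^ 2)) r ≤
      3 * deriv (fun r => 1 / F r ^ 2) r ^ 2 := by
  rw [profB_inv_d2 hF hp, profB_inv_d1 hF hp]
  have h0 := hp r
  have e : 3 * (-2 * deriv F r / F r ^ 3) ^ 2 -
      2 * (1 / F r ^ 2) * ((6 * deriv F r ^ 2 - 2 * F r * deriv (deriv F) r) / F r ^ 4) =
      4 * deriv (deriv F) r / F r ^ 5 := by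
    field_simp
    ring
  have : 0 ≤ 4 * deriv (deriv F) r / F r ^ 5 := by positivity
  simp only
  linarith

lemma profB_inv_conc (r : ℝ) (h1 : 1 ≤ F r) (h : 4 * deriv F r ^ 2 ≤ deriv (deriv F) r) :
    deriv (deriv (fun r => 1 / F r ^ 2)) r ≤ 0 ∧
      (deriv F r ≠ 0 → deriv (deriv (fun r => 1 / F r ^ 2)) r < 0) := by
  rw [profB_inv_d2 hF hp]
  have h0 := pow_pos (hp r) 4
  have h2 := sq_nonneg (deriv F r)
  have h3 : deriv (deriv F) r ≤ F r * deriv (deriv F) r :=
    le_mul_of_one_le_left (by linarith) h1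
  refine ⟨div_nonpos_of_nonpos_of_nonneg (by linarith) h0.le, fun h4 => ?_⟩
  have h5 : 0 < deriv F r ^ 2 := by positivity
  exact div_neg_of_neg_of_pos (by linarith) h0

lemma profB_inv_sign (r : ℝ) :
    (0 ≤ deriv F r → deriv (fun r => 1 / F r ^ 2) r ≤ 0) ∧
    (0 < deriv F r → deriv (fun r => 1 / F r ^ 2) r < 0) ∧
    (deriv F r ≤ 0 → 0 ≤ deriv (fun r => 1 / F r ^ 2) r) ∧
    (deriv F r < 0 → 0 < deriv (fun r => 1 / F r ^ 2) r) := by
  rw [profB_inv_d1 hF hp]
  have h0 := pow_pos (hp r) 3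
  exact ⟨fun h => div_nonpos_of_nonpos_of_nonneg (by linarith) h0.le,
    fun h => div_neg_of_neg_of_pos (by linarith) h0,
    fun h => div_nonneg (by linarith) h0.le, fun h => div_pos (by linarith) h0⟩

end inv

/-- Recipe: `δ = 1/5`, `δ' = 1/4`, `H r = 1 + η (r + δ)`, `G₀ r = 1 + η (δ - r)`,
`G r = G₀ r + (1/ε - 1) η (-r - 1)`, `ρ = ε G`, `χ r = smoothTransition (5 r + 1/2)`, `a = H⁻²`,
`α = a`, `γ = -ε χ a`, `β = G⁻² + ε² χ² a`, `Λ = 2 ρ(-3) + 2 H 3 + 1`, `ε = min ε0 1 / 2` with `ε0` from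
`exists_eps` for `b = G₀⁻²` (near `[-1/4,1/4]` one has `G = G₀`, so `β` is eventually equal to the
function of `exists_eps`: `EventuallyEq.deriv`).  For `F > 0`: `(F⁻²)' = -2F'/F³`,
`(F⁻²)'' = (6F'² - 2FF'')/F⁴`; `FF'' ≥ F'' ≥ 4F'²` on the zone; `D = a G⁻²`.  For the closed
half-lines `r ≤ -δ`, `r ≥ δ`: `η' = η'' = 0` on `x ≤ 0` (closedness of the zero set of a continuous
function, or `deriv` formulas), and `χ` is locally constant there. -/
theorem exists_prof : Nonempty Prof := by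
  obtain ⟨η, c, hη, η0, η1, ηn, d1n, d2n, d1p, dq⟩ := exists_eta
  have ηd := profB_smooth hη
  have ηm : Monotone η := monotone_of_deriv_nonneg ηd.1 d1n
  -- the function `H`
  set H : ℝ → ℝ := fun r => 1 + η (r + 1 / 5) with hH
  have Hs : ContDiff ℝ ∞ H := contDiff_const.add (hη.comp (contDiff_id.add contDiff_const))
  have H1 : ∀ r, 1 ≤ H r := fun r => le_add_of_nonneg_right (ηn _)
  have Hp : ∀ r, 0 < H r := fun r => one_pos.trans_le (H1 r)
  have Hd1 : deriv H = fun r => deriv η (r + 1 / 5) := by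
    funext r
    rw [hH, deriv_const_add, deriv_comp_add_const]
  have Hd2 : ∀ r, deriv (deriv H) r = deriv (deriv η) (r + 1 / 5) := fun r => by
    rw [Hd1, deriv_comp_add_const]
  -- the function `G₀`
  set G0 : ℝ → ℝ := fun r => 1 + η (1 / 5 - r) with hG0
  have G0s : ContDiff ℝ ∞ G0 := contDiff_const.add (hη.comp (contDiff_const.sub contDiff_id))
  have G01 : ∀ r, 1 ≤ G0 r := fun r => le_add_of_nonneg_right (ηn _)
  have G0p : ∀ r, 0 < G0 r := fun r => one_pos.trans_le (G01 r)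
  have G0d1 : deriv G0 = fun r => -deriv η (1 / 5 - r) := by
    funext r
    rw [hG0, deriv_const_add, deriv_comp_const_sub]
  have G0d2 : ∀ r, deriv (deriv G0) r = deriv (deriv η) (1 / 5 - r) := fun r => by
    rw [G0d1, deriv.fun_neg, deriv_comp_const_sub, neg_neg]
  -- the cut-off
  set χ : ℝ → ℝ := fun r => Real.smoothTransition (5 * r + 1 / 2) with hχ
  have χs : ContDiff ℝ ∞ χ :=
    Real.smoothTransition.contDiff.comp ((contDiff_const.mul contDiff_id).add contDiff_const)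
  have χ0 : ∀ r ≤ -(1 / 10 : ℝ), χ r = 0 := fun r hr =>
    Real.smoothTransition.zero_of_nonpos (by linarith)
  have χ1 : ∀ r ≥ (1 / 10 : ℝ), χ r = 1 := fun r hr =>
    Real.smoothTransition.one_of_one_le (by linarith)
  set a : ℝ → ℝ := fun r => 1 / H r ^ 2 with ha
  set b : ℝ → ℝ := fun r => 1 / G0 r ^ 2 with hb
  have as : ContDiff ℝ ∞ a := profB_inv_smooth Hs Hp
  have bs : ContDiff ℝ ∞ b := profB_inv_smooth G0s G0p
  have ap : ∀ r, 0 < a r := fun r => one_div_pos.2 (pow_pos (Hp r) 2)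
  have bp : ∀ r, 0 < b r := fun r => one_div_pos.2 (pow_pos (G0p r) 2)
  have Hq : ∀ r ≤ (1 / 4 : ℝ), 4 * deriv H r ^ 2 ≤ deriv (deriv H) r := fun r hr => by
    rw [Hd2, Hd1]
    exact dq _ (by linarith)
  have Gq : ∀ r, (-(1 / 4) : ℝ) ≤ r → 4 * deriv G0 r ^ 2 ≤ deriv (deriv G0) r := fun r hr => by
    rw [G0d2, G0d1]
    simp only [neg_sq]
    exact dq _ (by linarith)
  have Hn : ∀ r, 0 ≤ deriv H r := fun r => by rw [Hd1]; exact d1n _
  have Gn : ∀ r, deriv G0 r ≤ 0 := fun r => by rw [G0d1]; exact neg_nonpos.2 (d1n _)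
  obtain ⟨ε0, hε0, hZ⟩ := exists_eps as bs χs χ0 χ1
    (fun r hr => ⟨ap r, bp r, (profB_inv_sign Hs Hp r).1 (Hn r),
      (profB_inv_sign G0s G0p r).2.2.1 (Gn r), (profB_inv_conc Hs Hp r (H1 r) (Hq r hr.2)).1,
      (profB_inv_conc G0s G0p r (G01 r) (Gq r hr.1)).1⟩)
    (fun r hr => by
      have h : 0 < deriv H r := by
        rw [Hd1]
        exact d1p _ (by linarith [hr.1])
      exact ⟨(profB_inv_sign Hs Hp r).2.1 h,
        (profB_inv_conc Hs Hp r (H1 r) (Hq r hr.2)).2 h.ne'⟩)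
    (fun r hr => by
      have h : deriv G0 r < 0 := by
        rw [G0d1]
        exact neg_neg_iff_pos.2 (d1p _ (by linarith [hr.2]))
      exact ⟨(profB_inv_sign G0s G0p r).2.2.2 h,
        (profB_inv_conc G0s G0p r (G01 r) (Gq r hr.1)).2 h.ne⟩)
  obtain ⟨ε, hε, hε1, hε2⟩ : ∃ ε : ℝ, 0 < ε ∧ ε < ε0 ∧ ε ≤ 1 :=
    ⟨min ε0 1 / 2, by positivity, by linarith [min_le_left ε0 1, lt_min hε0 one_pos],
      by linarith [min_le_right ε0 1]⟩
  have hκ : 0 ≤ 1 / ε - 1 := by
    rw [sub_nonneg, le_div_iff₀ hε]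
    linarith
  -- the function `G`
  set G : ℝ → ℝ := fun r => G0 r + (1 / ε - 1) * η (-1 - r) with hG
  have ηs' : ContDiff ℝ ∞ fun r => (1 / ε - 1) * η (-1 - r) :=
    contDiff_const.mul (hη.comp (contDiff_const.sub contDiff_id))
  have Gs : ContDiff ℝ ∞ G := G0s.add ηs'
  have Gp : ∀ r, 0 < G r := fun r => add_pos_of_pos_of_nonneg (G0p r) (mul_nonneg hκ (ηn _))
  have Gd1 : deriv G = fun r => deriv G0 r + -(1 / ε - 1) * deriv η (-1 - r) := by
    funext r
    rw [hG, deriv_fun_add ((profB_smooth G0s).1 r) ((profB_smooth ηs').1 r),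
      deriv_const_mul_field, deriv_comp_const_sub]
    ring
  have Gd2 : ∀ r, deriv (deriv G) r =
      deriv (deriv G0) r + (1 / ε - 1) * deriv (deriv η) (-1 - r) := fun r => by
    have h : DifferentiableAt ℝ (fun r => -(1 / ε - 1) * deriv η (-1 - r)) r :=
      ((ηd.2 _).comp r ((differentiableAt_const _).sub differentiableAt_id)).const_mul _
    rw [Gd1, deriv_fun_add ((profB_smooth G0s).2 r) h, deriv_const_mul_field,
      deriv_comp_const_sub]
    ring
  have Gn' : ∀ r, deriv G r ≤ 0 := fun r => by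
    rw [Gd1]
    have := mul_nonneg hκ (d1n (-1 - r))
    have := Gn r
    simp only
    linarith
  have Gc : ∀ r, 0 ≤ deriv (deriv G) r := fun r => by
    rw [Gd2, G0d2]
    exact add_nonneg (d2n _) (mul_nonneg hκ (d2n _))
  have Hc : ∀ r, 0 ≤ deriv (deriv H) r := fun r => by rw [Hd2]; exact d2n _
  set g : ℝ → ℝ := fun r => 1 / G r ^ 2 with hg
  have gs : ContDiff ℝ ∞ g := profB_inv_smooth Gs Gp
  have gp : ∀ r, 0 < g r := fun r => one_div_pos.2 (pow_pos (Gp r) 2)
  set γ : ℝ → ℝ := fun r => -ε * χ r * a r with hγ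
  set β : ℝ → ℝ := fun r => g r + ε ^ 2 * χ r ^ 2 * a r with hβ
  have γs : ContDiff ℝ ∞ γ := (contDiff_const.mul χs).mul as
  have βs : ContDiff ℝ ∞ β := gs.add ((contDiff_const.mul (χs.pow 2)).mul as)
  -- the zone
  have hzone : ∀ r ∈ Icc (-(1 / 4) : ℝ) (1 / 4), Zone a γ β r := fun r hr => by
    have h0 : ∀ x ∈ Ici (-1 : ℝ), β x = b x + ε ^ 2 * χ x ^ 2 * a x := fun x hx => by
      have : η (-1 - x) = 0 := η0 _ (by linarith [mem_Ici.1 hx])
      simp only [hβ, hg, hG, hb, this, mul_zero, add_zero]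
    have hr' : r ∈ Ici (-1 : ℝ) := by
      rw [mem_Ici]
      linarith [hr.1]
    have h1 := profB_eqOn βs (bs.add ((contDiff_const.mul (χs.pow 2)).mul as))
      (uniqueDiffOn_Ici _) h0 r hr'
    have h2 := hZ ε hε hε1 r hr
    unfold Zone at h2 ⊢
    rw [h0 r hr', h1.1, h1.2]
    exact h2
  -- the left half-line
  have l0 : ∀ r ∈ Iic (-(1 / 5) : ℝ), a r = 1 := fun r hr => by
    have : η (r + 1 / 5) = 0 := η0 _ (by linarith [mem_Iic.1 hr])
    simp only [ha, hH, this, add_zero, one_pow, div_one]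
  have l1 : ∀ r ∈ Iic (-(1 / 5) : ℝ), γ r = 0 := fun r hr => by
    have : χ r = 0 := χ0 r (by linarith [mem_Iic.1 hr])
    simp only [hγ, this, mul_zero, zero_mul]
  have l2 : ∀ r ∈ Iic (-(1 / 5) : ℝ), β r = g r := fun r hr => by
    have : χ r = 0 := χ0 r (by linarith [mem_Iic.1 hr])
    simp [hβ, this]
  have L0 := profB_eqOn as contDiff_const (uniqueDiffOn_Iic _) l0
  have L1 := profB_eqOn γs contDiff_const (uniqueDiffOn_Iic _) l1
  have L2 := profB_eqOn βs gs (uniqueDiffOn_Iic _) l2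
  -- the right half-line
  have r1 : ∀ r ∈ Ici (1 / 5 : ℝ), γ r = 0 + -ε * a r := fun r hr => by
    have : χ r = 1 := χ1 r (by linarith [mem_Ici.1 hr])
    simp only [hγ, this, mul_one, zero_add]
  have r2 : ∀ r ∈ Ici (1 / 5 : ℝ), β r = 1 + ε ^ 2 * a r := fun r hr => by
    have h1 : χ r = 1 := χ1 r (by linarith [mem_Ici.1 hr])
    have h2 : η (1 / 5 - r) = 0 := η0 _ (by linarith [mem_Ici.1 hr])
    have h3 : η (-1 - r) = 0 := η0 _ (by linarith [mem_Ici.1 hr])
    simp only [hβ, hg, hG, hG0, h1, h2, h3, mul_zero, add_zero, one_pow, div_one, mul_one]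
  have R1 := profB_eqOn γs (contDiff_const.add (contDiff_const.mul as)) (uniqueDiffOn_Ici _) r1
  have R2 := profB_eqOn βs (contDiff_const.add (contDiff_const.mul as)) (uniqueDiffOn_Ici _) r2
  have ρp : ∀ r, 0 < ε * G r := fun r => mul_pos hε (Gp r)
  refine ⟨{
    ε := ε
    δ := 1 / 5
    δ' := 1 / 4
    Λ := 2 * (ε * G (-3)) + 2 * H 3 + 1
    c1 := ε * (6 / 5 - c) - (1 - ε) * (1 + c)
    c2 := 6 / 5 - c
    α := a
    γ := γ
    β := β
    ρ := fun r => ε * G r
    H := H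
    hε := hε
    hδ := by norm_num
    hδδ := by norm_num
    hδ2 := by norm_num
    α_smooth := as
    γ_smooth := γs
    β_smooth := βs
    ρ_smooth := contDiff_const.mul Gs
    H_smooth := Hs
    α_pos := ap
    D_pos := fun r => ?_
    ρ_pos := ρp
    H_pos := Hp
    ρ_anti := fun x y hxy =>
      mul_le_mul_of_nonneg_left (antitone_of_deriv_nonpos (profB_smooth Gs).1 Gn' hxy) hε.le
    H_mono := monotone_of_deriv_nonneg (profB_smooth Hs).1 Hn
    ρ_lin := fun r hr => ?_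
    H_lin := fun r hr => ?_
    Λρ := by linarith [Hp 3]
    ΛH := by linarith [ρp (-3)]
    left0 := fun r hr => ⟨l0 r hr, l1 r hr, ?_⟩
    left1 := fun r hr => ⟨by simpa using (L0 r hr).1, by simpa using (L1 r hr).1, ?_⟩
    left2 := fun r hr => ⟨by simpa using (L0 r hr).2, by simpa using (L1 r hr).2, ?_⟩
    right0 := fun r hr => ⟨rfl, by simpa using r1 r hr, r2 r hr⟩
    right1 := fun r hr => ⟨(R1 r hr).1.trans (profB_affine _ _ r).1,
      (R2 r hr).1.trans (profB_affine _ _ r).1, (profB_inv_sign Hs Hp r).1 (Hn r)⟩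
    right2 := fun r hr => ⟨(R1 r hr).2.trans (profB_affine _ _ r).2,
      (R2 r hr).2.trans (profB_affine _ _ r).2, profB_inv_conv Hs Hp r (Hc r)⟩
    conc := fun r hr => (hzone r hr).1
    condY := fun r hr => (hzone r hr).2.1
    condX := fun r hr => (hzone r hr).2.2 }⟩
  · have e : a r * β r - γ r ^ 2 = a r * g r := by
      simp only [hβ, hγ]
      ring
    rw [e]
    exact mul_pos (ap r) (gp r)
  · have h1 : η (1 / 5 - r) = 1 / 5 - r - c := η1 _ (by linarith)
    have h2 : η (-1 - r) = -1 - r - c := η1 _ (by linarith)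
    simp only [hG, hG0, h1, h2]
    field_simp
    ring
  · have h1 : η (r + 1 / 5) = r + 1 / 5 - c := η1 _ (by linarith)
    simp only [hH, h1]
    ring
  · rw [l2 r hr]
    have := (Gp r).ne'
    simp only [hg]
    field_simp
  · rw [(L2 r hr).1]
    exact (profB_inv_sign Gs Gp r).2.2.1 (Gn' r)
  · rw [(L2 r hr).1, (L2 r hr).2, l2 r hr]
    exact profB_inv_conv Gs Gp r (Gc r)

end Crest.Agent.R244
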