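import Crest.Agent.R244.Loc

/-! # R244: the quotient space -/

open scoped ContDiff Topology Manifold
open Set Filter
open Crest.GeometryTopology.CoordMetric

noncomputable section

namespace Crest.Agent.R244

set_option linter.unusedSectionVars false
set_option linter.unusedVariables false

variable {O : Fin 3 → Set E} {G : Fin 3 → MetricField 3} {R : Fin 3 × E → Fin 3 × E → Prop}

/-- Recipe: `M` = quotient of `X = {d : Fin 3 × E // d.2 ∈ O d.1}` by `R`;
`π i y = if h : y ∈ O i then ⟦⟨(i,y),h⟩⟧ else default`.  The quotient map is open (the saturation of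
an open set is open by `loc'` and continuity of `τ` at `d.2`; `Fin 3` is discrete), hence `π i` maps
open subsets of `O i` to open sets.  T2: `t2Space_iff_of_isOpenQuotientMap` (or separate directly)
with `sep`; second countable: `IsOpenQuotientMap.secondCountableTopology` /
`Quotient.secondCountableTopology`; compact: `univ = ⋃ i, π i '' K i`; connected: `π 1 '' O 1` is
connected and every point is joined to it (`conn`).  Chart at `x = ⟦(i,y)⟧` (`Quotient.out`): by
`inj` there is an open `W ⊆ O i` around `y` on which `π i` is injective; take the inverse of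
`OpenPartialHomeomorph.ofContinuousOpenRestrict (InjOn.toPartialEquiv ..)`. -/
theorem Etale.exists_glued (h : Etale O G R) :
    ∃ (M : Type) (_ : TopologicalSpace M), T2Space M ∧ SecondCountableTopology M ∧
      CompactSpace M ∧ ConnectedSpace M ∧
      ∃ (π : Fin 3 → E → M) (ι : M → Fin 3) (φ : M → OpenPartialHomeomorph M E),
        Glued O R π ι φ := by
  classical
  let X : Type := {d : Fin 3 × E // d.2 ∈ O d.1}
  let S : Setoid X := ⟨fun a b => R a.1 b.1,
    ⟨fun a => h.refl _ a.2, fun hab => h.symm _ _ hab, fun hab hbc => h.trans _ _ _ hab hbc⟩⟩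
  let q : X → Quotient S := Quotient.mk S
  have hq : ∀ a b : X, q a = q b ↔ R a.1 b.1 := fun a b => Quotient.eq
  have hqq : Topology.IsQuotientMap q := isQuotientMap_quot_mk
  have hO : ∀ i, IsOpen (O i) := fun i => (h.riem i).isOpen
  obtain ⟨y₀, hy₀⟩ := h.conn1.nonempty
  let s : Fin 3 → E → X := fun i y => if hy : y ∈ O i then ⟨(i, y), hy⟩ else ⟨(1, y₀), hy₀⟩
  have hs : ∀ i y (hy : y ∈ O i), s i y = ⟨(i, y), hy⟩ := fun i y hy => dif_pos hy
  have hs' : ∀ i y, y ∈ O i → (s i y).1 = (i, y) := fun i y hy => by rw [hs i y hy]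
  have hsa : ∀ a : X, s a.1.1 a.1.2 = a := fun a => hs _ _ a.2
  have hsc : ∀ i y, y ∈ O i → ContinuousAt (s i) y := fun i y hy => by
    refine Topology.IsInducing.subtypeVal.continuousAt_iff.2 ?_
    refine ContinuousAt.congr (f := fun z : E => ((i, z) : Fin 3 × E)) (by fun_prop) ?_
    filter_upwards [(hO i).mem_nhds hy] with z hz
    exact (hs' i z hz).symm
  have c1 : Continuous fun b : X => b.1.1 := by fun_prop
  have c2 : Continuous fun b : X => b.1.2 := by fun_prop
  have hfst : ∀ a : X, ∀ᶠ b in 𝓝 a, b.1.1 = a.1.1 := fun a =>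
    c1.continuousAt.eventually ((isOpen_discrete {a.1.1}).mem_nhds rfl)
  have hev : ∀ (a : X) (P : X → Prop), (∀ᶠ z in 𝓝 a.1.2, P (s a.1.1 z)) → ∀ᶠ b in 𝓝 a, P b := by
    intro a P hP
    filter_upwards [hfst a, c2.continuousAt.eventually hP] with b h1 h2
    rwa [← h1, hsa] at h2
  have hopen : IsOpenMap q := by
    intro U hU
    rw [← hqq.isOpen_preimage, isOpen_iff_mem_nhds]
    rintro a ⟨u, hu, hua⟩
    obtain ⟨τ, hτ, hiso, hτR⟩ := h.loc' (h.symm _ _ ((hq _ _).1 hua))
    have t1 : Tendsto τ (𝓝 a.1.2) (𝓝 u.1.2) := by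
      have := hiso.self_of_nhds.1.continuousAt
      rwa [ContinuousAt, hτ] at this
    have t2 : Tendsto (s u.1.1) (𝓝 u.1.2) (𝓝 u) := by
      have := hsc _ _ u.2
      rwa [ContinuousAt, hsa] at this
    refine hev a (fun b => b ∈ q ⁻¹' (q '' U)) ?_
    filter_upwards [hτR, (t2.comp t1).eventually (hU.mem_nhds hu)] with z h1 h2
    refine ⟨_, h2, (hq _ _).2 ?_⟩
    have h3 := h.dom _ _ h1.1
    rw [Function.comp_apply, hs' _ _ h3.2, hs' _ _ h3.1]
    exact h.symm _ _ h1.1
  let π : Fin 3 → E → Quotient S := fun i y => q (s i y)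
  have hπc : ∀ i, ContinuousOn (π i) (O i) := fun i y hy =>
    (hqq.continuous.continuousAt.comp (hsc i y hy)).continuousWithinAt
  have hπe : ∀ i y j y', y ∈ O i → y' ∈ O j → (π i y = π j y' ↔ R (i, y) (j, y')) :=
    fun i y j y' hy hy' => by
      rw [hq, hs' i y hy, hs' j y' hy']
  have hπq : ∀ a : X, π a.1.1 a.1.2 = q a := fun a => congrArg q (hsa a)
  have hπo : ∀ i V, IsOpen V → V ⊆ O i → IsOpen (π i '' V) := fun i V hV hVO => by
    have e : π i '' V = q '' (s i '' V) := (image_image q (s i) V).symm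
    rw [e]
    refine hopen _ (isOpen_iff_mem_nhds.2 ?_)
    rintro _ ⟨y, hy, rfl⟩
    refine hev _ (fun b => b ∈ s i '' V) ?_
    rw [hs' i y (hVO hy)]
    filter_upwards [hV.mem_nhds hy] with z hz
    exact ⟨z, hz, rfl⟩
  have hchart : ∀ x : Quotient S, ∃ (i : Fin 3) (φ : OpenPartialHomeomorph (Quotient S) E),
      x ∈ φ.source ∧ ∀ y ∈ φ.target, y ∈ O i ∧ φ.symm y = π i y := by
    intro x
    obtain ⟨a, rfl⟩ := hqq.surjective x
    have hinj := h.inj a.1.1 a.1.2 a.2
    rw [nhds_prod_eq] at hinj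
    obtain ⟨t, ht, htt⟩ := Filter.mem_prod_self_iff.1 hinj
    obtain ⟨W, hW, hWo, haW⟩ := mem_nhds_iff.1 (inter_mem ht ((hO _).mem_nhds a.2))
    have hI : InjOn (π a.1.1) W := fun y hy y' hy' e =>
      htt (mk_mem_prod (hW hy).1 (hW hy').1) ((hπe _ _ _ _ (hW hy).2 (hW hy').2).1 e)
    have hWO : W ⊆ O a.1.1 := fun y hy => (hW hy).2
    have hom : IsOpenMap (W.domRestrict (π a.1.1)) := fun U hU => by
      have e : W.domRestrict (π a.1.1) '' U = π a.1.1 '' (Subtype.val '' U) :=
        (image_image (π a.1.1) Subtype.val U).symm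
      rw [e]
      exact hπo _ _ (hWo.isOpenMap_subtype_val U hU) (by rintro _ ⟨y, -, rfl⟩; exact hWO y.2)
    refine ⟨a.1.1, (OpenPartialHomeomorph.ofContinuousOpenRestrict
      (hI.toPartialEquiv (π a.1.1) W) ((hπc _).mono hWO) hom hWo).symm, ?_,
      fun y hy => ⟨hWO hy, rfl⟩⟩
    exact ⟨a.1.2, haW, hπq a⟩
  choose ι φ hφ1 hφ2 using hchart
  have : SecondCountableTopology X :=
    Topology.IsEmbedding.subtypeVal.secondCountableTopology
  refine ⟨Quotient S, inferInstance, ?_, hqq.secondCountableTopology hopen, ?_, ?_,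
    π, ι, φ, hπc, hπe, hφ1, hφ2⟩
  · rw [t2Space_iff_of_isOpenQuotientMap ⟨hqq.surjective, hqq.continuous, hopen⟩,
      ← isOpen_compl_iff, isOpen_iff_mem_nhds]
    rintro ⟨a, b⟩ hab
    have hn : ¬ R a.1 b.1 := fun hr => hab ((hq a b).2 hr)
    have t1 : Tendsto (fun p : X × X => (p.1.1.2, p.2.1.2)) (𝓝 (a, b)) (𝓝 (a.1.2, b.1.2)) :=
      ((c2.comp continuous_fst).prodMk (c2.comp continuous_snd)).continuousAt
    filter_upwards [t1.eventually (h.sep a.1 b.1 a.2 b.2 hn),
      (continuous_fst.continuousAt (x := (a, b))).eventually (hfst a),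
      (continuous_snd.continuousAt (x := (a, b))).eventually (hfst b)] with p h1 h2 h3 h4
    rw [← h2, ← h3] at h1
    exact h1 ((hq _ _).1 h4)
  · obtain ⟨K, hK, hcov⟩ := h.cpt
    refine ⟨?_⟩
    have e : (univ : Set (Quotient S)) = ⋃ i, π i '' K i := by
      refine (eq_univ_of_forall fun x => ?_).symm
      obtain ⟨a, rfl⟩ := hqq.surjective x
      obtain ⟨i, y, hy, hr⟩ := hcov a.1 a.2
      refine mem_iUnion.2 ⟨i, y, hy, ?_⟩
      rw [← hπq a]
      exact (hπe _ _ _ _ ((hK i).2 hy) a.2).2 (h.symm _ _ hr)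
    rw [e]
    exact isCompact_iUnion fun i => (hK i).1.image_of_continuousOn ((hπc i).mono (hK i).2)
  · have hpre : IsPreconnected (univ : Set (Quotient S)) := by
      refine isPreconnected_of_forall (π 1 y₀) fun x _ => ?_
      obtain ⟨a, rfl⟩ := hqq.surjective x
      obtain ⟨i, y, y', z, h1, ⟨γ, hγ⟩, h3⟩ := h.conn a.1 a.2
      have d1 := h.dom _ _ h1
      have d3 := h.dom _ _ h3
      refine ⟨π 1 '' O 1 ∪ π i '' range γ, subset_univ _, Or.inl ⟨y₀, hy₀, rfl⟩,
        Or.inr ⟨y, ⟨0, γ.source⟩, ?_⟩, ?_⟩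
      · rw [← hπq a]
        exact (hπe _ _ _ _ d1.2 a.2).2 (h.symm _ _ h1)
      · refine IsPreconnected.union (π 1 z) ⟨z, d3.2, rfl⟩
          ⟨y', ⟨1, γ.target⟩, (hπe _ _ _ _ d3.1 d3.2).2 h3⟩
          (h.conn1.isPreconnected.image _ (hπc 1))
          ((isPreconnected_range γ.continuous).image _ ((hπc i).mono ?_))
        rintro _ ⟨t, rfl⟩
        exact hγ t
    exact { isPreconnected_univ := hpre, toNonempty := ⟨π 1 y₀⟩ }

end Crest.Agent.R244
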